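import Mathlib

/-!
Over a ring with enough units, an upper triangular matrix with roots of unity on the diagonal and
determinant one is a product of two commutators in the special linear group.
-/

namespace Vale.Agent.P002.Curve

open Matrix Polynomial

variable {K : Type*} [CommRing K] {n : ℕ}

/-- product of the linear factors indexed by a finite set -/
noncomputable def linProd (m : Fin (n + 1) → K) (S : Finset (Fin (n + 1))) : K[X] :=
  ∏ k ∈ S, (X - C (m k))

/-- upper triangular matrices, as a subalgebra -/
def triAlg (K : Type*) [CommRing K] (n : ℕ) :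
    Subalgebra K (Matrix (Fin (n + 1)) (Fin (n + 1)) K) where
  carrier := {M | M.BlockTriangular id}
  mul_mem' h1 h2 := h1.mul h2
  add_mem' h1 h2 := h1.add h2
  algebraMap_mem' c := by
    rw [Matrix.algebraMap_eq_diagonal]
    exact Matrix.blockTriangular_diagonal _

lemma tri_mul_diag {M N : Matrix (Fin (n + 1)) (Fin (n + 1)) K} (hM : M.BlockTriangular id)
    (hN : N.BlockTriangular id) (j : Fin (n + 1)) : (M * N) j j = M j j * N j j := by
  rw [Matrix.mul_apply, Finset.sum_eq_single j]
  · intro k _ hk
    rcases lt_or_gt_of_ne hk with h | h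
    · rw [hM h, zero_mul]
    · rw [hN h, mul_zero]
  · simp

/-- the diagonal entry, as an algebra map -/
def triDiag (K : Type*) [CommRing K] (n : ℕ) (j : Fin (n + 1)) : triAlg K n →ₐ[K] K where
  toFun M := (M : Matrix (Fin (n + 1)) (Fin (n + 1)) K) j j
  map_one' := by simp
  map_mul' M N := tri_mul_diag M.2 N.2 j
  map_zero' := rfl
  map_add' M N := rfl
  commutes' c := by
    change algebraMap K (Matrix (Fin (n + 1)) (Fin (n + 1)) K) c j j = _
    simp [Matrix.algebraMap_matrix_apply]

lemma aeval_tri {M : Matrix (Fin (n + 1)) (Fin (n + 1)) K} (hM : M.BlockTriangular id) (q : K[X]) :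
    (aeval M q).BlockTriangular id ∧ ∀ j, aeval M q j j = q.eval (M j j) := by
  have h : ((aeval (⟨M, hM⟩ : triAlg K n) q : triAlg K n) :
      Matrix (Fin (n + 1)) (Fin (n + 1)) K) = aeval M q :=
    (Polynomial.aeval_algHom_apply (triAlg K n).val (⟨M, hM⟩ : triAlg K n) q).symm
  refine ⟨h ▸ (aeval (⟨M, hM⟩ : triAlg K n) q).2, fun j => ?_⟩
  rw [← h]
  change triDiag K n j (aeval (⟨M, hM⟩ : triAlg K n) q) = _
  rw [← Polynomial.aeval_algHom_apply, Polynomial.coe_aeval_eq_eval]
  rfl

lemma tri_kill {M : Matrix (Fin (n + 1)) (Fin (n + 1)) K} (hM : M.BlockTriangular id)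
    (i : Fin (n + 1)) :
    aeval M (linProd (fun k => M k k) (Finset.Iic i)) *ᵥ Pi.single i 1 = 0 := by
  induction i using WellFoundedLT.induction with
  | _ i ih =>
    set P := linProd (fun k => M k k) (Finset.Iio i) with hP
    have hsplit : linProd (fun k => M k k) (Finset.Iic i) = P * (X - C (M i i)) := by
      rw [hP, linProd, linProd, ← Finset.Iio_insert, Finset.prod_insert (by simp), mul_comm]
    have hlow : ∀ k < i, aeval M P *ᵥ Pi.single k 1 = 0 := by
      intro k hk
      have hsub : Finset.Iic k ⊆ Finset.Iio i := fun a ha => by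
        simp only [Finset.mem_Iic] at ha
        simp only [Finset.mem_Iio]
        exact lt_of_le_of_lt ha hk
      rw [hP, linProd, ← Finset.prod_sdiff hsub, map_mul, ← Matrix.mulVec_mulVec]
      rw [← linProd, ← linProd]
      rw [ih k hk, Matrix.mulVec_zero]
    have hv : (M - algebraMap K _ (M i i)) *ᵥ Pi.single i 1 =
        ∑ k ∈ Finset.Iio i, M k i • Pi.single k 1 := by
      funext a
      simp only [Matrix.mulVec_single_one, Matrix.col_apply, Matrix.sub_apply,
        Matrix.algebraMap_matrix_apply, Algebra.algebraMap_self, RingHom.id_apply,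
        Finset.sum_apply, Pi.smul_apply, Pi.single_apply, smul_eq_mul, mul_ite, mul_one, mul_zero,
        Finset.sum_ite_eq, Finset.mem_Iio]
      rcases lt_trichotomy a i with h | h | h
      · simp [h, h.ne]
      · subst h; simp
      · simp [h.ne', not_lt.2 h.le, hM h]
    rw [hsplit, map_mul, ← Matrix.mulVec_mulVec, map_sub, aeval_X, aeval_C, hv, Matrix.mulVec_sum]
    refine Finset.sum_eq_zero fun k hk => ?_
    rw [Matrix.mulVec_smul, hlow k (Finset.mem_Iio.1 hk), smul_zero]

/-- A triangular matrix with unit gaps between diagonal entries is diagonalised by a unitriangular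
matrix. -/
theorem exists_unitri_diag {M : Matrix (Fin (n + 1)) (Fin (n + 1)) K} (hM : M.BlockTriangular id)
    (hu : ∀ j k, k < j → IsUnit (M j j - M k k)) :
    ∃ u : Matrix (Fin (n + 1)) (Fin (n + 1)) K, u.BlockTriangular id ∧ (∀ j, u j j = 1) ∧
      M * u = u * Matrix.diagonal (fun j => M j j) := by
  set Q : Fin (n + 1) → K[X] := fun j => linProd (fun k => M k k) (Finset.Iio j) with hQ
  have hc : ∀ j, ∃ c : K, c * (Q j).eval (M j j) = 1 := by
    intro j
    have : IsUnit ((Q j).eval (M j j)) := by
      simp only [hQ, linProd]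
      rw [eval_prod]
      refine IsUnit.prod_iff.2 fun k hk => ?_
      simpa using hu j k (Finset.mem_Iio.1 hk)
    obtain ⟨c, hc⟩ := this.exists_left_inv
    exact ⟨c, hc⟩
  choose c hc using hc
  refine ⟨Matrix.of fun i j => c j * aeval M (Q j) i j, fun i j hij => ?_, fun j => ?_, ?_⟩
  · simp only [Matrix.of_apply, (aeval_tri hM _).1 hij, mul_zero]
  · rw [Matrix.of_apply, (aeval_tri hM _).2, hc]
  · ext i j
    rw [Matrix.mul_apply, Matrix.mul_diagonal]
    simp only [Matrix.of_apply]
    have h := congrFun (tri_kill hM j) i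
    have hsplit : linProd (fun k => M k k) (Finset.Iic j) = (X - C (M j j)) * Q j := by
      simp only [hQ, linProd]
      rw [← Finset.Iio_insert, Finset.prod_insert (by simp)]
    rw [hsplit, map_mul, map_sub, aeval_X, aeval_C, Matrix.mulVec_single_one, Matrix.col_apply,
      Matrix.sub_mul, Matrix.sub_apply, Matrix.mul_apply, ← Algebra.smul_def, Matrix.smul_apply,
      Pi.zero_apply, sub_eq_zero, smul_eq_mul] at h
    calc ∑ x, M i x * (c j * aeval M (Q j) x j) = c j * ∑ x, M i x * aeval M (Q j) x j := by
          rw [Finset.mul_sum]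
          exact Finset.sum_congr rfl fun x _ => by ring
      _ = c j * aeval M (Q j) i j * M j j := by rw [h]; ring

lemma det_tri {M : Matrix (Fin (n + 1)) (Fin (n + 1)) K} (hM : M.BlockTriangular id) :
    M.det = ∏ j, M j j :=
  Matrix.det_of_isUpperTriangular hM

/-- diagonal matrices in the special linear group -/
noncomputable def diagS (d : Fin (n + 1) → K) (h : ∏ j, d j = 1) :
    SpecialLinearGroup (Fin (n + 1)) K :=
  ⟨Matrix.diagonal d, by rw [Matrix.det_diagonal, h]⟩

/-- A triangular matrix with diagonal `d` differs from the diagonal by a commutator. -/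
theorem exists_comm_unitri (e d : Fin (n + 1) → K) (he : ∏ j, e j = 1) (hd : ∏ j, d j = 1)
    (hgap : ∀ j k, k < j → IsUnit (e j - e k)) (T : SpecialLinearGroup (Fin (n + 1)) K)
    (hT : (T : Matrix (Fin (n + 1)) (Fin (n + 1)) K).BlockTriangular id)
    (hTd : ∀ j, T j j = d j) :
    ∃ u : SpecialLinearGroup (Fin (n + 1)) K,
      T = diagS e he * u * (diagS e he)⁻¹ * u⁻¹ * diagS d hd := by
  set E := diagS e he
  set D := diagS d hd
  have hd' : ∏ j, ∏ k ∈ Finset.univ.erase j, d k = 1 := by
    have h1 : ∀ j : Fin (n + 1), d j * ∏ k ∈ Finset.univ.erase j, d k = 1 := fun j => by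
      rw [Finset.mul_prod_erase _ _ (Finset.mem_univ j), hd]
    have := Finset.prod_congr (s₁ := (Finset.univ : Finset (Fin (n + 1)))) rfl (fun j _ => h1 j)
    rw [Finset.prod_mul_distrib, hd, one_mul, Finset.prod_const_one] at this
    exact this
  have he' : ∏ j, ∏ k ∈ Finset.univ.erase j, e k = 1 := by
    have h1 : ∀ j : Fin (n + 1), e j * ∏ k ∈ Finset.univ.erase j, e k = 1 := fun j => by
      rw [Finset.mul_prod_erase _ _ (Finset.mem_univ j), he]
    have := Finset.prod_congr (s₁ := (Finset.univ : Finset (Fin (n + 1)))) rfl (fun j _ => h1 j)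
    rw [Finset.prod_mul_distrib, he, one_mul, Finset.prod_const_one] at this
    exact this
  set di : Fin (n + 1) → K := fun j => ∏ k ∈ Finset.univ.erase j, d k with hdi
  set ei : Fin (n + 1) → K := fun j => ∏ k ∈ Finset.univ.erase j, e k with hei
  set Di := diagS di hd'
  set Ei := diagS ei he'
  have hDi : D⁻¹ = Di := by
    refine inv_eq_of_mul_eq_one_right (Subtype.ext ?_)
    change Matrix.diagonal d * Matrix.diagonal di = 1
    rw [Matrix.diagonal_mul_diagonal, ← Matrix.diagonal_one]
    exact congrArg Matrix.diagonal (funext fun j => by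
      rw [hdi, Finset.mul_prod_erase _ _ (Finset.mem_univ j), hd])
  have hEi : E⁻¹ = Ei := by
    refine inv_eq_of_mul_eq_one_right (Subtype.ext ?_)
    change Matrix.diagonal e * Matrix.diagonal ei = 1
    rw [Matrix.diagonal_mul_diagonal, ← Matrix.diagonal_one]
    exact congrArg Matrix.diagonal (funext fun j => by
      rw [hei, Finset.mul_prod_erase _ _ (Finset.mem_univ j), he])
  set M : Matrix (Fin (n + 1)) (Fin (n + 1)) K :=
    Matrix.diagonal ei * ((T : Matrix (Fin (n + 1)) (Fin (n + 1)) K) * Matrix.diagonal di) with hM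
  have hMt : M.BlockTriangular id :=
    (Matrix.blockTriangular_diagonal _).mul (hT.mul (Matrix.blockTriangular_diagonal _))
  have hMd : ∀ j, M j j = ei j := by
    intro j
    rw [hM, Matrix.diagonal_mul, Matrix.mul_diagonal, hTd, hdi,
      Finset.mul_prod_erase _ _ (Finset.mem_univ j), hd, mul_one]
  have hMgap : ∀ j k, k < j → IsUnit (M j j - M k k) := by
    intro j k hjk
    rw [hMd, hMd]
    have hu : ∀ i, IsUnit (ei i) := fun i =>
      IsUnit.of_mul_eq_one (e i) (by
        rw [hei, mul_comm, Finset.mul_prod_erase _ _ (Finset.mem_univ i), he])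
    have : ei j - ei k = -(e j - e k) * (ei j * ei k) := by
      have hj : e j * ei j = 1 := by
        rw [hei, Finset.mul_prod_erase _ _ (Finset.mem_univ j), he]
      have hk : e k * ei k = 1 := by
        rw [hei, Finset.mul_prod_erase _ _ (Finset.mem_univ k), he]
      linear_combination ei k * hj - ei j * hk
    rw [this]
    exact (hgap j k hjk).neg.mul ((hu j).mul (hu k))
  obtain ⟨u, hu1, hu2, hu3⟩ := exists_unitri_diag hMt hMgap
  set U : SpecialLinearGroup (Fin (n + 1)) K :=
    ⟨u, by rw [det_tri hu1]; exact Finset.prod_eq_one fun j _ => hu2 j⟩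
  refine ⟨U, ?_⟩
  have key : Ei * (T * Di) * U = U * Ei := by
    refine Subtype.ext ?_
    change M * u = u * Matrix.diagonal ei
    rw [hu3]
    simp only [hMd]
  rw [← hDi, ← hEi] at key
  calc T = E * (E⁻¹ * (T * D⁻¹) * U) * U⁻¹ * D := by group
    _ = E * U * E⁻¹ * U⁻¹ * D := by rw [key]; group

/-- partial products -/
def ppr (d : Fin (n + 1) → K) (j : Fin (n + 1)) : K := ∏ k ∈ Finset.Iio j, d k

/-- A diagonal matrix of roots of unity is a commutator. -/
theorem exists_comm_diag (d : Fin (n + 1) → K) (hd : ∏ j, d j = 1) (t : K)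
    (ht : t ^ (n + 1) * ∏ j, ppr d j = 1) :
    ∃ S E : SpecialLinearGroup (Fin (n + 1)) K, diagS d hd = S * E * S⁻¹ * E⁻¹ := by
  classical
  set π : Equiv.Perm (Fin (n + 1)) := finRotate (n + 1) with hπ
  set e : Fin (n + 1) → K := fun j => t * ppr d j with he
  have hE : ∏ j, e j = 1 := by
    rw [he, Finset.prod_mul_distrib, Finset.prod_const, Finset.card_univ, Fintype.card_fin, ht]
  set E := diagS e hE
  set σ : Fin (n + 1) → K :=
    Function.update 1 0 ((Equiv.Perm.sign π : ℤ) : K) with hσ
  have hsq : ((Equiv.Perm.sign π : ℤ) : K) * ((Equiv.Perm.sign π : ℤ) : K) = 1 := by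
    rw [← Int.cast_mul, Int.units_coe_mul_self, Int.cast_one]
  set S : SpecialLinearGroup (Fin (n + 1)) K :=
    ⟨Matrix.diagonal σ * π.permMatrix K, by
      rw [Matrix.det_mul, Matrix.det_diagonal, Matrix.det_permutation, hσ,
        Finset.prod_update_of_mem (Finset.mem_univ _)]
      simp [hsq]⟩ with hS
  refine ⟨S, E, ?_⟩
  have hnext : ∀ i, d i * e i = e (π i) := by
    intro i
    induction i using Fin.lastCases with
    | last =>
      rw [hπ, finRotate_last, he]
      have h1 : ppr d (Fin.last n) * d (Fin.last n) = 1 := by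
        rw [ppr, mul_comm, ← Finset.prod_insert (by simp), Finset.Iio_insert,
          Finset.Iic_eq_Icc, show Finset.Icc ⊥ (Fin.last n) = Finset.univ by
            ext a; simp [Fin.le_last], hd]
      have h0 : ppr d 0 = 1 := by
        rw [ppr]
        exact Finset.prod_eq_one fun a ha => absurd (Finset.mem_Iio.1 ha) (Fin.not_lt_zero a)
      simp only
      rw [h0, ← mul_assoc, mul_comm (d _) t, mul_assoc, mul_comm (d _), h1]
    | cast i =>
      have h2 : π i.castSucc = i.succ := by
        rw [hπ, finRotate_apply]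
        exact Fin.coeSucc_eq_succ
      rw [h2, he]
      have h1 : ppr d i.succ = ppr d i.castSucc * d i.castSucc := by
        rw [ppr, ppr, mul_comm, ← Finset.prod_insert (by simp), Finset.Iio_insert]
        refine Finset.prod_congr ?_ fun _ _ => rfl
        ext a
        simp [Fin.le_castSucc_iff]
      simp only
      rw [h1]
      ring
  have key : (diagS d hd * E) * S = S * E := by
    refine Subtype.ext ?_
    change Matrix.diagonal d * Matrix.diagonal e * (Matrix.diagonal σ * π.permMatrix K) =
      Matrix.diagonal σ * π.permMatrix K * Matrix.diagonal e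
    rw [Matrix.diagonal_mul_diagonal, ← Matrix.mul_assoc, Matrix.diagonal_mul_diagonal]
    ext i j
    rw [Matrix.diagonal_mul, Matrix.mul_diagonal, Matrix.diagonal_mul]
    by_cases h : π i = j
    · subst h
      rw [hnext]
      ring
    · simp [Equiv.Perm.permMatrix, Equiv.toPEquiv, h, Ne.symm h]
  calc diagS d hd = (diagS d hd * E) * S * S⁻¹ * E⁻¹ := by group
    _ = S * E * S⁻¹ * E⁻¹ := by rw [key]

end Vale.Agent.P002.Curve
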