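import Mathlib

/-!
Moves on tuples of handles of a closed surface group presentation, acting on tuples in any group
and preserving the surface relation.
-/

namespace Vale.Agent.P002.Surface

variable {G H : Type*} [Group G] [Group H] {g : ℕ}

/-- a tuple of handles: the i-th entry is the pair (a i, b i) -/
abbrev Tup (g : ℕ) (G : Type*) := Fin g → G × G

/-- commutator of a handle -/
def cm (p : G × G) : G := p.1 * p.2 * p.1⁻¹ * p.2⁻¹

/-- the surface relation word -/
def rel (p : Tup g G) : G := (List.ofFn fun i => cm (p i)).prod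

/-- apply a homomorphism to every entry -/
def tmap (f : G →* H) (p : Tup g G) : Tup g H := fun i => (f (p i).1, f (p i).2)

lemma cm_map (f : G →* H) (p : G × G) : f (cm p) = cm (f p.1, f p.2) := by
  simp [cm]

lemma rel_map (f : G →* H) (p : Tup g G) : f (rel p) = rel (tmap f p) := by
  simp only [rel, map_list_prod, List.map_ofFn]
  congr 1
  refine congrArg List.ofFn (funext fun i => ?_)
  simp [tmap, cm_map]

/-- kinds of elementary moves on two adjacent handles -/
inductive Kind
  | sw | swInv | tv | tvInv

namespace Kind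

def inv : Kind → Kind
  | sw => swInv
  | swInv => sw
  | tv => tvInv
  | tvInv => tv

lemma inv_inv (k : Kind) : k.inv.inv = k := by cases k <;> rfl

/-- action on a pair of handles -/
def op : Kind → (G × G) → (G × G) → (G × G) × (G × G)
  | sw, p, q => ((cm p * q.1 * (cm p)⁻¹, cm p * q.2 * (cm p)⁻¹), p)
  | swInv, p, q => (q, ((cm q)⁻¹ * p.1 * cm q, (cm q)⁻¹ * p.2 * cm q))
  | tv, (x, y), (z, w) => ((x * z, z⁻¹ * y * z), (z⁻¹ * y * z * y⁻¹ * z, w * z⁻¹ * y⁻¹ * z))
  | tvInv, (x, y), (z, w) =>
      ((x * y⁻¹ * z⁻¹ * y, y⁻¹ * z * y * z⁻¹ * y), (y⁻¹ * z * y, w * y))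

lemma op_cm (k : Kind) (p q : G × G) :
    cm (k.op p q).1 * cm (k.op p q).2 = cm p * cm q := by
  obtain ⟨x, y⟩ := p
  obtain ⟨z, w⟩ := q
  cases k <;> simp only [op, cm] <;> group

lemma op_inv (k : Kind) (p q : G × G) :
    k.inv.op (k.op p q).1 (k.op p q).2 = (p, q) := by
  obtain ⟨x, y⟩ := p
  obtain ⟨z, w⟩ := q
  cases k <;> simp [op, inv, cm, mul_assoc]

lemma op_map (f : G →* H) (k : Kind) (p q : G × G) :
    k.op (f p.1, f p.2) (f q.1, f q.2) =
      ((f (k.op p q).1.1, f (k.op p q).1.2), (f (k.op p q).2.1, f (k.op p q).2.2)) := by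
  obtain ⟨x, y⟩ := p
  obtain ⟨z, w⟩ := q
  cases k <;> simp [op, cm]

end Kind

/-- an elementary move: a kind and two adjacent positions -/
structure Move (g : ℕ) where
  kind : Kind
  i : Fin g
  j : Fin g
  adj : (i : ℕ) + 1 = (j : ℕ)

namespace Move

variable (m : Move g)

lemma i_ne_j : m.i ≠ m.j := fun h => by
  have := m.adj
  rw [h] at this
  omega

def inv : Move g := { m with kind := m.kind.inv }

lemma inv_inv : m.inv.inv = m := by
  cases m
  simp [inv, Kind.inv_inv]

/-- action of a move on tuples -/
def act (p : Tup g G) : Tup g G :=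
  Function.update (Function.update p m.i (m.kind.op (p m.i) (p m.j)).1) m.j
    (m.kind.op (p m.i) (p m.j)).2

lemma act_i (p : Tup g G) : m.act p m.i = (m.kind.op (p m.i) (p m.j)).1 := by
  simp [act, m.i_ne_j]

lemma act_j (p : Tup g G) : m.act p m.j = (m.kind.op (p m.i) (p m.j)).2 := by
  simp [act]

lemma act_ne (p : Tup g G) {l : Fin g} (hi : l ≠ m.i) (hj : l ≠ m.j) : m.act p l = p l := by
  simp [act, hi, hj]

lemma inv_act (p : Tup g G) : m.inv.act (m.act p) = p := by
  funext l
  by_cases hi : l = m.i
  · subst hi
    rw [show m.inv.act (m.act p) m.i = _ from m.inv.act_i (m.act p)]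
    simp only [show m.inv.i = m.i from rfl, show m.inv.j = m.j from rfl, act_i, act_j,
      show m.inv.kind = m.kind.inv from rfl, Kind.op_inv]
  · by_cases hj : l = m.j
    · subst hj
      rw [show m.inv.act (m.act p) m.j = _ from m.inv.act_j (m.act p)]
      simp only [show m.inv.i = m.i from rfl, show m.inv.j = m.j from rfl, act_i, act_j,
        show m.inv.kind = m.kind.inv from rfl, Kind.op_inv]
    · rw [m.inv.act_ne _ hi hj, m.act_ne _ hi hj]

lemma act_map (f : G →* H) (p : Tup g G) : m.act (tmap f p) = tmap f (m.act p) := by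
  funext l
  by_cases hi : l = m.i
  · subst hi
    rw [act_i]
    simp [tmap, act_i, Kind.op_map]
  · by_cases hj : l = m.j
    · subst hj
      rw [act_j]
      simp [tmap, act_j, Kind.op_map]
    · simp [tmap, act_ne _ _ hi hj]

end Move

lemma prod_ofFn_congr_pair {n : ℕ} (f f' : Fin n → G) (i j : Fin n) (hij : (i : ℕ) + 1 = (j : ℕ))
    (hne : ∀ l, l ≠ i → l ≠ j → f l = f' l) (hp : f i * f j = f' i * f' j) :
    (List.ofFn f).prod = (List.ofFn f').prod := by
  induction n with
  | zero => exact i.elim0
  | succ n ih =>
    induction i using Fin.cases with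
    | zero =>
      induction j using Fin.cases with
      | zero => simp at hij
      | succ j =>
        cases n with
        | zero => exact j.elim0
        | succ n =>
          have hj : j = 0 := by
            apply Fin.ext
            simpa using hij.symm
          subst hj
          have ht : (fun l : Fin n => f l.succ.succ) = fun l : Fin n => f' l.succ.succ := by
            funext l
            refine hne _ ?_ ?_ <;> simp [Fin.ext_iff]
          simp only [List.ofFn_succ, List.prod_cons, ← mul_assoc, hp, ht]
    | succ i =>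
      induction j using Fin.cases with
      | zero => simp at hij
      | succ j =>
        have h0 : f 0 = f' 0 := hne 0 (Fin.succ_ne_zero i).symm (Fin.succ_ne_zero j).symm
        simp only [List.ofFn_succ, List.prod_cons, h0]
        congr 1
        refine ih (fun l => f l.succ) (fun l => f' l.succ) i j ?_ ?_ hp
        · simp at hij
          omega
        · intro l h1 h2
          exact hne _ (fun h => h1 (Fin.succ_injective _ h)) (fun h => h2 (Fin.succ_injective _ h))

lemma Move.rel_act (m : Move g) (p : Tup g G) : rel (m.act p) = rel p := by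
  refine prod_ofFn_congr_pair _ _ m.i m.j m.adj (fun l h1 h2 => ?_) ?_
  · simp [m.act_ne p h1 h2]
  · simp [m.act_i p, m.act_j p, Kind.op_cm]

/-- action of a list of moves, applied from left to right -/
def acts (L : List (Move g)) (p : Tup g G) : Tup g G :=
  L.foldl (fun q m => m.act q) p

/-- the inverse list of moves -/
def invs (L : List (Move g)) : List (Move g) := (L.map Move.inv).reverse

@[simp] lemma acts_nil (p : Tup g G) : acts ([] : List (Move g)) p = p := rfl

@[simp] lemma acts_cons (m : Move g) (L : List (Move g)) (p : Tup g G) :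
    acts (m :: L) p = acts L (m.act p) := rfl

lemma acts_append (L L' : List (Move g)) (p : Tup g G) :
    acts (L ++ L') p = acts L' (acts L p) := by
  simp [acts, List.foldl_append]

lemma invs_invs (L : List (Move g)) : invs (invs L) = L := by
  simp [invs, List.map_reverse, Function.comp_def, Move.inv_inv]

lemma invs_acts (L : List (Move g)) (p : Tup g G) : acts (invs L) (acts L p) = p := by
  induction L generalizing p with
  | nil => rfl
  | cons m L ih =>
    have : invs (m :: L) = invs L ++ [m.inv] := by simp [invs]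
    rw [this, acts_append, acts_cons m L, ih, acts_cons, acts_nil, Move.inv_act]

lemma acts_invs (L : List (Move g)) (p : Tup g G) : acts L (acts (invs L) p) = p := by
  simpa [invs_invs] using invs_acts (invs L) p

lemma acts_map (f : G →* H) (L : List (Move g)) (p : Tup g G) :
    acts L (tmap f p) = tmap f (acts L p) := by
  induction L generalizing p with
  | nil => rfl
  | cons m L ih => rw [acts_cons, Move.act_map, ih, acts_cons]

lemma rel_acts (L : List (Move g)) (p : Tup g G) : rel (acts L p) = rel p := by
  induction L generalizing p with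
  | nil => rfl
  | cons m L ih => rw [acts_cons, ih, Move.rel_act]

/-- tuples with all second entries trivial -/
def flat (a : Fin g → G) : Tup g G := fun i => (a i, 1)

lemma rel_flat (a : Fin g → G) : rel (flat a) = 1 := by
  refine List.prod_eq_one fun x hx => ?_
  obtain ⟨i, rfl⟩ := (List.mem_ofFn).1 hx
  simp [flat, cm]

/-- effect of a kind on the first entries, when second entries are trivial -/
def Kind.aop : Kind → G → G → G × G
  | .sw, x, z => (z, x)
  | .swInv, x, z => (z, x)
  | .tv, x, z => (x * z, z)
  | .tvInv, x, z => (x * z⁻¹, z)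

/-- effect of a move on the first entries -/
def Move.aact (m : Move g) (a : Fin g → G) : Fin g → G :=
  Function.update (Function.update a m.i (m.kind.aop (a m.i) (a m.j)).1) m.j
    (m.kind.aop (a m.i) (a m.j)).2

lemma Move.act_flat (m : Move g) (a : Fin g → G) : m.act (flat a) = flat (m.aact a) := by
  funext l
  by_cases hj : l = m.j
  · subst hj
    rw [m.act_j]
    cases h : m.kind <;> simp [flat, Move.aact, Kind.op, Kind.aop, cm, h]
  · by_cases hi : l = m.i
    · subst hi
      rw [m.act_i]
      cases h : m.kind <;> simp [flat, Move.aact, Kind.op, Kind.aop, cm, h, m.i_ne_j]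
    · rw [m.act_ne _ hi hj]
      simp [flat, Move.aact, hi, hj]

/-- effect of a list of moves on first entries -/
def aacts (L : List (Move g)) (a : Fin g → G) : Fin g → G :=
  L.foldl (fun q m => m.aact q) a

lemma acts_flat (L : List (Move g)) (a : Fin g → G) : acts L (flat a) = flat (aacts L a) := by
  induction L generalizing a with
  | nil => rfl
  | cons m L ih =>
    rw [acts_cons, Move.act_flat, ih]
    rfl

lemma exists_acts_perm (σ : Equiv.Perm (Fin g)) :
    ∃ L : List (Move g), ∀ {G : Type} [Group G] (a : Fin g → G),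
      acts L (flat a) = flat (a ∘ σ) := by
  cases g with
  | zero => exact ⟨[], fun a => by funext i; exact i.elim0⟩
  | succ n =>
    have hσ : σ ∈ Submonoid.closure
        (Set.range fun i : Fin n => Equiv.swap i.castSucc i.succ) := by
      rw [Equiv.Perm.mclosure_swap_castSucc_succ]; trivial
    induction hσ using Submonoid.closure_induction with
    | mem x hx =>
      obtain ⟨i, rfl⟩ := hx
      refine ⟨[⟨.sw, i.castSucc, i.succ, by simp⟩], fun a => ?_⟩
      rw [acts_cons, acts_nil, Move.act_flat]
      congr 1
      funext l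
      rcases eq_or_ne l i.succ with hl | hl
      · subst hl
        simp [Move.aact, Kind.aop]
      · rcases eq_or_ne l i.castSucc with hl' | hl'
        · subst hl'
          simp [Move.aact, Kind.aop, Fin.castSucc_lt_succ.ne]
        · simp [Move.aact, Function.update_of_ne hl, Function.update_of_ne hl',
            Equiv.swap_apply_of_ne_of_ne hl' hl]
    | one => exact ⟨[], fun a => rfl⟩
    | mul x y _ _ hx hy =>
      obtain ⟨Lx, hLx⟩ := hx
      obtain ⟨Ly, hLy⟩ := hy
      refine ⟨Lx ++ Ly, fun a => ?_⟩
      rw [acts_append, hLx, hLy]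
      rfl

lemma exists_acts_mul (hg : 2 ≤ g) {k l : Fin g} (hkl : k ≠ l) :
    ∃ L : List (Move g), ∀ {G : Type} [Group G] (a : Fin g → G),
      acts L (flat a) = flat (Function.update a k (a k * a l)) := by
  obtain ⟨σ, hσ0, hσ1⟩ : ∃ σ : Equiv.Perm (Fin g),
      σ ⟨0, by omega⟩ = k ∧ σ ⟨1, by omega⟩ = l := by
    set i0 : Fin g := ⟨0, by omega⟩
    set i1 : Fin g := ⟨1, by omega⟩
    have h01 : i0 ≠ i1 := by simp [i0, i1]
    refine ⟨Equiv.swap i0 k * Equiv.swap i1 ((Equiv.swap i0 k) l), ?_, ?_⟩
    · rw [Equiv.Perm.mul_apply, Equiv.swap_apply_of_ne_of_ne h01, Equiv.swap_apply_left]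
      intro h
      have := congrArg (Equiv.swap i0 k) h
      rw [Equiv.swap_apply_self, Equiv.swap_apply_left] at this
      exact hkl this
    · rw [Equiv.Perm.mul_apply, Equiv.swap_apply_left, Equiv.swap_apply_self]
  obtain ⟨L1, h1⟩ := exists_acts_perm σ
  obtain ⟨L2, h2⟩ := exists_acts_perm σ.symm
  refine ⟨L1 ++ [⟨.tv, ⟨0, by omega⟩, ⟨1, by omega⟩, rfl⟩] ++ L2, fun a => ?_⟩
  rw [acts_append, acts_append, h1, acts_cons, acts_nil, Move.act_flat, h2]
  congr 1
  funext m
  obtain ⟨m', rfl⟩ := σ.surjective m
  have h01 : (⟨0, by omega⟩ : Fin g) ≠ ⟨1, by omega⟩ := by simp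
  simp only [Function.comp_apply, Equiv.symm_apply_apply, Move.aact, Kind.aop]
  rcases eq_or_ne m' ⟨1, by omega⟩ with h | h
  · subst h
    simp [hσ1, hkl.symm]
  · rcases eq_or_ne m' ⟨0, by omega⟩ with h' | h'
    · subst h'
      simp [hσ0, hσ1, h01]
    · have : σ m' ≠ k := fun e => h' (σ.injective (e.trans hσ0.symm))
      simp [h, h', Function.update_of_ne this]

end Vale.Agent.P002.Surface
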