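import Mathlib
import Vale.Agent.P002.SurfaceMoves

/-!
Tuples describing representations of punctured surface groups with prescribed boundary classes,
and Dehn twists along curves joining the last free handle to another handle or puncture.
-/

namespace Vale.Agent.P002.Curve

open Vale.Agent.P002.Surface

variable {G H : Type*} [Group G] [Group H] {f h s : ℕ}

/-- data: free handles, further handles, conjugators of the boundary classes -/
@[ext] structure Dat (f h s : ℕ) (G : Type*) where
  fr : Tup (f + 1) G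
  rs : Tup h G
  P : Fin s → G

/-- boundary elements -/
def gma (J : Fin s → G) (d : Dat f h s G) (k : Fin s) : G := d.P k * J k * (d.P k)⁻¹

/-- the relation -/
def drel (J : Fin s → G) (d : Dat f h s G) : G :=
  rel d.fr * rel d.rs * (List.ofFn (gma J d)).prod

/-- apply a homomorphism -/
def dmap (φ : G →* H) (d : Dat f h s G) : Dat f h s H where
  fr := tmap φ d.fr
  rs := tmap φ d.rs
  P k := φ (d.P k)

lemma gma_map (φ : G →* H) (J : Fin s → G) (d : Dat f h s G) (k : Fin s) :
    gma (fun l => φ (J l)) (dmap φ d) k = φ (gma J d k) := by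
  simp [gma, dmap]

lemma drel_map (φ : G →* H) (J : Fin s → G) (d : Dat f h s G) :
    φ (drel J d) = drel (fun l => φ (J l)) (dmap φ d) := by
  have hg : gma (fun l => φ (J l)) (dmap φ d) = fun k => φ (gma J d k) :=
    funext (gma_map φ J d)
  simp only [drel, hg, map_mul, rel_map, map_list_prod, List.map_ofFn, Function.comp_def]
  rfl

/-- product of the entries before a position -/
def pre {m : ℕ} (q : Fin m → G) (i : Fin m) : G := ((List.ofFn q).take (i : ℕ)).prod

lemma pre_map {m : ℕ} (φ : G →* H) (q : Fin m → G) (i : Fin m) :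
    pre (fun l => φ (q l)) i = φ (pre q i) := by
  rw [pre, pre, map_list_prod, List.map_take, List.map_ofFn]
  rfl

lemma prod_ofFn_update {m : ℕ} (q : Fin m → G) (i : Fin m) (x : G) :
    (List.ofFn (Function.update q i x)).prod =
      pre q i * x * (q i)⁻¹ * (pre q i)⁻¹ * (List.ofFn q).prod := by
  induction m with
  | zero => exact i.elim0
  | succ m ih =>
    induction i using Fin.cases with
    | zero =>
      simp [pre, List.ofFn_succ, Fin.succ_ne_zero, mul_assoc]
    | succ i =>
      have h1 : (fun l : Fin m => Function.update q i.succ x l.succ) =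
          Function.update (fun l : Fin m => q l.succ) i x := by
        funext l
        rcases eq_or_ne l i with rfl | hl
        · simp
        · simp [hl]
      have h2 : pre q i.succ = q 0 * pre (fun l : Fin m => q l.succ) i := by
        simp [pre, List.ofFn_succ]
      rw [List.ofFn_succ, List.prod_cons, h1, ih, h2, List.ofFn_succ, List.prod_cons,
        Function.update_of_ne (Fin.succ_ne_zero i).symm]
      group

/-- the targets of twists -/
inductive Tgt (h s : ℕ)
  | self
  | h1 (i : Fin h)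
  | h2 (i : Fin h)
  | bd (k : Fin s)

namespace Tgt

/-- conjugator to the position of the target -/
def pos (J : Fin s → G) : Tgt h s → Dat f h s G → G
  | .self, _ => 1
  | .h1 i, d => pre (fun l => cm (d.rs l)) i
  | .h2 i, d => pre (fun l => cm (d.rs l)) i
  | .bd k, d => rel d.rs * pre (gma J d) k

/-- the loop around the target -/
def loop (J : Fin s → G) : Tgt h s → Dat f h s G → G
  | .self, _ => 1
  | .h1 i, d => (d.rs i).1
  | .h2 i, d => (d.rs i).1 * (d.rs i).2 * (d.rs i).1⁻¹
  | .bd k, d => gma J d k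

/-- the loop around the target, seen from the last free handle -/
def Z (J : Fin s → G) (t : Tgt h s) (d : Dat f h s G) : G :=
  t.pos J d * t.loop J d * (t.pos J d)⁻¹

/-- the curve -/
def curve (J : Fin s → G) (t : Tgt h s) (d : Dat f h s G) : G :=
  (d.fr (Fin.last f)).1 * t.Z J d

/-- new value of the last free handle -/
def newO (J : Fin s → G) (t : Tgt h s) (e : G) (d : Dat f h s G) : G × G :=
  (e⁻¹ * (d.fr (Fin.last f)).1 * e,
    e⁻¹ * (t.Z J d * e * (t.Z J d)⁻¹ * (d.fr (Fin.last f)).2) * e)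

/-- twisting along the curve by `e` -/
def twist (J : Fin s → G) : Tgt h s → G → Dat f h s G → Dat f h s G
  | .self, e, d => ⟨Function.update d.fr (Fin.last f) (newO J .self e d), d.rs, d.P⟩
  | .h1 i, e, d => ⟨Function.update d.fr (Fin.last f) (newO J (.h1 i) e d),
      Function.update d.rs i
        (((Tgt.h1 i).pos J d)⁻¹ * e⁻¹ * (Tgt.h1 i).pos J d * (d.rs i).1 *
            (((Tgt.h1 i).pos J d)⁻¹ * e * (Tgt.h1 i).pos J d),
          (d.rs i).2 * (((Tgt.h1 i).pos J d)⁻¹ * e * (Tgt.h1 i).pos J d)), d.P⟩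
  | .h2 i, e, d => ⟨Function.update d.fr (Fin.last f) (newO J (.h2 i) e d),
      Function.update d.rs i
        (((Tgt.h2 i).pos J d)⁻¹ * e⁻¹ * (Tgt.h2 i).pos J d * (d.rs i).1, (d.rs i).2), d.P⟩
  | .bd k, e, d => ⟨Function.update d.fr (Fin.last f) (newO J (.bd k) e d), d.rs,
      Function.update d.P k
        (((Tgt.bd k).pos J d)⁻¹ * e⁻¹ * (Tgt.bd k).pos J d * d.P k)⟩

end Tgt

lemma rel_update_last (q : Tup (f + 1) G) (x : G × G) :
    rel (Function.update q (Fin.last f) x) =
      rel q * (cm (q (Fin.last f)))⁻¹ * cm x := by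
  simp only [rel]
  rw [List.ofFn_succ', List.ofFn_succ']
  simp only [List.concat_eq_append, List.prod_append, List.prod_cons, List.prod_nil, mul_one,
    Function.update_self]
  rw [show (fun i : Fin f => cm (Function.update q (Fin.last f) x i.castSucc)) =
    fun i : Fin f => cm (q i.castSucc) from funext fun i => by
      rw [Function.update_of_ne (Fin.castSucc_ne_last i)]]
  group

lemma rel_update (q : Tup h G) (i : Fin h) (x : G × G) :
    rel (Function.update q i x) =
      pre (fun l => cm (q l)) i * cm x * (cm (q i))⁻¹ * (pre (fun l => cm (q l)) i)⁻¹ * rel q := by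
  have e : (fun l => cm (Function.update q i x l)) = Function.update (fun l => cm (q l)) i (cm x) := by
    funext l
    rcases eq_or_ne l i with rfl | hl
    · simp
    · simp [hl]
  rw [rel, e, prod_ofFn_update]
  rfl

lemma cm_newO {x y Z e : G} (he : Commute (x * Z) e) :
    cm (e⁻¹ * x * e, e⁻¹ * (Z * e * Z⁻¹ * y) * e) = cm (x, y) * (Z * e⁻¹ * Z⁻¹) * e := by
  have h : x * (Z * e * Z⁻¹) = e * x := by
    calc x * (Z * e * Z⁻¹) = x * Z * e * Z⁻¹ := by simp only [mul_assoc]
      _ = e * (x * Z) * Z⁻¹ := by rw [he.eq]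
      _ = e * x := by simp only [mul_assoc, mul_inv_cancel, mul_one]
  simp only [cm]
  calc _ = e⁻¹ * (x * (Z * e * Z⁻¹)) * y * x⁻¹ * y⁻¹ * (Z * e⁻¹ * Z⁻¹) * e := by group
    _ = _ := by rw [h]; group

theorem drel_twist (J : Fin s → G) (t : Tgt h s) (e : G) (d : Dat f h s G)
    (he : Commute (t.curve J d) e) : drel J (t.twist J e d) = drel J d := by
  have hfr : rel (Function.update d.fr (Fin.last f) (t.newO J e d)) =
      rel d.fr * (t.Z J d * e⁻¹ * (t.Z J d)⁻¹) * e := by
    rw [rel_update_last, Tgt.newO, cm_newO he]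
    group
  have hP : ∀ a b, gma J (⟨a, b, d.P⟩ : Dat f h s G) = gma J d := fun a b => rfl
  cases t with
  | self =>
    simp only [drel, Tgt.twist, hfr, hP]
    simp [Tgt.Z, Tgt.pos, Tgt.loop]
  | h1 i =>
    simp only [drel, Tgt.twist, hfr, rel_update, hP]
    simp only [Tgt.Z, Tgt.pos, Tgt.loop, cm]
    group
  | h2 i =>
    simp only [drel, Tgt.twist, hfr, rel_update, hP]
    simp only [Tgt.Z, Tgt.pos, Tgt.loop, cm]
    group
  | bd k =>
    set W : G := pre (gma J d) k
    set e' : G := ((Tgt.bd k).pos J d)⁻¹ * e * (Tgt.bd k).pos J d with he'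
    have hg : gma J ((Tgt.bd k).twist J e d) =
        Function.update (gma J d) k (e'⁻¹ * gma J d k * e') := by
      funext l
      rcases eq_or_ne l k with rfl | hl
      · simp only [gma, Tgt.twist, Function.update_self, he']
        group
      · simp only [gma, Tgt.twist, Function.update_of_ne hl]
    simp only [drel, hg, prod_ofFn_update]
    simp only [Tgt.twist, hfr, he', Tgt.Z, Tgt.pos, Tgt.loop]
    group

section map

variable (φ : G →* H) (J : Fin s → G) (d : Dat f h s G)

lemma Tgt.pos_map (t : Tgt h s) : t.pos (fun l => φ (J l)) (dmap φ d) = φ (t.pos J d) := by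
  have hc : (fun l => cm ((dmap φ d).rs l)) = fun l => φ (cm (d.rs l)) :=
    funext fun l => (cm_map φ (d.rs l)).symm
  cases t with
  | self => simp [Tgt.pos]
  | h1 i => simp only [Tgt.pos, hc, pre_map]
  | h2 i => simp only [Tgt.pos, hc, pre_map]
  | bd k =>
    simp only [Tgt.pos, map_mul, rel_map, ← pre_map, dmap]
    congr 2
    funext l
    exact gma_map φ J d l

lemma Tgt.loop_map (t : Tgt h s) : t.loop (fun l => φ (J l)) (dmap φ d) = φ (t.loop J d) := by
  cases t <;> simp [Tgt.loop, dmap, tmap, gma]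

lemma Tgt.Z_map (t : Tgt h s) : t.Z (fun l => φ (J l)) (dmap φ d) = φ (t.Z J d) := by
  simp [Tgt.Z, Tgt.pos_map, Tgt.loop_map]

lemma Tgt.curve_map (t : Tgt h s) :
    t.curve (fun l => φ (J l)) (dmap φ d) = φ (t.curve J d) := by
  rw [Tgt.curve, Tgt.curve, map_mul, Tgt.Z_map]
  rfl

lemma Tgt.newO_map (t : Tgt h s) (e : G) :
    t.newO (fun l => φ (J l)) (φ e) (dmap φ d) = (φ (t.newO J e d).1, φ (t.newO J e d).2) := by
  simp only [Tgt.newO, map_mul, map_inv, Tgt.Z_map]
  rfl

lemma dmap_update_fr (x : G × G) (i : Fin (f + 1)) :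
    tmap φ (Function.update d.fr i x) = Function.update (tmap φ d.fr) i (φ x.1, φ x.2) := by
  funext l
  rcases eq_or_ne l i with rfl | hl
  · simp [tmap]
  · simp [tmap, hl]

lemma dmap_update_rs (x : G × G) (i : Fin h) :
    tmap φ (Function.update d.rs i x) = Function.update (tmap φ d.rs) i (φ x.1, φ x.2) := by
  funext l
  rcases eq_or_ne l i with rfl | hl
  · simp [tmap]
  · simp [tmap, hl]

lemma Tgt.twist_map (t : Tgt h s) (e : G) :
    t.twist (fun l => φ (J l)) (φ e) (dmap φ d) = dmap φ (t.twist J e d) := by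
  cases t with
  | self =>
    refine Dat.ext ?_ rfl rfl
    simp [Tgt.twist, dmap, dmap_update_fr]
    rw [← Tgt.newO_map φ J d]
    rfl
  | h1 i =>
    refine Dat.ext ?_ ?_ rfl
    · simp [Tgt.twist, dmap, dmap_update_fr]
      rw [← Tgt.newO_map φ J d]
      rfl
    · have hp := Tgt.pos_map φ J d (.h1 i)
      simp only [Tgt.twist, hp]
      simp [dmap, dmap_update_rs, tmap]
  | h2 i =>
    refine Dat.ext ?_ ?_ rfl
    · simp [Tgt.twist, dmap, dmap_update_fr]
      rw [← Tgt.newO_map φ J d]
      rfl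
    · have hp := Tgt.pos_map φ J d (.h2 i)
      simp only [Tgt.twist, hp]
      simp [dmap, dmap_update_rs, tmap]
  | bd k =>
    refine Dat.ext ?_ rfl ?_
    · simp [Tgt.twist, dmap, dmap_update_fr]
      rw [← Tgt.newO_map φ J d]
      rfl
    · have hp := Tgt.pos_map φ J d (.bd k)
      funext l
      simp only [Tgt.twist, hp]
      rcases eq_or_ne l k with rfl | hl
      · simp [dmap]
      · simp [dmap, hl]

end map

/-- free moves on data -/
def dacts (L : List (Move (f + 1))) (d : Dat f h s G) : Dat f h s G := ⟨acts L d.fr, d.rs, d.P⟩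

lemma dacts_map (φ : G →* H) (L : List (Move (f + 1))) (d : Dat f h s G) :
    dacts L (dmap φ d) = dmap φ (dacts L d) :=
  Dat.ext (acts_map φ L d.fr) rfl rfl

lemma drel_dacts (J : Fin s → G) (L : List (Move (f + 1))) (d : Dat f h s G) :
    drel J (dacts L d) = drel J d := by
  simp only [drel, dacts, rel_acts]
  rfl

/-- all handle entries and boundary elements lie in a subgroup -/
def InSub (S : Subgroup G) (J : Fin s → G) (d : Dat f h s G) : Prop :=
  (∀ i, (d.fr i).1 ∈ S ∧ (d.fr i).2 ∈ S) ∧ (∀ i, (d.rs i).1 ∈ S ∧ (d.rs i).2 ∈ S) ∧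
    ∀ k, gma J d k ∈ S

lemma tup_acts_mem {g : ℕ} (S : Subgroup G) (L : List (Move g)) {q : Tup g G}
    (hq : ∀ i, (q i).1 ∈ S ∧ (q i).2 ∈ S) (i : Fin g) :
    (acts L q i).1 ∈ S ∧ (acts L q i).2 ∈ S := by
  let q' : Tup g S := fun i => (⟨_, (hq i).1⟩, ⟨_, (hq i).2⟩)
  have e : q = tmap S.subtype q' := rfl
  rw [e, acts_map]
  exact ⟨((acts L q' i).1).2, ((acts L q' i).2).2⟩

lemma pre_mem {m : ℕ} (S : Subgroup G) {q : Fin m → G} (hq : ∀ i, q i ∈ S) (i : Fin m) :
    pre q i ∈ S :=
  list_prod_mem fun x hx => by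
    obtain ⟨j, rfl⟩ := List.mem_ofFn.1 (List.mem_of_mem_take hx)
    exact hq j

lemma cm_mem (S : Subgroup G) {p : G × G} (hp : p.1 ∈ S ∧ p.2 ∈ S) : cm p ∈ S :=
  mul_mem (mul_mem (mul_mem hp.1 hp.2) (inv_mem hp.1)) (inv_mem hp.2)

lemma InSub.dacts {S : Subgroup G} {J : Fin s → G} {d : Dat f h s G} (hd : InSub S J d)
    (L : List (Move (f + 1))) : InSub S J (dacts L d) :=
  ⟨fun i => tup_acts_mem S L hd.1 i, hd.2.1, hd.2.2⟩

lemma InSub.pos_mem {S : Subgroup G} {J : Fin s → G} {d : Dat f h s G} (hd : InSub S J d)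
    (t : Tgt h s) : t.pos J d ∈ S := by
  cases t with
  | self => exact one_mem S
  | h1 i => exact pre_mem S (fun l => cm_mem S (hd.2.1 l)) i
  | h2 i => exact pre_mem S (fun l => cm_mem S (hd.2.1 l)) i
  | bd k =>
    refine mul_mem ?_ (pre_mem S hd.2.2 k)
    exact list_prod_mem fun x hx => by
      obtain ⟨j, rfl⟩ := List.mem_ofFn.1 hx
      exact cm_mem S (hd.2.1 j)

lemma InSub.Z_mem {S : Subgroup G} {J : Fin s → G} {d : Dat f h s G} (hd : InSub S J d)
    (t : Tgt h s) : t.Z J d ∈ S := by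
  refine mul_mem (mul_mem (hd.pos_mem t) ?_) (inv_mem (hd.pos_mem t))
  cases t with
  | self => exact one_mem S
  | h1 i => exact (hd.2.1 i).1
  | h2 i => exact mul_mem (mul_mem (hd.2.1 i).1 (hd.2.1 i).2) (inv_mem (hd.2.1 i).1)
  | bd k => exact hd.2.2 k

lemma InSub.curve_mem {S : Subgroup G} {J : Fin s → G} {d : Dat f h s G} (hd : InSub S J d)
    (t : Tgt h s) : t.curve J d ∈ S :=
  mul_mem (hd.1 _).1 (hd.Z_mem t)

lemma InSub.twist {S : Subgroup G} {J : Fin s → G} {d : Dat f h s G} (hd : InSub S J d)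
    (t : Tgt h s) {e : G} (he : e ∈ S) : InSub S J (t.twist J e d) := by
  have hnew : (t.newO J e d).1 ∈ S ∧ (t.newO J e d).2 ∈ S :=
    ⟨mul_mem (mul_mem (inv_mem he) (hd.1 _).1) he,
      mul_mem (mul_mem (inv_mem he)
        (mul_mem (mul_mem (mul_mem (hd.Z_mem t) he) (inv_mem (hd.Z_mem t))) (hd.1 _).2)) he⟩
  have hfr : ∀ i, (Function.update d.fr (Fin.last f) (t.newO J e d) i).1 ∈ S ∧
      (Function.update d.fr (Fin.last f) (t.newO J e d) i).2 ∈ S := by
    intro i
    rcases eq_or_ne i (Fin.last f) with rfl | hi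
    · simpa using hnew
    · simpa [hi] using hd.1 i
  have hp := hd.pos_mem t
  have he' := mul_mem (mul_mem (inv_mem hp) he) hp
  have he'' := mul_mem (mul_mem (inv_mem hp) (inv_mem he)) hp
  cases t with
  | self => exact ⟨hfr, hd.2.1, hd.2.2⟩
  | h1 i =>
    refine ⟨hfr, fun l => ?_, hd.2.2⟩
    rcases eq_or_ne l i with rfl | hl
    · simp only [Tgt.twist, Function.update_self]
      exact ⟨mul_mem (mul_mem he'' (hd.2.1 l).1) he', mul_mem (hd.2.1 l).2 he'⟩
    · simpa [Tgt.twist, hl] using hd.2.1 l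
  | h2 i =>
    refine ⟨hfr, fun l => ?_, hd.2.2⟩
    rcases eq_or_ne l i with rfl | hl
    · simp only [Tgt.twist, Function.update_self]
      exact ⟨mul_mem he'' (hd.2.1 l).1, (hd.2.1 l).2⟩
    · simpa [Tgt.twist, hl] using hd.2.1 l
  | bd k =>
    refine ⟨hfr, hd.2.1, fun l => ?_⟩
    rcases eq_or_ne l k with rfl | hl
    · have e1 : gma J ((Tgt.bd l).twist J e d) l =
          ((Tgt.bd l).pos J d)⁻¹ * e⁻¹ * (Tgt.bd l).pos J d * gma J d l *
            (((Tgt.bd l).pos J d)⁻¹ * e * (Tgt.bd l).pos J d) := by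
        simp only [gma, Tgt.twist, Function.update_self]
        group
      rw [e1]
      exact mul_mem (mul_mem he'' (hd.2.2 l)) he'
    · simpa [gma, Tgt.twist, hl] using hd.2.2 l

end Vale.Agent.P002.Curve
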