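import Mathlib
import Vale.Agent.P002.SurfaceMoves

/-!
First order jets (matrices over the dual numbers) of tuples in `SL_r`, the pairing between the two
halves of a tangent vector at a handlebody representation, and the algebraic core: a tangent
vector killed by the derivatives of the traces of all primitive words is a coboundary.
-/

namespace Vale.Agent.P002.Surface

open Matrix TrivSqZeroExt
open scoped DualNumber MatrixGroups

variable {r g : ℕ}

abbrev MC (r : ℕ) := Matrix (Fin r) (Fin r) ℂ
abbrev MD (r : ℕ) := Matrix (Fin r) (Fin r) ℂ[ε]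
abbrev SLC (r : ℕ) := SpecialLinearGroup (Fin r) ℂ
abbrev SLD (r : ℕ) := SpecialLinearGroup (Fin r) ℂ[ε]

lemma mulC (A B : SLC r) : ((A * B : SLC r) : MC r) = (A : MC r) * (B : MC r) := rfl

lemma oneC : ((1 : SLC r) : MC r) = 1 := rfl

lemma mulD (A B : SLD r) : ((A * B : SLD r) : MD r) = (A : MD r) * (B : MD r) := rfl

lemma oneD : ((1 : SLD r) : MD r) = 1 := rfl

lemma detD (A : SLD r) : det (A : MD r) = 1 := A.property

/-- entrywise first component, as an algebra homomorphism -/
noncomputable def fstA : MD r →ₐ[ℂ] MC r :=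
  (TrivSqZeroExt.fstHom ℂ ℂ ℂ).mapMatrix

/-- entrywise second component -/
def sndM (x : MD r) : MC r := x.map TrivSqZeroExt.snd

lemma fstA_apply (x : MD r) (i j : Fin r) : fstA x i j = (x i j).fst := rfl

lemma sndM_apply (x : MD r) (i j : Fin r) : sndM x i j = (x i j).snd := rfl

lemma sndM_add (x y : MD r) : sndM (x + y) = sndM x + sndM y := by
  ext i j; simp [sndM_apply]

lemma sndM_sub (x y : MD r) : sndM (x - y) = sndM x - sndM y := by
  ext i j; simp [sndM_apply]

lemma sndM_smul (c : ℂ) (x : MD r) : sndM (c • x) = c • sndM x := by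
  ext i j; simp [sndM_apply]

lemma sndM_zero : sndM (0 : MD r) = 0 := by
  ext i j; simp [sndM_apply]

lemma sndM_one : sndM (1 : MD r) = 0 := by
  ext i j
  rcases eq_or_ne i j with rfl | h <;> simp_all [sndM_apply]

lemma sndM_mul (x y : MD r) : sndM (x * y) = fstA x * sndM y + sndM x * fstA y := by
  ext i j
  simp [sndM_apply, Matrix.mul_apply, fstA_apply, Finset.sum_add_distrib, TrivSqZeroExt.snd_sum]

lemma snd_trace (x : MD r) : (x.trace).snd = (sndM x).trace := by
  simp [Matrix.trace, sndM_apply, TrivSqZeroExt.snd_sum]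

lemma ext_fst_snd {x y : MD r} (h1 : fstA x = fstA y) (h2 : sndM x = sndM y) : x = y := by
  refine Matrix.ext fun i j => TrivSqZeroExt.ext ?_ ?_
  · exact congrFun (congrFun h1 i) j
  · exact congrFun (congrFun h2 i) j

/-- base point of a jet -/
noncomputable def fstG : SLD r →* SLC r :=
  SpecialLinearGroup.map (TrivSqZeroExt.fstHom ℂ ℂ ℂ).toRingHom

lemma coe_fstG (c : SLD r) : ((fstG c : SLC r) : MC r) = fstA (c : MD r) := rfl

lemma coe_mul_inv_SLC (A : SLC r) : (A : MC r) * ((A⁻¹ : SLC r) : MC r) = 1 := by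
  rw [← mulC, mul_inv_cancel, oneC]

lemma coe_inv_mul_SLC (A : SLC r) : ((A⁻¹ : SLC r) : MC r) * (A : MC r) = 1 := by
  rw [← mulC, inv_mul_cancel, oneC]

lemma inv_mul_mul_SLC (A : SLC r) (X : MC r) :
    ((A⁻¹ : SLC r) : MC r) * ((A : MC r) * X) = X := by
  rw [← Matrix.mul_assoc, coe_inv_mul_SLC, Matrix.one_mul]

/-- left trivialised tangent of a jet -/
noncomputable def gam (c : SLD r) : MC r :=
  (((fstG c)⁻¹ : SLC r) : MC r) * sndM (c : MD r)

lemma sndM_coe (c : SLD r) : sndM (c : MD r) = ((fstG c : SLC r) : MC r) * gam c := by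
  rw [gam, ← Matrix.mul_assoc, coe_mul_inv_SLC, Matrix.one_mul]

lemma gam_mul (x y : SLD r) :
    gam (x * y) =
      (((fstG y)⁻¹ : SLC r) : MC r) * gam x * ((fstG y : SLC r) : MC r) + gam y := by
  have h : sndM ((x * y : SLD r) : MD r) =
      ((fstG x : SLC r) : MC r) * sndM (y : MD r) + sndM (x : MD r) * ((fstG y : SLC r) : MC r) := by
    rw [mulD, sndM_mul, coe_fstG, coe_fstG]
  rw [gam, h, map_mul, _root_.mul_inv_rev, mulC, Matrix.mul_add,
    Matrix.mul_assoc _ _ (((fstG x : SLC r) : MC r) * _), inv_mul_mul_SLC, gam, gam]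
  simp only [Matrix.mul_assoc]
  exact add_comm _ _

lemma fstA_of_fst_one {y : SLD r} (hy : fstG y = 1) : fstA (y : MD r) = 1 := by
  rw [← coe_fstG, hy, oneC]

lemma sndM_conj (w y : SLD r) (hy : fstG y = 1) :
    sndM ((w * y * w⁻¹ : SLD r) : MD r) =
      ((fstG w : SLC r) : MC r) * sndM (y : MD r) * (((fstG w)⁻¹ : SLC r) : MC r) := by
  have h1 : sndM ((w : MD r) * ((w⁻¹ : SLD r) : MD r)) = 0 := by
    rw [← mulD, mul_inv_cancel, oneD, sndM_one]
  rw [sndM_mul, ← coe_fstG, ← coe_fstG, map_inv] at h1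
  rw [mulD, mulD, sndM_mul, sndM_mul, map_mul,
    fstA_of_fst_one hy, ← coe_fstG, ← coe_fstG, map_inv, Matrix.mul_one, Matrix.mul_one,
    Matrix.add_mul]
  linear_combination (norm := abel) h1

lemma sndM_mul_of_fst_one (x y : SLD r) (hx : fstG x = 1) (hy : fstG y = 1) :
    sndM ((x * y : SLD r) : MD r) = sndM (x : MD r) + sndM (y : MD r) := by
  rw [mulD, sndM_mul, fstA_of_fst_one hx, fstA_of_fst_one hy,
    Matrix.one_mul, Matrix.mul_one]
  abel

lemma sndM_inv_of_fst_one (x : SLD r) (hx : fstG x = 1) :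
    sndM ((x⁻¹ : SLD r) : MD r) = - sndM (x : MD r) := by
  have h := sndM_mul_of_fst_one x x⁻¹ hx (by simp [hx])
  rw [mul_inv_cancel, oneD, sndM_one] at h
  exact eq_neg_of_add_eq_zero_right h.symm

/-- the matrix `1 + ε • u` -/
noncomputable def oneEps (u : MC r) : MD r :=
  1 + (DualNumber.eps : ℂ[ε]) • u.map TrivSqZeroExt.inl

lemma fstA_oneEps (u : MC r) : fstA (oneEps u) = 1 := by
  ext i j
  rcases eq_or_ne i j with rfl | h <;> simp_all [oneEps, fstA_apply]

lemma sndM_oneEps (u : MC r) : sndM (oneEps u) = u := by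
  ext i j
  rcases eq_or_ne i j with rfl | h <;> simp_all [oneEps, sndM_apply]

lemma det_oneEps (u : MC r) :
    det (oneEps u) = 1 + (DualNumber.eps : ℂ[ε]) * TrivSqZeroExt.inl u.trace := by
  have hsq : ∀ a b : ℂ[ε], (DualNumber.eps * a) * (DualNumber.eps * b) = 0 := fun a b => by
    rw [mul_mul_mul_comm, DualNumber.eps_mul_eps, zero_mul]
  have hoff : ∀ i j, i ≠ j → oneEps u i j = DualNumber.eps * TrivSqZeroExt.inl (u i j) := by
    intro i j h
    simp [oneEps, h]
  rw [Matrix.det_apply, Finset.sum_eq_single (1 : Equiv.Perm (Fin r))]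
  · have key : ∀ s : Finset (Fin r), ∏ i ∈ s, oneEps u i i =
        1 + DualNumber.eps * TrivSqZeroExt.inl (∑ i ∈ s, u i i) := by
      intro s
      induction s using Finset.cons_induction with
      | empty => simp
      | cons i s hi ih =>
        rw [Finset.prod_cons, Finset.sum_cons, ih, TrivSqZeroExt.inl_add]
        have e : oneEps u i i = 1 + DualNumber.eps * TrivSqZeroExt.inl (u i i) := by
          simp [oneEps]
        rw [e]
        linear_combination hsq (TrivSqZeroExt.inl (u i i)) (TrivSqZeroExt.inl (∑ j ∈ s, u j j))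
    simpa [Matrix.trace] using key Finset.univ
  · intro σ _ hσ
    obtain ⟨i, hi⟩ : ∃ i, σ i ≠ i := by
      by_contra h
      push Not at h
      exact hσ (Equiv.ext h)
    have hi' : σ (σ i) ≠ σ i := fun h => hi (σ.injective h)
    have hmem : σ i ∈ Finset.univ.erase i := by simp [hi]
    rw [← Finset.mul_prod_erase _ _ (Finset.mem_univ i),
      ← Finset.mul_prod_erase _ _ hmem, ← mul_assoc, hoff _ _ hi, hoff _ _ hi', hsq]
    simp
  · simp

/-- constant jets -/
noncomputable def inlG : SLC r →* SLD r :=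
  SpecialLinearGroup.map (TrivSqZeroExt.inlHom ℂ ℂ)

lemma coe_inlG (A : SLC r) :
    ((inlG A : SLD r) : MD r) = (A : MC r).map TrivSqZeroExt.inl := rfl

lemma sndM_inlG (A : SLC r) : sndM ((inlG A : SLD r) : MD r) = 0 := by
  ext i j
  simp [sndM_apply, coe_inlG]

lemma fstA_inlG (A : SLC r) : fstA ((inlG A : SLD r) : MD r) = (A : MC r) := by
  ext i j
  simp [fstA_apply, coe_inlG]

/-- `1 + ε • u` for traceless `u`, in the special linear group -/
noncomputable def epsG (u : MC r) (hu : u.trace = 0) : SLD r :=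
  ⟨oneEps u, by simp [det_oneEps, hu]⟩

/-- the jet with base point `A` and left tangent `u` -/
noncomputable def mkJet (A : SLC r) (u : MC r) (hu : u.trace = 0) : SLD r :=
  inlG A * epsG u hu

lemma coe_mkJet (A : SLC r) (u : MC r) (hu : u.trace = 0) :
    ((mkJet A u hu : SLD r) : MD r) = ((inlG A : SLD r) : MD r) * oneEps u := rfl

lemma trace_gam (c : SLD r) : (gam c).trace = 0 := by
  have h : (c : MD r) = ((inlG (fstG c) : SLD r) : MD r) * oneEps (gam c) := by
    refine ext_fst_snd ?_ ?_
    · rw [map_mul, fstA_oneEps, Matrix.mul_one, fstA_inlG, coe_fstG]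
    · rw [sndM_mul, sndM_inlG, sndM_oneEps, Matrix.zero_mul, add_zero, fstA_inlG, ← sndM_coe]
  have h2 := congrArg det h
  simp only [det_mul, detD, one_mul, det_oneEps] at h2
  have h3 := congrArg TrivSqZeroExt.snd h2
  simpa using h3.symm

lemma fstG_mkJet (A : SLC r) (u : MC r) (hu : u.trace = 0) : fstG (mkJet A u hu) = A := by
  apply Subtype.ext
  change fstA ((mkJet A u hu : SLD r) : MD r) = (A : MC r)
  rw [coe_mkJet, map_mul, fstA_inlG, fstA_oneEps, Matrix.mul_one]

lemma gam_mkJet (A : SLC r) (u : MC r) (hu : u.trace = 0) : gam (mkJet A u hu) = u := by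
  rw [gam, fstG_mkJet, coe_mkJet, sndM_mul, sndM_inlG, sndM_oneEps, Matrix.zero_mul, add_zero,
    fstA_inlG, inv_mul_mul_SLC]

/-- a tuple of jets lying over the handlebody representation `flat A` -/
def Over (A : Fin g → SLC r) (t : Tup g (SLD r)) : Prop := tmap fstG t = flat A

lemma Over.act {A : Fin g → SLC r} {t : Tup g (SLD r)} (h : Over A t) (m : Move g) :
    Over (m.aact A) (m.act t) := by
  rw [Over, ← Move.act_map, h, Move.act_flat]

lemma Over.acts {A : Fin g → SLC r} {t : Tup g (SLD r)} (h : Over A t) (L : List (Move g)) :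
    Over (aacts L A) (acts L t) := by
  rw [Over, ← acts_map, h, acts_flat]

lemma Over.fst_a {A : Fin g → SLC r} {t : Tup g (SLD r)} (h : Over A t) (i : Fin g) :
    fstG (t i).1 = A i :=
  congrArg Prod.fst (congrFun h i)

lemma Over.fst_b {A : Fin g → SLC r} {t : Tup g (SLD r)} (h : Over A t) (i : Fin g) :
    fstG (t i).2 = 1 :=
  congrArg Prod.snd (congrFun h i)

lemma over_flat {A : Fin g → SLC r} {a : Fin g → SLD r} (ha : ∀ i, fstG (a i) = A i) :
    Over A (flat a) :=
  funext fun i => by simp [tmap, flat, ha i]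

lemma fst_aact {A : Fin g → SLC r} {a : Fin g → SLD r} (ha : ∀ i, fstG (a i) = A i) (m : Move g)
    (i : Fin g) : fstG (m.aact a i) = m.aact A i := by
  have := ((over_flat ha).act m).fst_a i
  rwa [m.act_flat] at this

/-- the symplectic pairing of the `b`-part of `t` with the `a`-part of `u` -/
noncomputable def pair (t u : Tup g (SLD r)) : ℂ :=
  ∑ i, (sndM ((t i).2 : MD r) * gam (u i).1).trace

lemma pair_op_sw {A : Fin g → SLC r} {t : Tup g (SLD r)} {a : Fin g → SLD r}
    (ht : Over A t) (i j : Fin g) :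
    (sndM (((Kind.sw.op (t i) (t j)).1.2 : SLD r) : MD r) *
        gam (Kind.sw.op (flat a i) (flat a j)).1.1).trace +
      (sndM (((Kind.sw.op (t i) (t j)).2.2 : SLD r) : MD r) *
        gam (Kind.sw.op (flat a i) (flat a j)).2.1).trace =
    (sndM ((t i).2 : MD r) * gam (a i)).trace + (sndM ((t j).2 : MD r) * gam (a j)).trace := by
  have hc : fstG (cm (t i)) = 1 := by simp [cm, ht.fst_b i]
  have e : sndM ((cm (t i) * (t j).2 * (cm (t i))⁻¹ : SLD r) : MD r) = sndM ((t j).2 : MD r) := by
    rw [sndM_conj _ _ (ht.fst_b j), hc, inv_one, oneC, Matrix.one_mul,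
      Matrix.mul_one]
  simp only [Kind.op, e, flat]
  have e2 : cm (a i, (1 : SLD r)) * a j * (cm (a i, (1 : SLD r)))⁻¹ = a j := by simp [cm]
  rw [e2]
  exact add_comm _ _

lemma pair_op_tv {A : Fin g → SLC r} {t : Tup g (SLD r)} {a : Fin g → SLD r}
    (ht : Over A t) (ha : ∀ i, fstG (a i) = A i) (i j : Fin g) :
    (sndM (((Kind.tv.op (t i) (t j)).1.2 : SLD r) : MD r) *
        gam (Kind.tv.op (flat a i) (flat a j)).1.1).trace +
      (sndM (((Kind.tv.op (t i) (t j)).2.2 : SLD r) : MD r) *
        gam (Kind.tv.op (flat a i) (flat a j)).2.1).trace =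
    (sndM ((t i).2 : MD r) * gam (a i)).trace + (sndM ((t j).2 : MD r) * gam (a j)).trace := by
  have hy := ht.fst_b i
  have hw := ht.fst_b j
  have hz := ht.fst_a j
  generalize t i = p at hy ⊢
  generalize t j = q at hw hz ⊢
  obtain ⟨x, y⟩ := p
  obtain ⟨z, w⟩ := q
  simp only at hy hw hz ⊢
  have h1 : ∀ e : SLD r, fstG e = 1 → sndM ((z⁻¹ * e * z : SLD r) : MD r) =
      (((A j)⁻¹ : SLC r) : MC r) * sndM (e : MD r) * ((A j : SLC r) : MC r) := by
    intro e he
    have := sndM_conj z⁻¹ e he
    rwa [inv_inv, map_inv, hz, inv_inv] at this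
  have hy' : fstG y⁻¹ = 1 := by rw [map_inv, hy, inv_one]
  have h2 : w * z⁻¹ * y⁻¹ * z = w * (z⁻¹ * y⁻¹ * z) := by group
  simp only [Kind.op, flat, inv_one, mul_one, inv_mul_cancel, one_mul, h2]
  rw [h1 y hy, sndM_mul_of_fst_one w _ hw (by simp [hy]), h1 y⁻¹ hy',
    sndM_inv_of_fst_one y hy, gam_mul, ha j]
  set Z : MC r := ((A j : SLC r) : MC r) with hZ
  set Zi : MC r := (((A j)⁻¹ : SLC r) : MC r) with hZi
  have e1 : Z * Zi = 1 := coe_mul_inv_SLC _
  have key : (Zi * sndM (y : MD r) * Z * (Zi * gam (a i) * Z)).trace =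
      (sndM (y : MD r) * gam (a i)).trace := by
    calc (Zi * sndM (y : MD r) * Z * (Zi * gam (a i) * Z)).trace
        = (Zi * (sndM (y : MD r) * (Z * Zi) * gam (a i) * Z)).trace := by
          simp only [Matrix.mul_assoc]
      _ = _ := by
          rw [Matrix.trace_mul_comm, e1, Matrix.mul_one, Matrix.mul_assoc, Matrix.mul_assoc,
            e1, Matrix.mul_one]
  simp only [Matrix.mul_add, Matrix.add_mul, Matrix.trace_add, Matrix.mul_neg, Matrix.neg_mul,
    Matrix.trace_neg, key]
  ring

lemma pair_act_sw_tv {A : Fin g → SLC r} {t : Tup g (SLD r)} {a : Fin g → SLD r}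
    (ht : Over A t) (ha : ∀ i, fstG (a i) = A i) (m : Move g)
    (hm : m.kind = Kind.sw ∨ m.kind = Kind.tv) :
    pair (m.act t) (m.act (flat a)) = pair t (flat a) := by
  have hsum : ∀ f : Fin g → ℂ, ∑ l, f l =
      f m.i + f m.j + ∑ l ∈ (Finset.univ.erase m.i).erase m.j, f l := by
    intro f
    rw [add_assoc, Finset.add_sum_erase _ _ (by simp [m.i_ne_j.symm]),
      Finset.add_sum_erase _ _ (Finset.mem_univ _)]
  rw [pair, pair, hsum, hsum]
  congr 1
  · rw [m.act_i, m.act_j, m.act_i (flat a), m.act_j (flat a)]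
    rcases hm with hm | hm <;> rw [hm]
    · exact pair_op_sw ht m.i m.j
    · exact pair_op_tv ht ha m.i m.j
  · refine Finset.sum_congr rfl fun l hl => ?_
    simp only [Finset.mem_erase] at hl
    rw [m.act_ne t hl.2.1 hl.1, m.act_ne (flat a) hl.2.1 hl.1]

lemma pair_act {A : Fin g → SLC r} {t : Tup g (SLD r)} {a : Fin g → SLD r}
    (ht : Over A t) (ha : ∀ i, fstG (a i) = A i) (m : Move g) :
    pair (m.act t) (m.act (flat a)) = pair t (flat a) := by
  by_cases hm : m.kind = Kind.sw ∨ m.kind = Kind.tv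
  · exact pair_act_sw_tv ht ha m hm
  · have hm' : m.inv.kind = Kind.sw ∨ m.inv.kind = Kind.tv := by
      cases h : m.kind <;> simp_all [Move.inv, Kind.inv]
    have := pair_act_sw_tv (ht.act m) (fst_aact ha m) m.inv hm'
    rw [← m.act_flat, m.inv_act, m.inv_act] at this
    exact this.symm

lemma pair_acts {A : Fin g → SLC r} {t : Tup g (SLD r)} {a : Fin g → SLD r}
    (ht : Over A t) (ha : ∀ i, fstG (a i) = A i) (L : List (Move g)) :
    pair (acts L t) (acts L (flat a)) = pair t (flat a) := by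
  induction L generalizing A t a with
  | nil => rfl
  | cons m L ih =>
    rw [acts_cons, acts_cons, m.act_flat, ih (ht.act m) (fst_aact ha m), ← m.act_flat,
      pair_act ht ha]

lemma eq_zero_of_forall_trace_mul {X : MC r} (h : ∀ V, (X * V).trace = 0) : X = 0 := by
  ext i j
  simpa [Matrix.trace_mul_single] using h (Matrix.single j i 1)

lemma derivation_inner (hr : 0 < r) (D : MC r →ₗ[ℂ] MC r)
    (hD : ∀ A B, D (A * B) = A * D B + D A * B) :
    ∃ Y, ∀ A, D A = Y * A - A * Y := by
  let o : Fin r := ⟨0, hr⟩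
  refine ⟨∑ i, D (Matrix.single i o 1) * Matrix.single o i 1, fun A => ?_⟩
  have hone : ∑ i, Matrix.single i i (1 : ℂ) = (1 : MC r) := by
    ext a b
    simp only [Matrix.sum_apply, Matrix.single_apply, Matrix.one_apply]
    rcases eq_or_ne a b with rfl | h
    · simp
    · simp [h]
  have h1 : ∀ i, A * Matrix.single i o 1 = ∑ j, A j i • Matrix.single j o (1 : ℂ) := by
    intro i
    ext a b
    rcases eq_or_ne b o with rfl | h
    · simp [Matrix.sum_apply, Matrix.single_apply]
    · simp [Matrix.mul_single_apply_of_ne, h, Matrix.sum_apply, h.symm]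
  have h2 : ∀ j, ∑ i, A j i • Matrix.single o i (1 : ℂ) = Matrix.single o j 1 * A := by
    intro j
    ext a b
    rcases eq_or_ne a o with rfl | h
    · simp [Matrix.sum_apply, Matrix.single_apply]
    · simp [Matrix.single_mul_apply_of_ne, h, Matrix.sum_apply, h.symm]
  have key : ∑ i, D (A * Matrix.single i o 1) * Matrix.single o i 1 =
      (∑ i, D (Matrix.single i o 1) * Matrix.single o i 1) * A := by
    simp only [h1, map_sum, map_smul, Finset.sum_mul, Matrix.smul_mul]
    rw [Finset.sum_comm]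
    refine Finset.sum_congr rfl fun j _ => ?_
    rw [Matrix.mul_assoc, ← h2, Finset.mul_sum]
    exact Finset.sum_congr rfl fun i _ => (Matrix.mul_smul _ _ _).symm
  simp only [hD, Matrix.add_mul, Finset.sum_add_distrib, Matrix.mul_assoc,
    Matrix.single_mul_single_same, one_mul] at key
  rw [← Finset.mul_sum, ← Finset.mul_sum, hone, Matrix.mul_one] at key
  exact eq_sub_of_add_eq' key

/-- The algebraic core: if the derivative, along the first order deformation `a` of `A`, of the
trace of every primitive word vanishes, then `a` is infinitesimal conjugation. -/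
theorem coboundary_of_trace_jets (hr : 0 < r) (hg : 3 ≤ g) (A : Fin g → SLC r)
    (hgen : Algebra.adjoin ℂ ({(A ⟨1, by omega⟩ : MC r), (A ⟨2, by omega⟩ : MC r)} :
      Set (MC r)) = ⊤)
    (a : Fin g → SLD r) (ha : ∀ i, fstG (a i) = A i)
    (h : ∀ L : List (Move g),
      (((acts L (flat a) ⟨0, by omega⟩).1 : SLD r) : MD r).trace.snd = 0) :
    ∃ Y, ∀ i, gam (a i) = (((A i)⁻¹ : SLC r) : MC r) * Y * (A i : MC r) - Y := by
  set p : Fin g := ⟨1, by omega⟩
  set q : Fin g := ⟨2, by omega⟩
  set o : Fin g := ⟨0, by omega⟩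
  have hfst : ∀ i, fstA (a i : MD r) = (A i : MC r) := fun i => by rw [← coe_fstG, ha]
  set S : Set (MD r) := {(a p : MD r), (a q : MD r)} with hS
  set E := Algebra.adjoin ℂ S with hE
  have reach : ∀ k, k ≠ p → k ≠ q → ∀ x ∈ Submonoid.closure S,
      (((a k : MD r) * x).trace).snd = 0 := by
    intro k hkp hkq x hx
    suffices ∃ (L : List (Move g)) (v : SLD r), (v : MD r) = x ∧
        acts L (flat a) = flat (Function.update a k (a k * v)) by
      obtain ⟨L, v, hv, hL⟩ := this
      obtain ⟨L', hL'⟩ := exists_acts_perm (Equiv.swap o k)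
      have := h (L ++ L')
      rw [acts_append, hL, hL'] at this
      simpa [flat, mulD, hv] using this
    induction hx using Submonoid.closure_induction_right with
    | one => exact ⟨[], 1, oneD, by simp⟩
    | mul_right x hx y hy ih =>
      obtain ⟨L, v, hv, hL⟩ := ih
      obtain ⟨l, hl, hly⟩ : ∃ l, k ≠ l ∧ y = (a l : MD r) := by
        rcases hy with rfl | rfl
        · exact ⟨p, hkp, rfl⟩
        · exact ⟨q, hkq, rfl⟩
      obtain ⟨L', hL'⟩ := exists_acts_mul (by omega : 2 ≤ g) hl
      refine ⟨L ++ L', v * a l, by rw [mulD, hv, hly], ?_⟩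
      rw [acts_append, hL, hL']
      congr 1
      simp [Function.update_of_ne hl.symm, mul_assoc]
  have reachE : ∀ k, k ≠ p → k ≠ q → ∀ x ∈ E, (sndM ((a k : MD r) * x)).trace = 0 := by
    intro k hkp hkq x hx
    have hx' : x ∈ Submodule.span ℂ (Submonoid.closure S : Set (MD r)) := by
      rw [← Algebra.adjoin_eq_span]; exact hx
    clear hx
    induction hx' using Submodule.span_induction with
    | mem y hy => rw [← snd_trace]; exact reach k hkp hkq y hy
    | zero => simp [sndM_zero]
    | add y z _ _ hy hz => rw [Matrix.mul_add, sndM_add, Matrix.trace_add, hy, hz, add_zero]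
    | smul c y _ hy => rw [Matrix.mul_smul, sndM_smul, Matrix.trace_smul, hy, smul_zero]
  have hkpo : o ≠ p := by simp [o, p]
  have hkqo : o ≠ q := by simp [o, q]
  have hsurj : ∀ V, ∃ x ∈ E, fstA x = V := by
    intro V
    have hV : V ∈ Subalgebra.map fstA E := by
      rw [hE, AlgHom.map_adjoin, hS, Set.image_pair, hfst, hfst, hgen]
      trivial
    exact hV
  have huniq : ∀ x ∈ E, fstA x = 0 → sndM x = 0 := by
    intro x hx hx0
    have : (A o : MC r) * sndM x = 0 := by
      refine eq_zero_of_forall_trace_mul fun V => ?_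
      obtain ⟨y, hy, rfl⟩ := hsurj V
      have := reachE o hkpo hkqo (x * y) (mul_mem hx hy)
      simpa [sndM_mul, map_mul, hx0, hfst, Matrix.mul_assoc, Matrix.mul_add] using this
    have h2 := congrArg (fun M => (((A o)⁻¹ : SLC r) : MC r) * M) this
    simpa only [inv_mul_mul_SLC, Matrix.mul_zero] using h2
  choose pre hpre hfpre using hsurj
  have heq : ∀ x ∈ E, sndM x = sndM (pre (fstA x)) := by
    intro x hx
    have := huniq (x - pre (fstA x)) (sub_mem hx (hpre _)) (by simp [hfpre])
    rwa [sndM_sub, sub_eq_zero] at this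
  let D : MC r →ₗ[ℂ] MC r :=
    { toFun := fun V => sndM (pre V)
      map_add' := fun V W => by
        have := heq _ (add_mem (hpre V) (hpre W))
        rw [map_add, hfpre, hfpre, sndM_add] at this
        exact this.symm
      map_smul' := fun c V => by
        have := heq _ (E.smul_mem (hpre V) c)
        rw [map_smul, hfpre, sndM_smul] at this
        exact this.symm }
  obtain ⟨Y, hY⟩ := derivation_inner hr D (fun V W => by
    have := heq _ (mul_mem (hpre V) (hpre W))
    rw [map_mul, hfpre, hfpre, sndM_mul, hfpre, hfpre] at this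
    exact this.symm)
  refine ⟨Y, fun i => ?_⟩
  suffices hi : sndM (a i : MD r) = Y * (A i : MC r) - (A i : MC r) * Y by
    rw [gam, ha, hi, Matrix.mul_sub, inv_mul_mul_SLC, ← Matrix.mul_assoc]
  by_cases hi : i = p ∨ i = q
  · have hmem : (a i : MD r) ∈ E :=
      Algebra.subset_adjoin (by rcases hi with rfl | rfl <;> simp [hS])
    rw [heq _ hmem, hfst]
    exact hY _
  · push Not at hi
    have : sndM (a i : MD r) - (Y * (A i : MC r) - (A i : MC r) * Y) = 0 := by
      refine eq_zero_of_forall_trace_mul fun V => ?_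
      have h1 := reachE i hi.1 hi.2 (pre V) (hpre V)
      rw [sndM_mul, hfst, hfpre, show sndM (pre V) = Y * V - V * Y from hY V] at h1
      rw [← h1]
      simp only [Matrix.mul_sub, Matrix.sub_mul, Matrix.trace_add, Matrix.trace_sub,
        Matrix.mul_assoc]
      rw [Matrix.trace_mul_comm Y ((A i : MC r) * V), Matrix.mul_assoc]
      ring
    exact sub_eq_zero.1 this

end Vale.Agent.P002.Surface
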