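import Mathlib
import Vale.Agent.P002.SurfaceJets

/-!
Analytic families in `SL_r(ℂ)`, their jets, the exponential of a traceless matrix, and the key
interpolation lemma: a polynomial vanishing on all powers of a nonresonant matrix vanishes on the
one-parameter group generated by its traceless part.
-/

namespace Vale.Agent.P002.Surface

open Matrix Filter Topology
open scoped Matrix.Norms.Operator DualNumber

variable {r : ℕ}

section AnFun

variable {E : Type*} [NormedAddCommGroup E] [NormedSpace ℂ E]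

variable (E) in
/-- entire functions on `E` -/
noncomputable def AnFun : Subalgebra ℂ (E → ℂ) where
  carrier := {f | AnalyticOnNhd ℂ f Set.univ}
  mul_mem' hf hg := hf.mul hg
  add_mem' hf hg := hf.add hg
  algebraMap_mem' c := by
    change AnalyticOnNhd ℂ (fun _ => c) Set.univ
    exact analyticOnNhd_const

/-- evaluation at a point -/
noncomputable def evalPt (θ : E) : AnFun E →+* ℂ :=
  (Pi.evalRingHom (fun _ => ℂ) θ).comp (AnFun E).val.toRingHom

lemma evalPt_apply (θ : E) (f : AnFun E) : evalPt θ f = (f : E → ℂ) θ := rfl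

lemma AnFun.differentiableAt (f : AnFun E) (θ : E) : DifferentiableAt ℂ (f : E → ℂ) θ :=
  (f.2 θ trivial).differentiableAt

/-- the first order jet at a point in a direction -/
noncomputable def jetPt (θ v : E) : AnFun E →+* ℂ[ε] where
  toFun f := TrivSqZeroExt.inl ((f : E → ℂ) θ) + TrivSqZeroExt.inr (fderiv ℂ (f : E → ℂ) θ v)
  map_one' := by
    refine TrivSqZeroExt.ext ?_ ?_
    · simp
    · simp only [OneMemClass.coe_one, TrivSqZeroExt.snd_add, TrivSqZeroExt.snd_inl,
        TrivSqZeroExt.snd_inr, zero_add, TrivSqZeroExt.snd_one]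
      rw [show (1 : E → ℂ) = fun _ => (1 : ℂ) from rfl, fderiv_fun_const]
      rfl
  map_mul' f g := by
    refine TrivSqZeroExt.ext ?_ ?_
    · simp
    · simp only [MulMemClass.coe_mul, TrivSqZeroExt.snd_add, TrivSqZeroExt.snd_inl,
        TrivSqZeroExt.snd_inr, zero_add, DualNumber.snd_mul, TrivSqZeroExt.fst_add,
        TrivSqZeroExt.fst_inl, TrivSqZeroExt.fst_inr, add_zero]
      rw [fderiv_mul (AnFun.differentiableAt f θ) (AnFun.differentiableAt g θ)]
      simp only [_root_.add_apply, _root_.smul_apply, smul_eq_mul]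
      ring
  map_zero' := by
    refine TrivSqZeroExt.ext ?_ ?_
    · simp
    · simp only [ZeroMemClass.coe_zero, TrivSqZeroExt.snd_add, TrivSqZeroExt.snd_inl,
        TrivSqZeroExt.snd_inr, zero_add, TrivSqZeroExt.snd_zero]
      rw [show (0 : E → ℂ) = fun _ => (0 : ℂ) from rfl, fderiv_fun_const]
      rfl
  map_add' f g := by
    refine TrivSqZeroExt.ext ?_ ?_
    · simp
    · simp only [AddMemClass.coe_add, TrivSqZeroExt.snd_add, TrivSqZeroExt.snd_inl,
        TrivSqZeroExt.snd_inr, zero_add]
      rw [fderiv_add (AnFun.differentiableAt f θ) (AnFun.differentiableAt g θ)]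
      rfl

lemma fst_jetPt (θ v : E) (f : AnFun E) : (jetPt θ v f).fst = evalPt θ f := by
  simp [jetPt, evalPt_apply]

lemma snd_jetPt (θ v : E) (f : AnFun E) : (jetPt θ v f).snd = fderiv ℂ (f : E → ℂ) θ v := by
  simp [jetPt]

/-- a point of an analytic family -/
noncomputable def evalG (θ : E) : SpecialLinearGroup (Fin r) (AnFun E) →* SLC r :=
  SpecialLinearGroup.map (evalPt θ)

/-- a jet of an analytic family -/
noncomputable def jetG (θ v : E) : SpecialLinearGroup (Fin r) (AnFun E) →* SLD r :=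
  SpecialLinearGroup.map (jetPt θ v)

lemma fstG_jetG (θ v : E) (W : SpecialLinearGroup (Fin r) (AnFun E)) :
    fstG (jetG θ v W) = evalG θ W :=
  Subtype.ext (Matrix.ext fun i j => fst_jetPt θ v _)

lemma sndM_jetG (θ v : E) (W : SpecialLinearGroup (Fin r) (AnFun E)) (i j : Fin r) :
    sndM ((jetG θ v W : SLD r) : MD r) i j =
      fderiv ℂ (fun θ => ((evalG θ W : SLC r) : MC r) i j) θ v :=
  snd_jetPt θ v _

lemma analyticOnNhd_evalG (W : SpecialLinearGroup (Fin r) (AnFun E)) :
    AnalyticOnNhd ℂ (fun θ => ((evalG θ W : SLC r) : MC r)) Set.univ := by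
  have h : (fun θ => ((evalG θ W : SLC r) : MC r)) = ∑ i, ∑ j, fun θ =>
      ((W : Matrix (Fin r) (Fin r) (AnFun E)) i j : E → ℂ) θ • Matrix.single i j (1 : ℂ) := by
    funext θ
    simp only [Finset.sum_apply, Matrix.smul_single, smul_eq_mul, mul_one]
    refine (Matrix.matrix_eq_sum_single _).trans ?_
    rfl
  rw [h]
  refine Finset.analyticOnNhd_sum _ fun i _ => ?_
  refine Finset.analyticOnNhd_sum _ fun j _ => ?_
  exact ((W : Matrix (Fin r) (Fin r) (AnFun E)) i j).2.smul analyticOnNhd_const

end AnFun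

/-- the traceless part -/
noncomputable def tlp (X : MC r) : MC r := X - (X.trace / r) • (1 : MC r)

lemma trace_tlp (hr : 0 < r) (X : MC r) : (tlp X).trace = 0 := by
  have : (r : ℂ) ≠ 0 := Nat.cast_ne_zero.2 hr.ne'
  simp [tlp, Matrix.trace_sub, Matrix.trace_smul, this]

lemma entry_analytic (i j : Fin r) : AnalyticOnNhd ℂ (fun X : MC r => X i j) Set.univ := by
  let l : MC r →ₗ[ℂ] ℂ :=
    { toFun := fun X => X i j, map_add' := fun X Y => rfl, map_smul' := fun _ _ => rfl }
  exact (LinearMap.toContinuousLinearMap l).analyticOnNhd Set.univ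

lemma exp_analyticOnNhd : AnalyticOnNhd ℂ (NormedSpace.exp : MC r → MC r) Set.univ :=
  fun X _ => NormedSpace.exp_analytic X

lemma det_exp_smul {X : MC r} (hX : X.trace = 0) (t : ℂ) :
    det (NormedSpace.exp (t • X)) = 1 := by
  set F : ℂ → MC r := fun t => NormedSpace.exp (t • X) with hF
  have hFan : AnalyticOnNhd ℂ F Set.univ :=
    exp_analyticOnNhd.comp (analyticOnNhd_id.smul analyticOnNhd_const) (Set.mapsTo_univ _ _)
  let M : Matrix (Fin r) (Fin r) (AnFun ℂ) := fun i j =>
    ⟨fun t => F t i j, (entry_analytic i j).comp hFan (Set.mapsTo_univ _ _)⟩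
  set h : ℂ → ℂ := fun t => det (F t) with hh
  have hval : ∀ t, ((det M : AnFun ℂ) : ℂ → ℂ) t = h t := fun t => by
    rw [← evalPt_apply, RingHom.map_det]
    rfl
  have hadd : ∀ s t, h (s + t) = h s * h t := by
    intro s t
    simp only [hh, hF, add_smul]
    rw [Matrix.exp_add_of_commute]
    · exact det_mul _ _
    · exact ((Commute.refl X).smul_left s).smul_right t
  have hd : ∀ t, DifferentiableAt ℂ h t := fun t => by
    have := AnFun.differentiableAt (det M) t
    rwa [show ((det M : AnFun ℂ) : ℂ → ℂ) = h from funext hval] at this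
  have h0 : deriv h 0 = 0 := by
    have e1 : (jetPt (0 : ℂ) 1).mapMatrix M = oneEps X := by
      have hF' : HasFDerivAt F (((1 : ℂ →L[ℂ] ℂ)).smulRight X) 0 := by
        have h1 : HasFDerivAt (fun t : ℂ => t • X) (((1 : ℂ →L[ℂ] ℂ)).smulRight X) 0 :=
          (hasFDerivAt_id (0 : ℂ)).smul_const X
        have h2 : HasFDerivAt (NormedSpace.exp : MC r → MC r) (1 : MC r →L[ℂ] MC r)
            ((0 : ℂ) • X) := by
          rw [zero_smul]; exact hasFDerivAt_exp_zero
        exact h2.comp (0 : ℂ) h1
      refine ext_fst_snd ?_ ?_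
      · rw [fstA_oneEps]
        ext i j
        change (jetPt (0 : ℂ) 1 (M i j)).fst = _
        rw [fst_jetPt]
        change F 0 i j = _
        simp [hF, NormedSpace.exp_zero]
      · rw [sndM_oneEps]
        ext i j
        change (jetPt (0 : ℂ) 1 (M i j)).snd = _
        rw [snd_jetPt]
        let l : MC r →ₗ[ℂ] ℂ :=
          { toFun := fun X => X i j, map_add' := fun X Y => rfl, map_smul' := fun c X => rfl }
        have := ((LinearMap.toContinuousLinearMap l).hasFDerivAt.comp (0 : ℂ) hF').fderiv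
        change fderiv ℂ (fun t => F t i j) 0 1 = _
        rw [show (fun t => F t i j) = (LinearMap.toContinuousLinearMap l) ∘ F from rfl, this]
        change ((1 : ℂ) • X) i j = X i j
        simp
    have e2 := congrArg TrivSqZeroExt.snd
      ((RingHom.map_det (jetPt (0 : ℂ) 1) M).trans (congrArg det e1))
    rw [snd_jetPt, det_oneEps, hX, show ((det M : AnFun ℂ) : ℂ → ℂ) = h from funext hval,
      fderiv_apply_one_eq_deriv] at e2
    simpa using e2
  have hz : ∀ t, deriv h t = 0 := by
    intro t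
    have h1 : HasDerivAt (fun s => h t * h s) (h t * deriv h 0) (t - t) := by
      rw [sub_self]
      exact ((hd 0).hasDerivAt).const_mul (h t)
    have h2 := h1.comp_sub_const t t
    rw [h0, mul_zero] at h2
    refine HasDerivAt.deriv (h2.congr_of_eventuallyEq (Eventually.of_forall fun s => ?_))
    simp only [← hadd]
    congr 1
    ring
  have := is_const_of_deriv_eq_zero hd hz t 0
  simpa [hh, hF, NormedSpace.exp_zero] using this

lemma exists_degree_bound {σ τ : Type*} (f : MvPolynomial σ ℂ) :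
    ∃ D : ℕ, ∀ p : σ → MvPolynomial τ ℂ, (∀ k, (p k).totalDegree ≤ 1) →
      (MvPolynomial.aeval p f).totalDegree ≤ D := by
  induction f using MvPolynomial.induction_on with
  | C a => exact ⟨0, fun p _ => by simp⟩
  | add f g hf hg =>
    obtain ⟨D, hD⟩ := hf
    obtain ⟨D', hD'⟩ := hg
    refine ⟨max D D', fun p hp => ?_⟩
    rw [map_add]
    exact (MvPolynomial.totalDegree_add _ _).trans (max_le_max (hD p hp) (hD' p hp))
  | mul_X f k hf =>
    obtain ⟨D, hD⟩ := hf
    refine ⟨D + 1, fun p hp => ?_⟩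
    rw [map_mul, MvPolynomial.aeval_X]
    exact (MvPolynomial.totalDegree_mul _ _).trans (add_le_add (hD p hp) (hp k))

/-- no monomial relation between the entries, apart from the product of all entries -/
def NonRes (lam : Fin r → ℂ) : Prop :=
  ∀ m m' : Fin r → ℕ, ∏ k, lam k ^ m k = ∏ k, lam k ^ m' k → ∀ i j, m i + m' j = m j + m' i

lemma NonRes.injective {lam : Fin r → ℂ} (h : NonRes lam) : Function.Injective lam := by
  intro i j hij
  by_contra hne
  have := h (Pi.single i 1) (Pi.single j 1) (by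
    rw [Fintype.prod_eq_single i (fun k hk => by simp [hk]),
      Fintype.prod_eq_single j (fun k hk => by simp [hk])]
    simpa using hij) i j
  simp [hne, Ne.symm hne] at this

lemma eval_eq_zero_of_powers {q : MvPolynomial (Fin r) ℂ} {d s : Fin r → ℂ}
    (hq : ∀ m ∈ q.support, ∀ m' ∈ q.support, ∏ k, d k ^ m k = ∏ k, d k ^ m' k →
      ∀ i j, m i + m' j = m j + m' i)
    (hvan : ∀ n : ℕ, MvPolynomial.eval (fun k => d k ^ n) q = 0) (hs : ∏ k, s k = 1) :
    MvPolynomial.eval s q = 0 := by
  classical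
  set v : (Fin r →₀ ℕ) → ℂ := fun m => ∏ k, d k ^ m k with hv
  set sm : (Fin r →₀ ℕ) → ℂ := fun m => ∏ k, s k ^ m k with hsm
  set V := q.support.image v
  set Cc : ℂ → ℂ := fun w => ∑ m ∈ q.support with v m = w, q.coeff m with hCc
  have hC : ∀ w ∈ V, Cc w = 0 := by
    intro w hw
    let e := V.equivFin.symm
    have := Matrix.eq_zero_of_forall_pow_sum_mul_pow_eq_zero
      (f := fun i => ((e i : V) : ℂ)) (v := fun i => Cc (e i))
      (fun a b hab => e.injective (Subtype.ext hab)) (fun n => by
        have h1 : ∑ j, Cc ((e j : V) : ℂ) * ((e j : V) : ℂ) ^ (n : ℕ) =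
            ∑ w ∈ V, Cc w * w ^ (n : ℕ) := by
          rw [← Finset.sum_attach V]
          exact e.sum_comp fun x : V => Cc x * (x : ℂ) ^ (n : ℕ)
        rw [h1, ← hvan n, MvPolynomial.eval_eq',
          ← Finset.sum_fiberwise_of_maps_to (g := v) (fun m hm => Finset.mem_image_of_mem v hm)]
        refine Finset.sum_congr rfl fun w _ => ?_
        rw [hCc, Finset.sum_mul]
        refine Finset.sum_congr rfl fun m hm => ?_
        rw [Finset.mem_filter] at hm
        rw [← hm.2, hv, ← Finset.prod_pow]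
        congr 1
        exact Finset.prod_congr rfl fun k _ => by rw [← pow_mul, ← pow_mul, mul_comm])
    have := congrFun this (e.symm ⟨w, hw⟩)
    simpa using this
  rw [MvPolynomial.eval_eq', ← Finset.sum_fiberwise_of_maps_to (g := v)
    (fun m hm => Finset.mem_image_of_mem v hm)]
  refine Finset.sum_eq_zero fun w hw => ?_
  obtain ⟨m₀, hm₀, rfl⟩ := Finset.mem_image.1 hw
  have hconst : ∀ m ∈ q.support, v m = v m₀ → sm m = sm m₀ := by
    intro m hm hmv
    have h := hq m hm m₀ hm₀ hmv
    rcases Nat.eq_zero_or_pos r with hr0 | hr0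
    · subst hr0; simp [hsm]
    let o : Fin r := ⟨0, hr0⟩
    calc sm m = sm m * (∏ k, s k) ^ m₀ o := by rw [hs, one_pow, mul_one]
      _ = ∏ k, s k ^ (m k + m₀ o) := by
          simp only [hsm, pow_add, Finset.prod_mul_distrib, Finset.prod_pow]
      _ = ∏ k, s k ^ (m₀ k + m o) := by
          refine Finset.prod_congr rfl fun k _ => ?_
          congr 1
          have := h k o
          omega
      _ = sm m₀ * (∏ k, s k) ^ m o := by
          simp only [hsm, pow_add, Finset.prod_mul_distrib, Finset.prod_pow]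
      _ = sm m₀ := by rw [hs, one_pow, mul_one]
  rw [Finset.sum_congr rfl (g := fun m => q.coeff m * sm m₀) (fun m hm => by
    rw [Finset.mem_filter] at hm
    rw [← hconst m hm.1 hm.2]), ← Finset.sum_mul]
  have := hC _ hw
  simp only [hCc] at this
  rw [this, zero_mul]

lemma eventually_diagonalizable {lam : Fin r → ℂ} (hinj : Function.Injective lam)
    (P : MC r × (Fin r → ℂ) → Prop) (hP : ∀ᶠ p in 𝓝 (0, lam), P p) :
    ∀ᶠ Y in 𝓝 (Matrix.diagonal lam), ∃ p, IsUnit (1 + p.1) ∧ P p ∧
      Y = (1 + p.1) * Matrix.diagonal p.2 * Ring.inverse (1 + p.1) := by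
  let dl : (Fin r → ℂ) →L[ℂ] MC r :=
    LinearMap.toContinuousLinearMap (Matrix.diagonalLinearMap (Fin r) ℂ ℂ)
  set Ψ : MC r × (Fin r → ℂ) → MC r :=
    fun p => (1 + p.1) * Matrix.diagonal p.2 * Ring.inverse (1 + p.1) with hΨ
  have h1 : HasStrictFDerivAt (fun p : MC r × (Fin r → ℂ) => 1 + p.1)
      (ContinuousLinearMap.fst ℂ (MC r) (Fin r → ℂ)) (0, lam) :=
    hasStrictFDerivAt_fst.const_add 1
  have h2 : HasStrictFDerivAt (fun p : MC r × (Fin r → ℂ) => Matrix.diagonal p.2)
      (dl.comp (ContinuousLinearMap.snd ℂ (MC r) (Fin r → ℂ))) (0, lam) :=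
    (dl.comp (ContinuousLinearMap.snd ℂ (MC r) (Fin r → ℂ))).hasStrictFDerivAt
  have h3 : HasStrictFDerivAt (fun p : MC r × (Fin r → ℂ) => Ring.inverse (1 + p.1))
      ((-ContinuousLinearMap.mulLeftRight ℂ (MC r) 1 1).comp
        (ContinuousLinearMap.fst ℂ (MC r) (Fin r → ℂ))) (0, lam) := by
    have h := hasStrictFDerivAt_ringInverse (𝕜 := ℂ) (1 : (MC r)ˣ)
    simp only [inv_one, Units.val_one] at h
    refine HasStrictFDerivAt.comp (g := Ring.inverse) _ ?_ h1
    simpa using h
  have h4 := (h1.mul' h2).mul' h3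
  have hmap := h4.map_nhds_eq_of_surj (LinearMap.range_eq_top.2 fun Z =>
    ⟨((Matrix.of fun i j => Z i j / (lam j - lam i) * (if i = j then 0 else 1) : MC r),
      fun i => Z i i), ?_⟩)
  · have hmem : {p : MC r × (Fin r → ℂ) | IsUnit (1 + p.1) ∧ P p} ∈ 𝓝 ((0 : MC r), lam) := by
      refine Filter.inter_mem ?_ hP
      exact (Units.isOpen.preimage (continuous_const.add continuous_fst)).mem_nhds (by simp)
    have := Filter.image_mem_map (m := Ψ) hmem
    rw [show Filter.map Ψ (𝓝 ((0 : MC r), lam)) = 𝓝 (Ψ (0, lam)) from hmap] at this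
    simp only [add_zero, hΨ, one_mul, Ring.inverse_one, mul_one] at this
    filter_upwards [this] with Y hY
    obtain ⟨p, ⟨hp1, hp2⟩, hp3⟩ := hY
    exact ⟨p, hp1, hp2, hp3.symm⟩
  · set X : MC r :=
      Matrix.of fun i j => Z i j / (lam j - lam i) * (if i = j then 0 else 1) with hX
    change (1 + (0 : MC r)) * Matrix.diagonal lam * (-((1 : MC r) * X * 1)) +
      ((1 + (0 : MC r)) * Matrix.diagonal (fun i => Z i i) + X * Matrix.diagonal lam) *
        Ring.inverse (1 + (0 : MC r)) = Z
    simp only [add_zero, Ring.inverse_one, one_mul, mul_one]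
    ext i j
    simp only [Matrix.mul_neg, Matrix.add_apply, Matrix.neg_apply, Matrix.diagonal_mul,
      Matrix.mul_diagonal, hX, Matrix.of_apply]
    rcases eq_or_ne i j with rfl | h
    · simp
    · have : lam j - lam i ≠ 0 := sub_ne_zero.2 fun e => h (hinj e).symm
      simp [h]
      field_simp
      ring

variable {E : Type*} [NormedAddCommGroup E] [NormedSpace ℂ E]

/-- If a polynomial vanishes at all powers of an analytic family of matrices which is
nonresonant somewhere, it vanishes on the exponentials of its traceless part. -/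
theorem flow_vanish {σ : Type*} (hr : 0 < r) (f : MvPolynomial σ ℂ) (c : E → σ → ℂ)
    (L : E → σ → MC r) (W C : E → MC r) (t : E → ℂ) (θs : E)
    (lam : Fin r → ℂ) (hlam : NonRes lam) (hWc : ContinuousAt W θs)
    (hW : W θs = Matrix.diagonal lam)
    (hC : ∀ θ, C θ = NormedSpace.exp (t θ • tlp (W θ)))
    (hH : AnalyticOnNhd ℂ
      (fun θ => MvPolynomial.eval (fun k => c θ k + (L θ k * C θ).trace) f) Set.univ)
    (hvan : ∀ (θ : E) (n : ℕ),
      MvPolynomial.eval (fun k => c θ k + (L θ k * W θ ^ n).trace) f = 0) :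
    ∀ θ, MvPolynomial.eval (fun k => c θ k + (L θ k * C θ).trace) f = 0 := by
  classical
  obtain ⟨D, hD⟩ := exists_degree_bound (τ := Fin r) f
  set Bx : Finset (Fin r → ℕ) := Fintype.piFinset fun _ => Finset.range (D + 1)
  suffices hev : ∀ᶠ θ in 𝓝 θs,
      MvPolynomial.eval (fun k => c θ k + (L θ k * C θ).trace) f = 0 from fun θ =>
    hH.eqOn_zero_of_preconnected_of_eventuallyEq_zero isPreconnected_univ (Set.mem_univ θs)
      hev (Set.mem_univ θ)
  have hP : ∀ᶠ p in 𝓝 ((0 : MC r), lam), ∀ m ∈ Bx, ∀ m' ∈ Bx,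
      ∏ k, p.2 k ^ m k = ∏ k, p.2 k ^ m' k → ∀ i j, m i + m' j = m j + m' i := by
    rw [Filter.eventually_all_finset]
    intro m _
    rw [Filter.eventually_all_finset]
    intro m' _
    by_cases hmm : ∏ k, lam k ^ m k = ∏ k, lam k ^ m' k
    · exact Eventually.of_forall fun p _ => hlam m m' hmm
    · have hc : ContinuousAt
          (fun p : MC r × (Fin r → ℂ) => (∏ k, p.2 k ^ m k) - ∏ k, p.2 k ^ m' k) (0, lam) := by
        fun_prop
      filter_upwards [hc.eventually_ne (sub_ne_zero.2 hmm)] with p hp h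
      exact absurd (sub_eq_zero.2 h) hp
  have hev := hWc.eventually (hW ▸ eventually_diagonalizable hlam.injective _ hP)
  filter_upwards [hev] with θ hθ
  obtain ⟨⟨X, d⟩, hU, hbox, hWθ⟩ := hθ
  simp only at hU hbox hWθ
  set U : MC r := 1 + X
  set Ui : MC r := Ring.inverse U
  have hUiU : Ui * U = 1 := Ring.inverse_mul_cancel U hU
  have hUUi : U * Ui = 1 := Ring.mul_inverse_cancel U hU
  set p : σ → MvPolynomial (Fin r) ℂ := fun k =>
    MvPolynomial.C (c θ k) +
      ∑ l, MvPolynomial.C ((Ui * L θ k * U) l l) * MvPolynomial.X l with hp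
  have hpd : ∀ k, (p k).totalDegree ≤ 1 := by
    intro k
    refine (MvPolynomial.totalDegree_add _ _).trans (max_le (by simp) ?_)
    refine MvPolynomial.totalDegree_finsetSum_le fun l _ => ?_
    exact (MvPolynomial.totalDegree_mul _ _).trans (by simp)
  set q := MvPolynomial.aeval p f with hq
  have hevalq : ∀ s : Fin r → ℂ, MvPolynomial.eval s q =
      MvPolynomial.eval (fun k => c θ k + (L θ k * (U * Matrix.diagonal s * Ui)).trace) f := by
    intro s
    rw [hq]
    change MvPolynomial.aeval s (MvPolynomial.aeval p f) = _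
    rw [← AlgHom.comp_apply, MvPolynomial.comp_aeval]
    change MvPolynomial.eval (fun k => MvPolynomial.eval s (p k)) f = _
    congr 2
    funext k
    have : (L θ k * (U * Matrix.diagonal s * Ui)).trace =
        (Ui * L θ k * U * Matrix.diagonal s).trace := by
      rw [← Matrix.mul_assoc, Matrix.trace_mul_comm]
      simp only [Matrix.mul_assoc]
    rw [this]
    simp [hp, Matrix.trace, Matrix.mul_diagonal]
  have hpow : ∀ n : ℕ, W θ ^ n = U * Matrix.diagonal (fun k => d k ^ n) * Ui := by
    intro n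
    induction n with
    | zero => simp [hUUi]
    | succ n ih =>
      rw [pow_succ, ih, hWθ]
      calc _ = U * (Matrix.diagonal (fun k => d k ^ n) * (Ui * U) * Matrix.diagonal d) * Ui := by
            simp only [Matrix.mul_assoc]
        _ = _ := by simp [hUiU, Matrix.diagonal_mul_diagonal, pow_succ]
  have htl : tlp (W θ) = U * Matrix.diagonal (fun k => d k - (∑ l, d l) / r) * Ui := by
    have htr : (W θ).trace = ∑ l, d l := by
      rw [hWθ, Matrix.trace_mul_comm, ← Matrix.mul_assoc, hUiU, Matrix.one_mul,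
        Matrix.trace_diagonal]
    have hd : Matrix.diagonal (fun k => d k - (∑ l, d l) / r) =
        Matrix.diagonal d - ((∑ l, d l) / (r : ℂ)) • (1 : MC r) := by
      rw [← Matrix.diagonal_one, ← Matrix.diagonal_smul, Matrix.diagonal_sub]
      simp
    rw [hd, tlp, htr, hWθ, Matrix.mul_sub, Matrix.sub_mul, Matrix.mul_smul, Matrix.smul_mul,
      Matrix.mul_one, hUUi]
  have hCθ : C θ = U * Matrix.diagonal
      (fun k => Complex.exp (t θ * (d k - (∑ l, d l) / r))) * Ui := by
    rw [hC, htl, ← Matrix.smul_mul, ← Matrix.mul_smul, ← Matrix.diagonal_smul]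
    have hUi : Ui = U⁻¹ := (Matrix.inv_eq_right_inv hUUi).symm
    rw [hUi, Matrix.exp_conj U _ hU, Matrix.exp_diagonal]
    congr 3
    funext k
    rw [Pi.coe_exp, Complex.exp_eq_exp_ℂ]
    simp
  rw [hCθ, ← hevalq]
  refine eval_eq_zero_of_powers (d := d) ?_ (fun n => by rw [hevalq, ← hpow]; exact hvan θ n) ?_
  · have hb : ∀ m ∈ q.support, (⇑m : Fin r → ℕ) ∈ Bx := by
      intro m hm
      rw [Fintype.mem_piFinset]
      intro k
      rw [Finset.mem_range, Nat.lt_succ_iff]
      exact le_trans (Finsupp.le_degree k m)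
        ((MvPolynomial.le_totalDegree hm).trans (hD p hpd))
    exact fun m hm m' hm' => hbox _ (hb m hm) _ (hb m' hm')
  · rw [← Complex.exp_sum, ← Finset.mul_sum, Finset.sum_sub_distrib]
    have : (r : ℂ) ≠ 0 := Nat.cast_ne_zero.2 hr.ne'
    simp [mul_div_cancel₀, this]

end Vale.Agent.P002.Surface
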