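import Mathlib
import Vale.Agent.P002.SurfaceFlow

/-!
A parametrisation of `SL_{n+1}` near the integral base points by products of transvections, which
also reaches every diagonal matrix; generation of the matrix algebra; a nonresonant diagonal.
-/

namespace Vale.Agent.P002.Surface

open Matrix
open scoped DualNumber

variable {n : ℕ}

abbrev SLR (n : ℕ) (R : Type*) [CommRing R] := SpecialLinearGroup (Fin (n + 1)) R

/-- a transvection -/
def TR {R : Type*} [CommRing R] {i j : Fin (n + 1)} (h : i ≠ j) (c : R) : SLR n R :=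
  SpecialLinearGroup.transvection h c

lemma coe_TR {R : Type*} [CommRing R] {i j : Fin (n + 1)} (h : i ≠ j) (c : R) :
    ((TR h c : SLR n R) : Matrix (Fin (n + 1)) (Fin (n + 1)) R) = 1 + Matrix.single i j c := rfl

lemma map_TR {R S : Type*} [CommRing R] [CommRing S] (f : R →+* S) {i j : Fin (n + 1)}
    (h : i ≠ j) (c : R) : SpecialLinearGroup.map f (TR h c) = TR h (f c) := by
  refine Subtype.ext (Matrix.ext fun a b => ?_)
  change f (((1 : Matrix (Fin (n + 1)) (Fin (n + 1)) R) + Matrix.single i j c : _) a b) =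
    ((1 : Matrix (Fin (n + 1)) (Fin (n + 1)) S) + Matrix.single i j (f c) : _) a b
  simp only [Matrix.add_apply, Matrix.single_apply, Matrix.one_apply, map_add, apply_ite f,
    map_one, map_zero]

lemma TR_zero {R : Type*} [CommRing R] {i j : Fin (n + 1)} (h : i ≠ j) :
    (TR h (0 : R) : SLR n R) = 1 := SpecialLinearGroup.transvection_coeff_zero h

/-- off-diagonal positions -/
abbrev OPair (n : ℕ) := {p : Fin (n + 1) × Fin (n + 1) // p.1 ≠ p.2}

/-- indices of the parameters -/
abbrev PIdx (n : ℕ) := (Fin n ⊕ Fin n) ⊕ ((Fin n × Fin 6) ⊕ (OPair n ⊕ Fin n))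

lemma cne (k : Fin n) : k.castSucc ≠ k.succ := Fin.castSucc_lt_succ.ne

lemma lne (k : Fin n) : k.castSucc ≠ Fin.last n := Fin.castSucc_ne_last k

section group

variable {R : Type*} [CommRing R]

def upP (c : Fin n → R) : SLR n R :=
  (List.ofFn fun k : Fin n => TR (cne k.rev) (c k.rev)).prod

def lowP (c : Fin n → R) : SLR n R :=
  (List.ofFn fun k : Fin n => TR (cne k).symm (c k)).prod

def six (k : Fin n) (c : Fin 6 → R) : SLR n R :=
  TR (lne k) (c 0) * TR (lne k).symm (c 1) * TR (lne k) (c 2) * TR (lne k) (c 3) *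
    TR (lne k).symm (c 4) * TR (lne k) (c 5)

def diagP (c : Fin n × Fin 6 → R) : SLR n R :=
  (List.ofFn fun k : Fin n => six k (fun m => c (k, m))).prod

noncomputable def offP (c : OPair n → R) : SLR n R :=
  (List.ofFn fun m : Fin (Fintype.card (OPair n)) =>
    TR ((Fintype.equivFin (OPair n)).symm m).2 (c ((Fintype.equivFin (OPair n)).symm m))).prod

def triP (c : Fin n → R) : SLR n R :=
  (List.ofFn fun k : Fin n =>
    TR (lne k).symm (1 : R) * TR (lne k) (c k) * (TR (lne k).symm (1 : R))⁻¹).prod

/-- the parametrisation -/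
noncomputable def par (c : PIdx n → R) : SLR n R :=
  upP (fun k => c (.inl (.inl k))) * lowP (fun k => c (.inl (.inr k))) *
    diagP (fun k => c (.inr (.inl k))) * offP (fun k => c (.inr (.inr (.inl k)))) *
    triP (fun k => c (.inr (.inr (.inr k))))

lemma map_par {S : Type*} [CommRing S] (f : R →+* S) (c : PIdx n → R) :
    SpecialLinearGroup.map f (par c) = par (fun k => f (c k)) := by
  simp only [par, upP, lowP, diagP, six, offP, triP, map_mul, map_inv, map_list_prod,
    List.map_ofFn, Function.comp_def, map_TR, map_one]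

lemma upP_zero : upP (fun _ : Fin n => (0 : R)) = 1 := by simp [upP, TR_zero]

lemma lowP_zero : lowP (fun _ : Fin n => (0 : R)) = 1 := by simp [lowP, TR_zero]

lemma diagP_zero : diagP (fun _ : Fin n × Fin 6 => (0 : R)) = 1 := by simp [diagP, six, TR_zero]

lemma offP_zero : offP (fun _ : OPair n => (0 : R)) = 1 := by simp [offP, TR_zero]

lemma triP_zero : triP (fun _ : Fin n => (0 : R)) = 1 := by simp [triP, TR_zero]

end group

lemma prod_ofFn_single {G : Type*} [Monoid G] {m : ℕ} (f : Fin m → G) (i : Fin m)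
    (h : ∀ j, j ≠ i → f j = 1) : (List.ofFn f).prod = f i := by
  induction m with
  | zero => exact i.elim0
  | succ m ih =>
    rw [List.ofFn_succ, List.prod_cons]
    induction i using Fin.cases with
    | zero =>
      rw [List.prod_eq_one (fun x hx => ?_), mul_one]
      obtain ⟨j, rfl⟩ := List.mem_ofFn.1 hx
      exact h _ (Fin.succ_ne_zero j)
    | succ i =>
      rw [h 0 (Fin.succ_ne_zero i).symm, one_mul,
        ih (fun j => f j.succ) i (fun j hj => h _ (fun e => hj (Fin.succ_injective _ e)))]

lemma prod_one_add {R : Type*} [Ring R] {m : ℕ} (e : Fin m → R)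
    (h : ∀ i j, i < j → e i * e j = 0) :
    (List.ofFn fun i => 1 + e i).prod = 1 + ∑ i, e i := by
  induction m with
  | zero => simp
  | succ m ih =>
    rw [List.ofFn_succ, List.prod_cons, ih _ (fun i j hij => h _ _ (Fin.succ_lt_succ_iff.2 hij)),
      Fin.sum_univ_succ]
    have : e 0 * ∑ i : Fin m, e i.succ = 0 := by
      rw [Finset.mul_sum]
      exact Finset.sum_eq_zero fun i _ => h _ _ (Fin.succ_pos i)
    rw [add_mul, one_mul, mul_add, mul_one, this]
    abel

/-- the standard nilpotent Jordan block -/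
def upN (n : ℕ) : MC (n + 1) := ∑ k : Fin n, Matrix.single k.castSucc k.succ 1

/-- its transpose -/
def lowN (n : ℕ) : MC (n + 1) := ∑ k : Fin n, Matrix.single k.succ k.castSucc 1

lemma coe_list_prod {r : ℕ} (L : List (SLC r)) :
    ((L.prod : SLC r) : MC r) = (L.map fun A : SLC r => (A : MC r)).prod := by
  induction L with
  | nil => exact oneC
  | cons A L ih => rw [List.prod_cons, mulC, ih, List.map_cons, List.prod_cons]

lemma coe_upP_one : ((upP (fun _ : Fin n => (1 : ℂ)) : SLC (n + 1)) : MC (n + 1)) = 1 + upN n := by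
  rw [upP, coe_list_prod, List.map_ofFn]
  simp only [Function.comp_def, coe_TR]
  rw [prod_one_add]
  · rw [upN]
    exact congrArg (fun y => 1 + y) (Equiv.sum_comp Fin.revPerm
      (fun k : Fin n => Matrix.single k.castSucc k.succ (1 : ℂ)))
  · intro i j hij
    refine Matrix.single_mul_single_of_ne (1 : ℂ) _ _ _ (fun e => ?_) _
    have h1 := congrArg Fin.val e
    simp [Fin.val_rev] at h1
    have := Fin.lt_def.1 hij
    omega

lemma coe_lowP_one :
    ((lowP (fun _ : Fin n => (1 : ℂ)) : SLC (n + 1)) : MC (n + 1)) = 1 + lowN n := by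
  rw [lowP, coe_list_prod, List.map_ofFn]
  simp only [Function.comp_def, coe_TR]
  rw [prod_one_add]
  · rfl
  · intro i j hij
    refine Matrix.single_mul_single_of_ne (1 : ℂ) _ _ _ (fun e => ?_) _
    have h1 := congrArg Fin.val e
    simp at h1
    have := Fin.lt_def.1 hij
    omega

lemma sms {a b c d : Fin (n + 1)} (h : b ≠ c) :
    Matrix.single a b (1 : ℂ) * Matrix.single c d (1 : ℂ) = 0 :=
  Matrix.single_mul_single_of_ne (1 : ℂ) a b c h 1

lemma adjoin_upN_lowN :
    Algebra.adjoin ℂ ({1 + upN n, 1 + lowN n} : Set (MC (n + 1))) = ⊤ := by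
  set S := Algebra.adjoin ℂ ({1 + upN n, 1 + lowN n} : Set (MC (n + 1)))
  have hu : upN n ∈ S := by
    have h : 1 + upN n ∈ S := Algebra.subset_adjoin (by simp)
    simpa using sub_mem h (one_mem S)
  have hl : lowN n ∈ S := by
    have h : 1 + lowN n ∈ S := Algebra.subset_adjoin (by simp)
    simpa using sub_mem h (one_mem S)
  have hN : upN n * lowN n = ∑ k : Fin n, Matrix.single k.castSucc k.castSucc (1 : ℂ) := by
    simp only [upN, lowN, Finset.sum_mul, Finset.mul_sum]
    refine Finset.sum_congr rfl fun k _ => ?_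
    rw [Finset.sum_eq_single k]
    · simp
    · intro b _ hb
      exact sms (by simp [hb, hb.symm])
    · simp
  have hlast : Matrix.single (Fin.last n) (Fin.last n) (1 : ℂ) ∈ S := by
    have : Matrix.single (Fin.last n) (Fin.last n) (1 : ℂ) = 1 - upN n * lowN n := by
      rw [hN, eq_sub_iff_add_eq, ← Matrix.diagonal_one, ← Matrix.sum_single_eq_diagonal,
        Fin.sum_univ_castSucc]
      exact add_comm _ _
    rw [this]
    exact sub_mem (one_mem S) (mul_mem hu hl)
  have e1 : ∀ k : Fin n, upN n * Matrix.single k.succ k.succ (1 : ℂ) =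
      Matrix.single k.castSucc k.succ 1 := by
    intro k
    rw [upN, Finset.sum_mul, Finset.sum_eq_single k]
    · simp
    · intro b _ hb
      exact sms (by simp [hb, hb.symm])
    · simp
  have e2 : ∀ k : Fin n, Matrix.single k.castSucc k.succ (1 : ℂ) * lowN n =
      Matrix.single k.castSucc k.castSucc 1 := by
    intro k
    rw [lowN, Finset.mul_sum, Finset.sum_eq_single k]
    · simp
    · intro b _ hb
      exact sms (by simp [hb, hb.symm])
    · simp
  have e3 : ∀ k : Fin n, lowN n * Matrix.single k.castSucc k.castSucc (1 : ℂ) =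
      Matrix.single k.succ k.castSucc 1 := by
    intro k
    rw [lowN, Finset.sum_mul, Finset.sum_eq_single k]
    · simp
    · intro b _ hb
      exact sms (by simp [hb, hb.symm])
    · simp
  have hdiag : ∀ i : Fin (n + 1), Matrix.single i i (1 : ℂ) ∈ S := by
    intro i
    induction i using Fin.reverseInduction with
    | last => exact hlast
    | cast k ih => rw [← e2, ← e1]; exact mul_mem (mul_mem hu ih) hl
  have hup : ∀ k : Fin n, Matrix.single k.castSucc k.succ (1 : ℂ) ∈ S := fun k => by
    rw [← e1]; exact mul_mem hu (hdiag _)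
  have hdn : ∀ k : Fin n, Matrix.single k.succ k.castSucc (1 : ℂ) ∈ S := fun k => by
    rw [← e3]; exact mul_mem hl (hdiag _)
  have hzero : ∀ i j : Fin (n + 1), Matrix.single i j (1 : ℂ) ∈ S →
      Matrix.single i 0 (1 : ℂ) ∈ S := by
    intro i j
    induction j using Fin.induction with
    | zero => exact id
    | succ k ih =>
      intro h
      apply ih
      simpa using mul_mem h (hdn k)
  have hall : ∀ i j : Fin (n + 1), Matrix.single i j (1 : ℂ) ∈ S := by
    intro i j
    induction j using Fin.induction with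
    | zero => exact hzero i i (hdiag i)
    | succ k ih => simpa using mul_mem ih (hup k)
  rw [eq_top_iff]
  intro x _
  rw [Matrix.matrix_eq_sum_single x]
  refine sum_mem fun i _ => sum_mem fun j _ => ?_
  have := S.smul_mem (hall i j) (x i j)
  simpa [Matrix.smul_single] using this

lemma coe_six {x : ℂ} (hx : x ≠ 0) (k : Fin n) :
    ((six k ![x, -x⁻¹, x, -1, 1, -1] : SLC (n + 1)) : MC (n + 1)) =
      Matrix.diagonal (fun a => if a = k.castSucc then x else if a = Fin.last n then x⁻¹ else 1) := by
  have h1 := lne k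
  have h2 := h1.symm
  simp only [six, mulC, coe_TR, Matrix.cons_val]
  ext a b
  simp [Matrix.add_mul, Matrix.mul_add, h1, h2, Matrix.single_apply, Matrix.one_apply,
    Matrix.diagonal_apply]
  rcases eq_or_ne a k.castSucc with rfl | ha
  · rcases eq_or_ne b k.castSucc with rfl | hb
    · simp [h1, h2]
      field_simp
      ring
    · rcases eq_or_ne b (Fin.last n) with rfl | hb'
      · simp [h1, h2]
        field_simp
        ring
      · simp [hb.symm, hb'.symm, h1, h2]
  · rcases eq_or_ne a (Fin.last n) with rfl | ha'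
    · rcases eq_or_ne b k.castSucc with rfl | hb
      · simp [h1, h2]
        field_simp
        ring
      · rcases eq_or_ne b (Fin.last n) with rfl | hb'
        · simp [h1, h2]
          field_simp
          ring
        · simp [hb.symm, hb'.symm, h1, h2]
    · simp [ha, ha', ha.symm, ha'.symm]

/-- parameters giving a diagonal matrix -/
noncomputable def diagParam (x : Fin n → ℂˣ) : PIdx n → ℂ
  | .inr (.inl (k, m)) => ![(x k : ℂ), -((x k : ℂ))⁻¹, (x k : ℂ), -1, 1, -1] m
  | _ => 0

/-- the diagonal torus -/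
noncomputable def torus : (Fin n → ℂˣ) →* SLC (n + 1) where
  toFun x := ⟨Matrix.diagonal (Fin.snoc (fun k => (x k : ℂ)) (∏ k, ((x k)⁻¹ : ℂˣ) : ℂ)), by
    rw [Matrix.det_diagonal, Fin.prod_univ_castSucc]
    simp only [Fin.snoc_castSucc, Fin.snoc_last]
    rw [← Finset.prod_mul_distrib]
    simp⟩
  map_one' := by
    refine Subtype.ext ?_
    rw [oneC, ← Matrix.diagonal_one]
    refine congrArg Matrix.diagonal (funext fun a => ?_)
    induction a using Fin.lastCases <;> simp
  map_mul' x y := by
    refine Subtype.ext ?_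
    change Matrix.diagonal _ = Matrix.diagonal _ * Matrix.diagonal _
    rw [Matrix.diagonal_mul_diagonal]
    refine congrArg Matrix.diagonal (funext fun a => ?_)
    induction a using Fin.lastCases <;> simp [Finset.prod_mul_distrib, mul_comm]

lemma coe_torus (x : Fin n → ℂˣ) : ((torus x : SLC (n + 1)) : MC (n + 1)) =
    Matrix.diagonal (Fin.snoc (fun k => (x k : ℂ)) (∏ k, ((x k)⁻¹ : ℂˣ) : ℂ)) := rfl

lemma par_diagParam (x : Fin n → ℂˣ) : par (diagParam x) = torus x := by
  have h : par (diagParam x) =
      diagP (fun p : Fin n × Fin 6 => ![(x p.1 : ℂ), -((x p.1 : ℂ))⁻¹, (x p.1 : ℂ), -1, 1, -1] p.2)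
      := by
    simp only [par, diagParam, upP_zero, lowP_zero, offP_zero, triP_zero, one_mul, mul_one]
  refine Subtype.ext ?_
  rw [h, diagP, coe_list_prod, List.map_ofFn, coe_torus]
  simp only [Function.comp_def, coe_six (Units.ne_zero _)]
  rw [show (List.ofFn fun k : Fin n => Matrix.diagonal (fun a : Fin (n + 1) =>
      if a = k.castSucc then (x k : ℂ) else if a = Fin.last n then (x k : ℂ)⁻¹ else 1)).prod =
      Matrix.diagonalRingHom (Fin (n + 1)) ℂ (List.ofFn fun k : Fin n => fun a : Fin (n + 1) =>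
      if a = k.castSucc then (x k : ℂ) else if a = Fin.last n then (x k : ℂ)⁻¹ else 1).prod by
    rw [map_list_prod, List.map_ofFn]; rfl]
  rw [List.prod_ofFn]
  change Matrix.diagonal _ = _
  congr 1
  funext a
  rw [Finset.prod_apply]
  induction a using Fin.lastCases with
  | last => simp [Fin.castSucc_ne_last, (Fin.castSucc_ne_last _).symm]
  | cast a =>
    rw [Fin.snoc_castSucc, Fintype.prod_eq_single a]
    · simp
    · intro b hb
      simp [hb.symm, Fin.castSucc_ne_last]

/-- prime numbers as units -/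
noncomputable def primeUnit (k : Fin n) : ℂˣ :=
  Units.mk0 ((Nat.nth Nat.Prime k : ℕ) : ℂ)
    (Nat.cast_ne_zero.2 (Nat.prime_nth_prime k).ne_zero)

/-- a nonresonant vector -/
noncomputable def lamV (n : ℕ) : Fin (n + 1) → ℂ :=
  Fin.snoc (fun k : Fin n => (primeUnit k : ℂ)) (∏ k : Fin n, ((primeUnit k)⁻¹ : ℂˣ) : ℂ)

lemma nonRes_lamV : NonRes (lamV n) := by
  intro m m' h
  set P : ℂ := ∏ k : Fin n, ((Nat.nth Nat.Prime k : ℕ) : ℂ) with hP
  have hP0 : P ≠ 0 :=
    Finset.prod_ne_zero_iff.2 fun k _ => Nat.cast_ne_zero.2 (Nat.prime_nth_prime k).ne_zero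
  have hlast : lamV n (Fin.last n) = P⁻¹ := by
    rw [lamV, Fin.snoc_last, hP, ← Finset.prod_inv_distrib]
    simp [primeUnit]
  have hval : ∀ v : Fin (n + 1) → ℕ, (∏ a, lamV n a ^ v a) =
      (∏ k : Fin n, ((Nat.nth Nat.Prime k : ℕ) : ℂ) ^ v k.castSucc) / P ^ v (Fin.last n) := by
    intro v
    rw [Fin.prod_univ_castSucc, hlast]
    simp [lamV, primeUnit, div_eq_mul_inv, inv_pow]
  rw [hval, hval, div_eq_div_iff (pow_ne_zero _ hP0) (pow_ne_zero _ hP0), hP,
    ← Finset.prod_pow, ← Finset.prod_pow, ← Finset.prod_mul_distrib,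
    ← Finset.prod_mul_distrib] at h
  simp only [← pow_add] at h
  have hN : ∏ k : Fin n, Nat.nth Nat.Prime k ^ (m k.castSucc + m' (Fin.last n)) =
      ∏ k : Fin n, Nat.nth Nat.Prime k ^ (m' k.castSucc + m (Fin.last n)) := by
    exact_mod_cast h
  have key : ∀ k : Fin n,
      m k.castSucc + m' (Fin.last n) = m' k.castSucc + m (Fin.last n) := by
    intro k
    have hf := congrArg (fun N => N.factorization (Nat.nth Nat.Prime k)) hN
    rw [Nat.factorization_prod (fun (l : Fin n) _ => pow_ne_zero _ (Nat.prime_nth_prime (l : ℕ)).ne_zero),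
      Nat.factorization_prod (fun (l : Fin n) _ => pow_ne_zero _ (Nat.prime_nth_prime (l : ℕ)).ne_zero),
      Finsupp.finsetSum_apply, Finsupp.finsetSum_apply] at hf
    simp only [Nat.factorization_pow, Finsupp.smul_apply, smul_eq_mul,
      (Nat.prime_nth_prime _).factorization, Finsupp.single_apply] at hf
    have hinj : ∀ l : Fin n, Nat.nth Nat.Prime l = Nat.nth Nat.Prime k ↔ l = k :=
      fun l => ⟨fun e => Fin.ext (Nat.nth_injective Nat.infinite_setOfPred_prime e), fun e => e ▸ rfl⟩
    simpa [hinj] using hf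
  have key' : ∀ a : Fin (n + 1), m a + m' (Fin.last n) = m' a + m (Fin.last n) := by
    intro a
    induction a using Fin.lastCases with
    | last => exact add_comm _ _
    | cast k => exact key k
  intro i j
  have := key' i
  have := key' j
  omega

lemma range_supset_traceless (Φ : (PIdx n → ℂ) →ₗ[ℂ] MC (n + 1))
    (hoff : ∀ p : OPair n,
      Φ (Pi.single (.inr (.inr (.inl p))) 1) = Matrix.single p.1.1 p.1.2 1)
    (htri : ∀ k : Fin n, Φ (Pi.single (.inr (.inr (.inr k))) 1) =
      Matrix.single k.castSucc (Fin.last n) 1 + Matrix.single (Fin.last n) (Fin.last n) 1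
        - Matrix.single k.castSucc k.castSucc 1 - Matrix.single (Fin.last n) k.castSucc 1)
    {u : MC (n + 1)} (hu : u.trace = 0) : u ∈ LinearMap.range Φ := by
  have ho : ∀ a b : Fin (n + 1), a ≠ b → Matrix.single a b (1 : ℂ) ∈ LinearMap.range Φ :=
    fun a b h => ⟨_, hoff ⟨(a, b), h⟩⟩
  have hd : ∀ k : Fin n, Matrix.single (Fin.last n) (Fin.last n) (1 : ℂ) -
      Matrix.single k.castSucc k.castSucc 1 ∈ LinearMap.range Φ := by
    intro k
    have := (LinearMap.range Φ).add_mem
      ((LinearMap.range Φ).sub_mem ⟨_, htri k⟩ (ho _ _ (lne k))) (ho _ _ (lne k).symm)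
    convert this using 1
    abel
  have hdec : u = (∑ p : OPair n, u p.1.1 p.1.2 • Matrix.single p.1.1 p.1.2 (1 : ℂ)) +
      ∑ k : Fin n, (-u k.castSucc k.castSucc) •
        (Matrix.single (Fin.last n) (Fin.last n) (1 : ℂ) -
          Matrix.single k.castSucc k.castSucc 1) := by
    ext a b
    simp only [Matrix.add_apply, Matrix.sum_apply, Matrix.smul_apply, Matrix.sub_apply,
      Matrix.single_apply, smul_eq_mul]
    rcases eq_or_ne a b with rfl | hab
    · rw [Finset.sum_eq_zero (s := (Finset.univ : Finset (OPair n)))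
        (fun p _ => by
          have : ¬ (p.1.1 = a ∧ p.1.2 = a) := fun h => p.2 (h.1.trans h.2.symm)
          simp [this]), zero_add]
      induction a using Fin.lastCases with
      | last =>
        rw [Matrix.trace, Fin.sum_univ_castSucc] at hu
        simp only [Matrix.diag] at hu
        simp [Fin.castSucc_ne_last, eq_neg_of_add_eq_zero_right hu]
      | cast a =>
        simp [(Fin.castSucc_ne_last a).symm, Fin.castSucc_inj]
    · rw [Fintype.sum_eq_single ⟨(a, b), hab⟩ (fun p hp => by
        have : ¬ (p.1.1 = a ∧ p.1.2 = b) := fun h => hp (Subtype.ext (Prod.ext h.1 h.2))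
        simp [this]), Finset.sum_eq_zero (s := (Finset.univ : Finset (Fin n))) (fun k _ => by
        have h1 : ¬ (Fin.last n = a ∧ Fin.last n = b) := fun h => hab (h.1.symm.trans h.2)
        have h2 : ¬ (k.castSucc = a ∧ k.castSucc = b) := fun h => hab (h.1.symm.trans h.2)
        simp [h1, h2])]
      simp
  rw [hdec]
  exact add_mem (sum_mem fun p _ => Submodule.smul_mem _ _ (ho _ _ p.2))
    (sum_mem fun k _ => Submodule.smul_mem _ _ (hd k))

end Vale.Agent.P002.Surface
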