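import Mathlib
import Vale.Agent.P002.SurfaceParam

/-!
Polynomials vanishing on integral surface group representations, and analytic families of complex
representations, obtained by twist flows, on which all of them vanish.
-/

namespace Vale.Agent.P002.Surface

open Matrix
open scoped DualNumber

variable {g n : ℕ}

/-- coordinates of a tuple -/
abbrev CIdx (g n : ℕ) := Fin g × Bool × Fin (n + 1) × Fin (n + 1)

/-- coordinate vector -/
def cvec {R : Type*} [CommRing R] (p : Tup g (SLR n R)) (k : CIdx g n) : R :=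
  (Bool.rec (p k.1).1 (p k.1).2 k.2.1 : SLR n R) k.2.2.1 k.2.2.2

lemma cvec_tmap {R S : Type*} [CommRing R] [CommRing S] (f : R →+* S) (p : Tup g (SLR n R))
    (k : CIdx g n) : cvec (tmap (SpecialLinearGroup.map f) p) k = f (cvec p k) := by
  obtain ⟨i, b, a, c⟩ := k
  cases b <;> rfl

/-- integral tuples inside complex ones -/
noncomputable def intTup (p : Tup g (SLR n ℤ)) : Tup g (SLC (n + 1)) :=
  tmap (SpecialLinearGroup.map (Int.castRingHom ℂ)) p

/-- vanishing on all integral representations -/
def IntVanish (f : MvPolynomial (CIdx g n) ℂ) : Prop :=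
  ∀ p : Tup g (SLR n ℤ), rel p = 1 → MvPolynomial.eval (cvec (intTup p)) f = 0

/-- coordinate functions on complex tuples -/
def coordFn (k : CIdx g n) : Tup g (SLC (n + 1)) → ℂ := fun p => cvec p k

/-- polynomial functions on complex tuples -/
noncomputable def PolyFun (g n : ℕ) : Subalgebra ℂ (Tup g (SLC (n + 1)) → ℂ) :=
  (MvPolynomial.aeval (coordFn (g := g) (n := n))).range

/-- a coordinate as a polynomial function -/
noncomputable def coordP (k : CIdx g n) : PolyFun g n :=
  ⟨coordFn k, MvPolynomial.X k, by simp⟩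

/-- evaluation of polynomial functions -/
noncomputable def evalP (p : Tup g (SLC (n + 1))) : PolyFun g n →+* ℂ :=
  (Pi.evalRingHom (fun _ => ℂ) p).comp (PolyFun g n).val.toRingHom

lemma evalP_apply (p : Tup g (SLC (n + 1))) (x : PolyFun g n) :
    evalP p x = (x : Tup g (SLC (n + 1)) → ℂ) p := rfl

/-- a matrix of the generic tuple -/
noncomputable def genM (i : Fin g) (b : Bool) : SLR n (PolyFun g n) :=
  ⟨Matrix.of fun a c => coordP (i, b, a, c), by
    refine Subtype.ext (funext fun p => ?_)
    rw [← evalP_apply, RingHom.map_det]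
    cases b
    · exact (p i).1.property
    · exact (p i).2.property⟩

/-- the generic tuple -/
noncomputable def gen (g n : ℕ) : Tup g (SLR n (PolyFun g n)) :=
  fun i => (genM i false, genM i true)

lemma tmap_gen (p : Tup g (SLC (n + 1))) :
    tmap (SpecialLinearGroup.map (evalP p)) (gen g n) = p :=
  funext fun _ => Prod.ext (Subtype.ext (Matrix.ext fun _ _ => rfl))
    (Subtype.ext (Matrix.ext fun _ _ => rfl))

lemma exists_comp (F : ∀ {R : Type} [CommRing R], Tup g (SLR n R) → Tup g (SLR n R))
    (hF : ∀ {R S : Type} [CommRing R] [CommRing S] (f : R →+* S) (p : Tup g (SLR n R)),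
      F (tmap (SpecialLinearGroup.map f) p) = tmap (SpecialLinearGroup.map f) (F p))
    (hrel : ∀ p : Tup g (SLR n ℤ), rel p = 1 → rel (F p) = 1)
    (f : MvPolynomial (CIdx g n) ℂ) :
    ∃ f', (∀ p, MvPolynomial.eval (cvec p) f' = MvPolynomial.eval (cvec (F p)) f) ∧
      (IntVanish f → IntVanish f') := by
  choose e he using fun k => (AlgHom.mem_range _).1 (cvec (F (gen g n)) k).2
  have hcomp : ∀ p, MvPolynomial.eval (cvec p) (MvPolynomial.aeval e f) =
      MvPolynomial.eval (cvec (F p)) f := by
    intro p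
    change MvPolynomial.aeval (cvec p) (MvPolynomial.aeval e f) = _
    rw [← AlgHom.comp_apply, MvPolynomial.comp_aeval]
    change MvPolynomial.eval (fun k => MvPolynomial.eval (cvec p) (e k)) f = _
    congr 2
    funext k
    conv_rhs => rw [← tmap_gen p, hF, cvec_tmap, evalP_apply, ← he k]
    have : ∀ q : MvPolynomial (CIdx g n) ℂ,
        (MvPolynomial.aeval (coordFn (g := g) (n := n)) q : Tup g (SLC (n + 1)) → ℂ) p =
          MvPolynomial.eval (cvec p) q := by
      intro q
      induction q using MvPolynomial.induction_on with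
      | C a => simp
      | add a b ha hb => simp [ha, hb]
      | mul_X a m ha => simp [ha, coordFn]
    rw [this]
  refine ⟨MvPolynomial.aeval e f, hcomp, fun hf p hp => ?_⟩
  rw [hcomp, intTup, hF]
  exact hf _ (hrel p hp)

/-- iterated Dehn twist of the first handle -/
def tw {G : Type*} [Group G] (o : Fin g) (m : ℕ) (p : Tup g G) : Tup g G :=
  Function.update p o ((p o).1, (p o).2 * (p o).1 ^ m)

lemma rel_update_comm {G : Type*} [Group G] (o : Fin g) (p : Tup g G) (e : G)
    (he : Commute (p o).1 e) :
    rel (Function.update p o ((p o).1, (p o).2 * e)) = rel p := by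
  unfold rel
  congr 1
  refine congrArg List.ofFn (funext fun l => ?_)
  rcases eq_or_ne l o with rfl | hl
  · rw [Function.update_self]
    have h := he.inv_left
    simp only [cm, _root_.mul_inv_rev]
    calc (p l).1 * ((p l).2 * e) * (p l).1⁻¹ * (e⁻¹ * (p l).2⁻¹)
        = (p l).1 * (p l).2 * (e * (p l).1⁻¹ * e⁻¹) * (p l).2⁻¹ := by group
      _ = _ := by rw [← h.eq, mul_inv_cancel_right]
  · rw [Function.update_of_ne hl]

lemma rel_tw {G : Type*} [Group G] (o : Fin g) (m : ℕ) (p : Tup g G) : rel (tw o m p) = rel p :=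
  rel_update_comm o p _ ((Commute.refl _).pow_right m)

lemma tw_map {G H : Type*} [Group G] [Group H] (f : G →* H) (o : Fin g) (m : ℕ) (p : Tup g G) :
    tw o m (tmap f p) = tmap f (tw o m p) := by
  funext l
  rcases eq_or_ne l o with rfl | hl
  · simp [tw, tmap]
  · simp [tw, tmap, Function.update_of_ne hl]

lemma exists_comp_acts (L : List (Move g)) (f : MvPolynomial (CIdx g n) ℂ) :
    ∃ f', (∀ p, MvPolynomial.eval (cvec p) f' = MvPolynomial.eval (cvec (acts L p)) f) ∧
      (IntVanish f → IntVanish f') :=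
  exists_comp (fun {R} _ => acts L) (fun f p => acts_map _ L p)
    (fun p hp => (rel_acts L p).trans hp) f

lemma exists_comp_tw (o : Fin g) (m : ℕ) (f : MvPolynomial (CIdx g n) ℂ) :
    ∃ f', (∀ p, MvPolynomial.eval (cvec p) f' = MvPolynomial.eval (cvec (tw o m p)) f) ∧
      (IntVanish f → IntVanish f') :=
  exists_comp (fun {R} _ => tw o m) (fun f p => tw_map _ o m p)
    (fun p hp => (rel_tw o m p).trans hp) f

/-- the family of handlebody representations -/
noncomputable def base0 {R : Type*} [CommRing R] (c : Fin g → PIdx n → R) : Tup g (SLR n R) :=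
  flat fun i => par (c i)

lemma tmap_base0 {R S : Type*} [CommRing R] [CommRing S] (f : R →+* S)
    (c : Fin g → PIdx n → R) :
    tmap (SpecialLinearGroup.map f) (base0 c) = base0 (fun i k => f (c i k)) := by
  funext i
  simp [base0, tmap, flat, map_par]

lemma eval_base0_eq_zero {f : MvPolynomial (CIdx g n) ℂ} (hf : IntVanish f)
    (c : Fin g → PIdx n → ℂ) : MvPolynomial.eval (cvec (base0 c)) f = 0 := by
  set P := MvPolynomial.aeval
    (cvec (base0 (fun i k => (MvPolynomial.X (i, k) : MvPolynomial (Fin g × PIdx n) ℂ)))) f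
    with hP
  have hev : ∀ x : Fin g × PIdx n → ℂ, MvPolynomial.eval x P =
      MvPolynomial.eval (cvec (base0 fun i k => x (i, k))) f := by
    intro x
    rw [hP]
    change MvPolynomial.aeval x (MvPolynomial.aeval _ f) = _
    rw [← AlgHom.comp_apply, MvPolynomial.comp_aeval]
    change MvPolynomial.eval (fun k => MvPolynomial.eval x (cvec _ k)) f = _
    congr 2
    funext k
    rw [← cvec_tmap, tmap_base0]
    simp
  have h0 : P = 0 := by
    refine MvPolynomial.funext_set (fun _ => Set.range fun z : ℤ => (z : ℂ))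
      (fun _ => Set.infinite_range_of_injective Int.cast_injective) (fun x hx => ?_)
    choose z hz using fun k => hx k trivial
    have hx' : (fun i k => x (i, k)) = fun (i : Fin g) (k : PIdx n) =>
        Int.castRingHom ℂ (z (i, k)) := by
      funext i k
      exact (hz (i, k)).symm
    rw [hev, hx', ← tmap_base0, map_zero]
    exact hf (base0 fun i k => z (i, k)) (rel_flat _)
  have := hev (fun p => c p.1 p.2)
  rw [h0, map_zero] at this
  exact this.symm

/-- parameter space: handle parameters and flow times -/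
abbrev PSp (g n N : ℕ) := (Fin g × PIdx n) ⊕ Fin N → ℂ

variable {N : ℕ}

/-- a coordinate function on the parameter space -/
noncomputable def xco (k : (Fin g × PIdx n) ⊕ Fin N) : AnFun (PSp g n N) :=
  ⟨fun θ => θ k, (ContinuousLinearMap.proj (R := ℂ) (φ := fun _ => ℂ) k).analyticOnNhd Set.univ⟩

lemma jetPt_xco (θ v : PSp g n N) (k : (Fin g × PIdx n) ⊕ Fin N) :
    jetPt θ v (xco k) = TrivSqZeroExt.inl (θ k) + TrivSqZeroExt.inr (v k) := by
  refine TrivSqZeroExt.ext ?_ ?_
  · simp [fst_jetPt, evalPt_apply, xco]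
  · rw [snd_jetPt]
    change fderiv ℂ (fun θ : PSp g n N => θ k) θ v = _
    rw [show (fun θ : PSp g n N => θ k) =
      ⇑(ContinuousLinearMap.proj (R := ℂ) (φ := fun _ => ℂ) k) from rfl,
      ContinuousLinearMap.fderiv]
    simp

/-- the point of a family -/
noncomputable def pt {E : Type*} [NormedAddCommGroup E] [NormedSpace ℂ E] (θ : E)
    (S : Tup g (SLR n (AnFun E))) : Tup g (SLC (n + 1)) := tmap (evalG θ) S

/-- the jet of a family -/
noncomputable def jt {E : Type*} [NormedAddCommGroup E] [NormedSpace ℂ E] (θ v : E)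
    (S : Tup g (SLR n (AnFun E))) : Tup g (SLD (n + 1)) := tmap (jetG θ v) S

lemma tmap_fstG_jt {E : Type*} [NormedAddCommGroup E] [NormedSpace ℂ E] (θ v : E)
    (S : Tup g (SLR n (AnFun E))) : tmap fstG (jt θ v S) = pt θ S :=
  funext fun _ => Prod.ext (fstG_jetG θ v _) (fstG_jetG θ v _)

lemma powC (A : SLC (n + 1)) (m : ℕ) :
    ((A ^ m : SLC (n + 1)) : MC (n + 1)) = (A : MC (n + 1)) ^ m := by
  induction m with
  | zero => rw [pow_zero, pow_zero, oneC]
  | succ m ih => rw [pow_succ, pow_succ, mulC, ih]

section expG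

variable {E : Type*} [NormedAddCommGroup E] [NormedSpace ℂ E]

open scoped Matrix.Norms.Operator in
lemma analytic_exp_entry (t : AnFun E) (W : SLR n (AnFun E)) (a b : Fin (n + 1)) :
    AnalyticOnNhd ℂ (fun θ => NormedSpace.exp
      ((t : E → ℂ) θ • tlp ((evalG θ W : SLC (n + 1)) : MC (n + 1))) a b) Set.univ := by
  have hW := analyticOnNhd_evalG W
  let l : MC (n + 1) →ₗ[ℂ] MC (n + 1) :=
    { toFun := tlp
      map_add' := fun X Y => by simp only [tlp, Matrix.trace_add, add_div, add_smul]; abel
      map_smul' := fun c X => by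
        simp only [tlp, Matrix.trace_smul, smul_eq_mul, RingHom.id_apply, smul_sub, smul_smul,
          mul_div_assoc] }
  have htl : AnalyticOnNhd ℂ
      (fun θ => tlp ((evalG θ W : SLC (n + 1)) : MC (n + 1))) Set.univ :=
    ((LinearMap.toContinuousLinearMap l).analyticOnNhd Set.univ).comp hW (Set.mapsTo_univ _ _)
  exact (entry_analytic a b).comp
    (exp_analyticOnNhd.comp (t.2.smul htl) (Set.mapsTo_univ _ _)) (Set.mapsTo_univ _ _)

/-- matrix entries of the exponential flow -/
noncomputable def expM (t : AnFun E) (W : SLR n (AnFun E)) :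
    Matrix (Fin (n + 1)) (Fin (n + 1)) (AnFun E) := fun a b =>
  ⟨fun θ => NormedSpace.exp ((t : E → ℂ) θ • tlp ((evalG θ W : SLC (n + 1)) : MC (n + 1))) a b,
    analytic_exp_entry t W a b⟩

/-- the exponential flow element -/
noncomputable def expG (t : AnFun E) (W : SLR n (AnFun E)) : SLR n (AnFun E) :=
  ⟨expM t W, by
    refine Subtype.ext (funext fun θ => ?_)
    rw [← evalPt_apply, RingHom.map_det]
    exact det_exp_smul (trace_tlp n.succ_pos _) _⟩

lemma coe_evalG_expG (t : AnFun E) (W : SLR n (AnFun E)) (θ : E) :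
    ((evalG θ (expG t W) : SLC (n + 1)) : MC (n + 1)) =
      NormedSpace.exp ((t : E → ℂ) θ • tlp ((evalG θ W : SLC (n + 1)) : MC (n + 1))) := rfl

open scoped Matrix.Norms.Operator in
lemma evalG_expG_zero (t : AnFun E) (W : SLR n (AnFun E)) (θ : E) (h : (t : E → ℂ) θ = 0) :
    evalG θ (expG t W) = 1 := by
  refine Subtype.ext ?_
  rw [coe_evalG_expG, h, zero_smul, NormedSpace.exp_zero, oneC]

open scoped Matrix.Norms.Operator in
lemma commute_expG (t : AnFun E) (W : SLR n (AnFun E)) (θ : E) :
    Commute (evalG θ W) (evalG θ (expG t W)) := by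
  refine Subtype.ext ?_
  rw [mulC, mulC, coe_evalG_expG]
  refine ((Commute.refl ((evalG θ W : SLC (n + 1)) : MC (n + 1))).sub_right ?_
    |>.smul_right _).exp_right
  exact (Commute.one_right _).smul_right _

open scoped Matrix.Norms.Operator in
lemma sndM_jetG_expG (t : AnFun E) (W : SLR n (AnFun E)) (θ v : E) (h : (t : E → ℂ) θ = 0) :
    sndM ((jetG θ v (expG t W) : SLD (n + 1)) : MD (n + 1)) =
      fderiv ℂ (t : E → ℂ) θ v • tlp ((evalG θ W : SLC (n + 1)) : MC (n + 1)) := by
  set G : E → MC (n + 1) := fun θ => tlp ((evalG θ W : SLC (n + 1)) : MC (n + 1)) with hG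
  let l : MC (n + 1) →ₗ[ℂ] MC (n + 1) :=
    { toFun := tlp
      map_add' := fun X Y => by simp only [tlp, Matrix.trace_add, add_div, add_smul]; abel
      map_smul' := fun c X => by
        simp only [tlp, Matrix.trace_smul, smul_eq_mul, RingHom.id_apply, smul_sub, smul_smul,
          mul_div_assoc] }
  have hGd : HasFDerivAt G (fderiv ℂ G θ) θ :=
    ((((LinearMap.toContinuousLinearMap l).analyticOnNhd Set.univ).comp (analyticOnNhd_evalG W)
      (Set.mapsTo_univ _ _)) θ trivial).differentiableAt.hasFDerivAt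
  have ht := (AnFun.differentiableAt t θ).hasFDerivAt
  have h1 : HasFDerivAt (fun θ => (t : E → ℂ) θ • G θ)
      ((fderiv ℂ (t : E → ℂ) θ).smulRight (G θ)) θ := by
    refine (ht.smul hGd).congr_fderiv ?_
    refine ContinuousLinearMap.ext fun x => ?_
    rw [h]
    change (0 : ℂ) • (fderiv ℂ G θ x : MC (n + 1)) + fderiv ℂ (t : E → ℂ) θ x • G θ =
      fderiv ℂ (t : E → ℂ) θ x • G θ
    rw [zero_smul, zero_add]
  have h2 : HasFDerivAt (NormedSpace.exp : MC (n + 1) → MC (n + 1))
      (1 : MC (n + 1) →L[ℂ] MC (n + 1)) ((t : E → ℂ) θ • G θ) := by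
    rw [h, zero_smul]
    exact hasFDerivAt_exp_zero
  ext a b
  rw [sndM_jetG]
  let e : MC (n + 1) →ₗ[ℂ] ℂ :=
    { toFun := fun X => X a b, map_add' := fun _ _ => rfl, map_smul' := fun _ _ => rfl }
  have h3 := ((LinearMap.toContinuousLinearMap e).hasFDerivAt.comp θ (h2.comp θ h1)).fderiv
  change fderiv ℂ ((LinearMap.toContinuousLinearMap e) ∘ (NormedSpace.exp ∘
    fun θ => (t : E → ℂ) θ • G θ)) θ v = _
  rw [h3]
  rfl

/-- twist flow of the first handle -/
noncomputable def flowT (o : Fin g) (t : AnFun E) (S : Tup g (SLR n (AnFun E))) :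
    Tup g (SLR n (AnFun E)) :=
  Function.update S o ((S o).1, (S o).2 * expG t (S o).1)

lemma tmap_update {G H : Type*} [Group G] [Group H] (f : G →* H) (o : Fin g) (S : Tup g G)
    (x : G × G) : tmap f (Function.update S o x) =
      Function.update (tmap f S) o (f x.1, f x.2) := by
  funext l
  rcases eq_or_ne l o with rfl | hl
  · simp [tmap]
  · simp [tmap, Function.update_of_ne hl]

lemma pt_flowT (o : Fin g) (t : AnFun E) (S : Tup g (SLR n (AnFun E))) (θ : E) :
    pt θ (flowT o t S) = Function.update (pt θ S) o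
      ((pt θ S o).1, (pt θ S o).2 * evalG θ (expG t (S o).1)) := by
  rw [pt, flowT, tmap_update, map_mul]
  rfl

lemma jt_flowT (o : Fin g) (t : AnFun E) (S : Tup g (SLR n (AnFun E))) (θ v : E) :
    jt θ v (flowT o t S) = Function.update (jt θ v S) o
      ((jt θ v S o).1, (jt θ v S o).2 * jetG θ v (expG t (S o).1)) := by
  rw [jt, flowT, tmap_update, map_mul]
  rfl

end expG

/-- the handlebody family on the parameter space -/
noncomputable def S0 (g n N : ℕ) : Tup g (SLR n (AnFun (PSp g n N))) :=
  base0 fun i k => xco (.inl (i, k))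

lemma evalPt_aeval {E : Type*} [NormedAddCommGroup E] [NormedSpace ℂ E] (θ : E)
    (X : Tup g (SLR n (AnFun E))) (f : MvPolynomial (CIdx g n) ℂ) :
    evalPt θ (MvPolynomial.aeval (cvec X) f) = MvPolynomial.eval (cvec (pt θ X)) f := by
  induction f using MvPolynomial.induction_on with
  | C a =>
    rw [MvPolynomial.aeval_C, MvPolynomial.eval_C]
    rfl
  | add a b ha hb => rw [map_add, map_add, map_add, ha, hb]
  | mul_X a m ha =>
    rw [map_mul, map_mul, map_mul, ha, MvPolynomial.aeval_X, MvPolynomial.eval_X, ← cvec_tmap]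
    rfl

/-- families obtained by successive twist flows -/
noncomputable def fam (o : Fin g) (φ : Fin N → List (Move g)) :
    ℕ → Tup g (SLR n (AnFun (PSp g n N)))
  | 0 => S0 g n N
  | j + 1 => if h : j < N then
      acts (invs (φ ⟨j, h⟩)) (flowT o (xco (.inr ⟨j, h⟩)) (acts (φ ⟨j, h⟩) (fam o φ j)))
    else fam o φ j

lemma pt_S0 (θ : PSp g n N) : pt θ (S0 g n N) = base0 fun i k => θ (.inl (i, k)) :=
  tmap_base0 _ _

lemma pt_acts {E : Type*} [NormedAddCommGroup E] [NormedSpace ℂ E] (θ : E) (L : List (Move g))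
    (S : Tup g (SLR n (AnFun E))) : pt θ (acts L S) = acts L (pt θ S) :=
  (acts_map _ L S).symm

lemma jt_acts {E : Type*} [NormedAddCommGroup E] [NormedSpace ℂ E] (θ v : E) (L : List (Move g))
    (S : Tup g (SLR n (AnFun E))) : jt θ v (acts L S) = acts L (jt θ v S) :=
  (acts_map _ L S).symm

variable {o : Fin g} {φ : Fin N → List (Move g)}

lemma pt_fam_zero_times (θ : PSp g n N) (hθ : ∀ l, θ (.inr l) = 0) (j : ℕ) :
    pt θ (fam o φ j) = pt θ (S0 g n N) := by
  induction j with
  | zero => rfl
  | succ j ih =>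
    rw [fam]
    split_ifs with h
    · rw [pt_acts, pt_flowT, evalG_expG_zero _ _ _ (hθ _), mul_one, Prod.mk.eta,
        Function.update_eq_self, pt_acts, invs_acts, ih]
    · exact ih

lemma rel_pt_fam (θ : PSp g n N) (j : ℕ) : rel (pt θ (fam o φ j)) = 1 := by
  induction j with
  | zero => rw [fam, pt_S0]; exact rel_flat _
  | succ j ih =>
    rw [fam]
    split_ifs with h
    · rw [pt_acts, rel_acts, pt_flowT, rel_update_comm, pt_acts, rel_acts, ih]
      exact commute_expG _ _ _
    · exact ih

lemma tmap_flat {G H : Type*} [Group G] [Group H] (f : G →* H) (a : Fin g → G) :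
    tmap f (flat a) = flat (fun i => f (a i)) := by
  funext i; simp [tmap, flat]

open scoped Matrix.Norms.Operator in
theorem fam_vanish {f : MvPolynomial (CIdx g n) ℂ} (hf : IntVanish f) (θ : PSp g n N) (j : ℕ) :
    MvPolynomial.eval (cvec (pt θ (fam o φ j))) f = 0 := by
  induction j generalizing f θ with
  | zero => rw [fam, pt_S0]; exact eval_base0_eq_zero hf _
  | succ j ih =>
    rw [fam]
    split_ifs with h
    swap
    · exact ih hf θ
    set L := φ ⟨j, h⟩ with hL
    set S := acts L (fam (n := n) o φ j) with hS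
    set t : AnFun (PSp g n N) := xco (.inr ⟨j, h⟩) with ht
    obtain ⟨f1, hf1, hf1'⟩ := exists_comp_acts (invs L) f
    rw [pt_acts, ← hf1, pt_flowT]
    -- coordinates are affine in the twisting element
    set c : PSp g n N → CIdx g n → ℂ := fun θ k =>
      if k.1 = o ∧ k.2.1 = true then 0 else cvec (pt θ S) k with hc
    set Lm : PSp g n N → CIdx g n → MC (n + 1) := fun θ k =>
      if k.1 = o ∧ k.2.1 = true then
        Matrix.single k.2.2.2 k.2.2.1 1 * ((pt θ S o).2 : MC (n + 1))
      else 0 with hLm
    have key : ∀ (θ : PSp g n N) (C : SLC (n + 1)),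
        cvec (Function.update (pt θ S) o ((pt θ S o).1, (pt θ S o).2 * C)) =
          fun k => c θ k + (Lm θ k * (C : MC (n + 1))).trace := by
      intro θ C
      funext k
      obtain ⟨i, b, a, d⟩ := k
      rcases eq_or_ne i o with rfl | hi
      · cases b
        · simp [hc, hLm, cvec, Function.update_self]
        · simp only [hc, hLm, cvec, Function.update_self, and_self, if_true, zero_add,
            Matrix.mul_assoc, Matrix.trace_single_mul, one_smul]
          rfl
      · simp [hc, hLm, cvec, Function.update_of_ne hi, hi]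
    obtain ⟨x, hx⟩ : ∃ x : Fin g → (Fin n → ℂˣ),
        aacts L x = fun i => if i = o then primeUnit else 1 := by
      refine ⟨aacts (invs L) fun i => if i = o then primeUnit else 1, ?_⟩
      have h := acts_invs L (flat fun i => if i = o then (primeUnit (n := n)) else 1)
      rw [acts_flat, acts_flat] at h
      exact funext fun i => congrArg Prod.fst (congrFun h i)
    set θs : PSp g n N := Sum.elim (fun p => diagParam (x p.1) p.2) 0 with hθs
    have hW : ((evalG θs (S o).1 : SLC (n + 1)) : MC (n + 1)) = Matrix.diagonal (lamV n) := by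
      have h1 : pt θs S = flat (fun i => torus (if i = o then primeUnit (n := n) else 1)) := by
        rw [hS, pt_acts, pt_fam_zero_times θs (fun l => rfl), pt_S0]
        have e : base0 (fun i k => θs (.inl (i, k))) = tmap torus (flat x) := by
          rw [tmap_flat]
          exact congrArg flat (funext fun i => par_diagParam (x i))
        rw [e, acts_map, acts_flat, hx, tmap_flat]
      have h2 := congrArg Prod.fst (congrFun h1 o)
      change evalG θs (S o).1 = _ at h2
      rw [h2]
      simp [flat, coe_torus, lamV]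
    have main := flow_vanish n.succ_pos f1 c Lm
      (fun θ => ((evalG θ (S o).1 : SLC (n + 1)) : MC (n + 1)))
      (fun θ => ((evalG θ (expG t (S o).1) : SLC (n + 1)) : MC (n + 1)))
      (t : PSp g n N → ℂ) θs (lamV n) nonRes_lamV
      ((analyticOnNhd_evalG (S o).1).continuousOn.continuousAt Filter.univ_mem) hW
      (fun θ => coe_evalG_expG _ _ _) ?_ ?_ θ
    · rw [key]
      exact main
    · simp only [← key, ← pt_flowT]
      have e : (fun θ => MvPolynomial.eval (cvec (pt θ (flowT o t S))) f1) =
          ((MvPolynomial.aeval (cvec (flowT o t S)) f1 : AnFun (PSp g n N)) :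
            PSp g n N → ℂ) := by
        funext θ
        rw [← evalPt_apply]
        change _ = (evalPt θ) ((MvPolynomial.aeval (cvec (flowT o t S))) f1)
        exact (evalPt_aeval _ _ _).symm
      rw [e]
      exact (MvPolynomial.aeval (cvec (flowT o t S)) f1).2
    · intro θ m
      have e : ((evalG θ (S o).1 : SLC (n + 1)) : MC (n + 1)) ^ m =
          (((evalG θ (S o).1) ^ m : SLC (n + 1)) : MC (n + 1)) :=
        (powC _ _).symm
      rw [e, ← key]
      obtain ⟨f2, hf2, hf2'⟩ := exists_comp_tw o m f1
      obtain ⟨f3, hf3, hf3'⟩ := exists_comp_acts L f2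
      have := ih (hf3' (hf2' (hf1' hf))) θ
      rw [hf3, hf2, ← pt_acts] at this
      exact this

end Vale.Agent.P002.Surface
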