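import Mathlib
import Vale.Agent.P002.SurfaceFamily

/-!
Parameter words of transvections reaching any given finite list of matrices in `SL_r(ℂ)`, and
coordinates of tuples of matrices indexed by a finite type.
-/

namespace Vale.Agent.P002.Curve

open Matrix
open Vale.Agent.P002.Surface

variable {n : ℕ}

/-- the product of transvections along a word -/
def parW {R : Type*} [CommRing R] {m : ℕ} (W : Fin m → OPair n) (c : Fin m → R) : SLR n R :=
  (List.ofFn fun l => TR (W l).2 (c l)).prod

lemma map_parW {R S : Type*} [CommRing R] [CommRing S] (φ : R →+* S) {m : ℕ}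
    (W : Fin m → OPair n) (c : Fin m → R) :
    SpecialLinearGroup.map φ (parW W c) = parW W (fun l => φ (c l)) := by
  simp only [parW, map_list_prod, List.map_ofFn, Function.comp_def, map_TR]

lemma parW_zero {R : Type*} [CommRing R] {m : ℕ} (W : Fin m → OPair n) :
    parW W (fun _ => (0 : R)) = (1 : SLR n R) := by
  simp [parW, TR_zero]

lemma parW_append {R : Type*} [CommRing R] {m m' : ℕ} (W : Fin m → OPair n)
    (W' : Fin m' → OPair n) (c : Fin m → R) (c' : Fin m' → R) :
    parW (Fin.append W W') (Fin.append c c') = parW W c * parW W' c' := by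
  simp only [parW]
  rw [← List.prod_append, ← List.ofFn_fin_append]
  refine congrArg List.prod (congrArg List.ofFn (funext fun l => ?_))
  induction l using Fin.addCases with
  | left i => simp only [Fin.append_left]
  | right i => simp only [Fin.append_right]

/-- reachable by some word -/
def Reach (x : SLC (n + 1)) : Prop :=
  ∃ (m : ℕ) (W : Fin m → OPair n) (c : Fin m → ℂ), parW W c = x

lemma Reach.mul {x y : SLC (n + 1)} (hx : Reach x) (hy : Reach y) : Reach (x * y) := by
  obtain ⟨m, W, c, rfl⟩ := hx
  obtain ⟨m', W', c', rfl⟩ := hy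
  exact ⟨m + m', Fin.append W W', Fin.append c c', parW_append W W' c c'⟩

lemma reach_one : Reach (1 : SLC (n + 1)) :=
  ⟨0, Fin.elim0, Fin.elim0, by simp [parW]⟩

lemma reach_TR {i j : Fin (n + 1)} (h : i ≠ j) (c : ℂ) : Reach (TR h c : SLC (n + 1)) :=
  ⟨1, fun _ => ⟨(i, j), h⟩, fun _ => c, by simp [parW]⟩

lemma reach_list {L : List (SLC (n + 1))} (h : ∀ x ∈ L, Reach x) : Reach L.prod := by
  induction L with
  | nil => exact reach_one
  | cons x L ih =>
    rw [List.prod_cons]
    exact (h x (by simp)).mul (ih fun y hy => h y (by simp [hy]))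

lemma reach_par_diag (x : Fin n → ℂˣ) : Reach (par (diagParam x) : SLC (n + 1)) := by
  have h : par (diagParam x) =
      diagP (fun p : Fin n × Fin 6 => ![(x p.1 : ℂ), -((x p.1 : ℂ))⁻¹, (x p.1 : ℂ), -1, 1, -1] p.2)
      := by
    simp only [par, diagParam, upP_zero, lowP_zero, offP_zero, triP_zero, one_mul, mul_one]
  rw [h, diagP]
  refine reach_list fun y hy => ?_
  obtain ⟨k, rfl⟩ := List.mem_ofFn.1 hy
  exact ((((reach_TR _ _).mul (reach_TR _ _)).mul (reach_TR _ _)).mul (reach_TR _ _)).mul
    (reach_TR _ _) |>.mul (reach_TR _ _)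

theorem reach_all (x : SLC (n + 1)) : Reach x := by
  classical
  obtain ⟨L, L', D, hD⟩ :=
    Matrix.Pivot.exists_list_transvec_mul_diagonal_mul_list_transvec (x : MC (n + 1))
  let toS : TransvectionStruct (Fin (n + 1)) ℂ → SLC (n + 1) := fun t => TR t.hij t.c
  have hcoe : ∀ M : List (TransvectionStruct (Fin (n + 1)) ℂ),
      (((M.map toS).prod : SLC (n + 1)) : MC (n + 1)) =
        (M.map TransvectionStruct.toMatrix).prod := by
    intro M
    induction M with
    | nil => simp [oneC]
    | cons t M ih => rw [List.map_cons, List.prod_cons, mulC, ih, List.map_cons, List.prod_cons]; rfl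
  have hdet : ∏ a, D a = 1 := by
    have := x.property
    rw [hD, det_mul, det_mul, TransvectionStruct.det_toMatrix_prod,
      TransvectionStruct.det_toMatrix_prod, det_diagonal, one_mul, mul_one] at this
    exact this
  have hne : ∀ a, D a ≠ 0 := fun a => by
    intro h
    rw [Finset.prod_eq_zero (Finset.mem_univ a) h] at hdet
    exact zero_ne_one hdet
  set u : Fin n → ℂˣ := fun k => Units.mk0 (D k.castSucc) (hne _)
  have htor : ((torus u : SLC (n + 1)) : MC (n + 1)) = Matrix.diagonal D := by
    rw [coe_torus]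
    congr 1
    funext a
    induction a using Fin.lastCases with
    | last =>
      rw [Fin.prod_univ_castSucc] at hdet
      simp only [Fin.snoc_last, u, Units.val_inv_eq_inv_val, Units.val_mk0]
      rw [Finset.prod_inv_distrib]
      exact (eq_inv_of_mul_eq_one_right hdet).symm
    | cast a => simp [u]
  have hx : x = (L.map toS).prod * torus u * (L'.map toS).prod := by
    refine Subtype.ext ?_
    rw [mulC, mulC, hcoe, hcoe, htor, ← hD]
  rw [hx]
  have hl : ∀ M : List (TransvectionStruct (Fin (n + 1)) ℂ), Reach (M.map toS).prod := fun M =>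
    reach_list fun y hy => by
      obtain ⟨t, _, rfl⟩ := List.mem_map.1 hy
      exact reach_TR _ _
  exact ((hl L).mul (par_diagParam u ▸ reach_par_diag u)).mul (hl L')

theorem exists_word {ι : Type*} [Finite ι] (x : ι → SLC (n + 1)) :
    ∃ (m : ℕ) (W : Fin m → OPair n), ∀ i, ∃ c : Fin m → ℂ, parW W c = x i := by
  classical
  haveI := Fintype.ofFinite ι
  suffices H : ∀ T : Finset ι, ∃ (m : ℕ) (W : Fin m → OPair n),
      ∀ i ∈ T, ∃ c : Fin m → ℂ, parW W c = x i by
    obtain ⟨m, W, h⟩ := H Finset.univ
    exact ⟨m, W, fun i => h i (Finset.mem_univ i)⟩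
  intro T
  induction T using Finset.induction_on with
  | empty => exact ⟨0, Fin.elim0, fun i hi => absurd hi (Finset.notMem_empty i)⟩
  | insert a T _ ih =>
    obtain ⟨m, W, hW⟩ := ih
    obtain ⟨m', W', c', hc'⟩ := reach_all (x a)
    refine ⟨m + m', Fin.append W W', fun i hi => ?_⟩
    rcases Finset.mem_insert.1 hi with rfl | hi
    · exact ⟨Fin.append (fun _ => 0) c', by rw [parW_append, parW_zero, one_mul, hc']⟩
    · obtain ⟨c, hc⟩ := hW i hi
      exact ⟨Fin.append c (fun _ => 0), by rw [parW_append, parW_zero, mul_one, hc]⟩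

/-- coordinates of matrices indexed by a type -/
def ent {R : Type*} [CommRing R] {κ : Type*} (p : κ → SLR n R)
    (k : κ × Fin (n + 1) × Fin (n + 1)) : R :=
  p k.1 k.2.1 k.2.2

lemma ent_map {R S : Type*} [CommRing R] [CommRing S] {κ : Type*} (φ : R →+* S)
    (p : κ → SLR n R) (k : κ × Fin (n + 1) × Fin (n + 1)) :
    ent (fun l => SpecialLinearGroup.map φ (p l)) k = φ (ent p k) := rfl

/-- coordinate functions -/
def coFn {κ : Type*} (k : κ × Fin (n + 1) × Fin (n + 1)) : (κ → SLC (n + 1)) → ℂ :=
  fun p => ent p k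

/-- polynomial functions on tuples -/
noncomputable def PFun (κ : Type*) (n : ℕ) : Subalgebra ℂ ((κ → SLC (n + 1)) → ℂ) :=
  (MvPolynomial.aeval (coFn (κ := κ) (n := n))).range

/-- evaluation of polynomial functions -/
noncomputable def evalF {κ : Type*} (p : κ → SLC (n + 1)) : PFun κ n →+* ℂ :=
  (Pi.evalRingHom (fun _ => ℂ) p).comp (PFun κ n).val.toRingHom

/-- the generic tuple -/
noncomputable def genF (κ : Type*) (n : ℕ) (l : κ) : SLR n (PFun κ n) :=
  ⟨Matrix.of fun a b => ⟨coFn (l, a, b), MvPolynomial.X (l, a, b), by simp⟩, by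
    refine Subtype.ext (funext fun p => ?_)
    change evalF p _ = evalF p 1
    rw [RingHom.map_det, map_one]
    exact (p l).property⟩

lemma map_genF {κ : Type*} (p : κ → SLC (n + 1)) (l : κ) :
    SpecialLinearGroup.map (evalF p) (genF κ n l) = p l :=
  Subtype.ext (Matrix.ext fun _ _ => rfl)

/-- Natural operations on tuples are given by polynomials. -/
theorem exists_poly_natural {κ ρ : Type} {R₀ : Type} [CommRing R₀] (φ₀ : R₀ →+* ℂ)
    (F : ∀ {S : Type} [CommRing S], (R₀ →+* S) → (κ → SLR n S) → (ρ → SLR n S))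
    (hF : ∀ {S T : Type} [CommRing S] [CommRing T] (g : S →+* T) (φ : R₀ →+* S)
      (p : κ → SLR n S), F (g.comp φ) (fun l => SpecialLinearGroup.map g (p l)) =
        fun l => SpecialLinearGroup.map g (F φ p l))
    (f : MvPolynomial (ρ × Fin (n + 1) × Fin (n + 1)) ℂ) :
    ∃ f' : MvPolynomial (κ × Fin (n + 1) × Fin (n + 1)) ℂ,
      ∀ p : κ → SLC (n + 1), MvPolynomial.eval (ent p) f' =
        MvPolynomial.eval (ent (F φ₀ p)) f := by
  set lift : R₀ →+* PFun κ n := (algebraMap ℂ (PFun κ n)).comp φ₀
  choose e he using fun k => (AlgHom.mem_range _).1 (ent (F lift (genF κ n)) k).2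
  refine ⟨MvPolynomial.aeval e f, fun p => ?_⟩
  have h1 : (evalF p).comp lift = φ₀ := RingHom.ext fun x => rfl
  have h2 : ∀ k, MvPolynomial.eval (ent p) (e k) = ent (F φ₀ p) k := by
    intro k
    have h3 := hF (evalF p) lift (genF κ n)
    rw [h1, show (fun l => SpecialLinearGroup.map (evalF p) (genF κ n l)) = p from
      funext (map_genF p)] at h3
    rw [h3, ent_map]
    change _ = ((ent (F lift (genF κ n)) k : PFun κ n) : (κ → SLC (n + 1)) → ℂ) p
    rw [← he k]
    induction e k using MvPolynomial.induction_on with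
    | C a => simp
    | add a b ha hb => simp [ha, hb]
    | mul_X a m ha => simp [ha, coFn]
  change MvPolynomial.aeval (ent p) (MvPolynomial.aeval e f) = _
  rw [← AlgHom.comp_apply, MvPolynomial.comp_aeval]
  change MvPolynomial.eval (fun k => MvPolynomial.eval (ent p) (e k)) f = _
  simp only [h2]

end Vale.Agent.P002.Curve
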