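import Mathlib
import Vale.Agent.P002.CurveOps
import Vale.Agent.P002.CurveWord

/-!
Analytic families of complex representations of punctured surface groups obtained by twist flows
from integral data, on which every polynomial vanishing at the integral representations vanishes.
-/

namespace Vale.Agent.P002.Curve

open Matrix
open Vale.Agent.P002.Surface
open scoped DualNumber

variable {f h s n : ℕ}

/-- positions in the data -/
abbrev DK (f h s : ℕ) := (Fin (f + 1) × Bool) ⊕ (Fin h × Bool) ⊕ Fin s

/-- the entry at a position -/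
def acc {G : Type*} (d : Dat f h s G) : DK f h s → G
  | .inl (i, b) => Bool.rec (d.fr i).1 (d.fr i).2 b
  | .inr (.inl (i, b)) => Bool.rec (d.rs i).1 (d.rs i).2 b
  | .inr (.inr k) => d.P k

/-- data from entries -/
def ofFun {G : Type*} (p : DK f h s → G) : Dat f h s G where
  fr i := (p (.inl (i, false)), p (.inl (i, true)))
  rs i := (p (.inr (.inl (i, false))), p (.inr (.inl (i, true))))
  P k := p (.inr (.inr k))

lemma acc_ofFun {G : Type*} (p : DK f h s → G) : acc (ofFun p) = p := by
  funext k
  rcases k with ⟨i, b⟩ | ⟨i, b⟩ | k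
  · cases b <;> rfl
  · cases b <;> rfl
  · rfl

lemma ofFun_acc {G : Type*} (d : Dat f h s G) : ofFun (acc d) = d := rfl

lemma acc_dmap {G H : Type*} [Group G] [Group H] (φ : G →* H) (d : Dat f h s G) :
    acc (dmap φ d) = fun k => φ (acc d k) := by
  funext k
  rcases k with ⟨i, b⟩ | ⟨i, b⟩ | k
  · cases b <;> rfl
  · cases b <;> rfl
  · rfl

lemma dmap_ofFun {G H : Type*} [Group G] [Group H] (φ : G →* H) (p : DK f h s → G) :
    dmap φ (ofFun p) = ofFun (fun k => φ (p k)) := rfl

/-- coordinate indices -/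
abbrev DI (f h s n : ℕ) := DK f h s × Fin (n + 1) × Fin (n + 1)

/-- coordinates of data -/
def dv {R : Type*} [CommRing R] (d : Dat f h s (SLR n R)) : DI f h s n → R := ent (acc d)

lemma dv_map {R S : Type*} [CommRing R] [CommRing S] (φ : R →+* S) (d : Dat f h s (SLR n R))
    (k : DI f h s n) : dv (dmap (SpecialLinearGroup.map φ) d) k = φ (dv d k) := by
  rw [dv, acc_dmap]
  rfl

/-- one step: moves on the free handles, a twist, and the moves undone -/
def step {G : Type*} [Group G] (J : Fin s → G) (p : List (Move (f + 1)) × Tgt h s) (e : G)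
    (d : Dat f h s G) : Dat f h s G :=
  dacts (invs p.1) (p.2.twist J e (dacts p.1 d))

/-- the curve of a step -/
def crv {G : Type*} [Group G] (J : Fin s → G) (p : List (Move (f + 1)) × Tgt h s)
    (d : Dat f h s G) : G :=
  p.2.curve J (dacts p.1 d)

lemma drel_step {G : Type*} [Group G] (J : Fin s → G) (p : List (Move (f + 1)) × Tgt h s) (e : G)
    (d : Dat f h s G) (he : Commute (crv J p d) e) : drel J (step J p e d) = drel J d := by
  rw [step, drel_dacts, drel_twist _ _ _ _ he, drel_dacts]

lemma step_map {G H : Type*} [Group G] [Group H] (φ : G →* H) (J : Fin s → G)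
    (p : List (Move (f + 1)) × Tgt h s) (e : G) (d : Dat f h s G) :
    step (fun l => φ (J l)) p (φ e) (dmap φ d) = dmap φ (step J p e d) := by
  rw [step, step, dacts_map, Tgt.twist_map, dacts_map]

lemma crv_map {G H : Type*} [Group G] [Group H] (φ : G →* H) (J : Fin s → G)
    (p : List (Move (f + 1)) × Tgt h s) (d : Dat f h s G) :
    crv (fun l => φ (J l)) p (dmap φ d) = φ (crv J p d) := by
  rw [crv, crv, dacts_map, Tgt.curve_map]

lemma step_one {G : Type*} [Group G] (J : Fin s → G) (p : List (Move (f + 1)) × Tgt h s)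
    (d : Dat f h s G) : step J p 1 d = d := by
  have key : ∀ d : Dat f h s G, p.2.twist J 1 d = d := by
    intro d
    have hO : p.2.newO J 1 d = d.fr (Fin.last f) := by simp [Tgt.newO]
    refine Dat.ext ?_ ?_ ?_
    · cases h : p.2 <;> simp only [h] at hO <;> simp [Tgt.twist, hO]
    · cases p.2 <;> simp [Tgt.twist]
    · cases p.2 <;> simp [Tgt.twist]
  rw [step, key]
  exact Dat.ext (invs_acts p.1 d.fr) rfl rfl

lemma Tgt.Z_congr {G : Type*} [Group G] (J : Fin s → G) (t : Tgt h s) {d d' : Dat f h s G}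
    (h1 : d.rs = d'.rs) (h2 : d.P = d'.P) : t.Z J d = t.Z J d' := by
  obtain ⟨a, b, c⟩ := d
  obtain ⟨a', b', c'⟩ := d'
  cases h1
  cases h2
  cases t <;> rfl

variable (R : Subring ℂ)

/-- matrices over the subring inside complex ones -/
noncomputable def toC : SLR n R →* SLC (n + 1) := SpecialLinearGroup.map R.subtype

/-- boundary classes over the complex numbers -/
noncomputable def JC (J : Fin s → SLR n R) : Fin s → SLC (n + 1) := fun l => toC R (J l)

/-- vanishing at all representations over the subring -/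
def RVanish (J : Fin s → SLR n R) (P : MvPolynomial (DI f h s n) ℂ) : Prop :=
  ∀ d : Dat f h s (SLR n R), drel J d = 1 →
    MvPolynomial.eval (dv (dmap (toC R) d)) P = 0

/-- positions in data and one further matrix -/
abbrev DK1 (f h s : ℕ) := DK f h s ⊕ Unit

lemma exists_step_poly (J : Fin s → SLR n R) (p : List (Move (f + 1)) × Tgt h s)
    (P : MvPolynomial (DI f h s n) ℂ) :
    ∃ Q : MvPolynomial (DK1 f h s × Fin (n + 1) × Fin (n + 1)) ℂ,
      ∀ (d : Dat f h s (SLC (n + 1))) (e : SLC (n + 1)),
        MvPolynomial.eval (ent (Sum.elim (acc d) fun _ => e)) Q =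
          MvPolynomial.eval (dv (step (JC R J) p e d)) P := by
  obtain ⟨Q, hQ⟩ := exists_poly_natural (κ := DK1 f h s) (n := n) R.subtype
    (fun {S} _ φ q => acc (step (fun l => SpecialLinearGroup.map φ (J l)) p (q (.inr ()))
      (ofFun fun k => q (.inl k))))
    (by
      intro S T _ _ g φ q
      rw [← acc_dmap, ← step_map, dmap_ofFun]
      rfl) P
  refine ⟨Q, fun d e => ?_⟩
  rw [hQ]
  simp only [Sum.elim_inl, Sum.elim_inr, ofFun_acc]
  rfl

lemma exists_pow_poly (J : Fin s → SLR n R) (p : List (Move (f + 1)) × Tgt h s) (m : ℕ)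
    (P : MvPolynomial (DI f h s n) ℂ) :
    ∃ P' : MvPolynomial (DI f h s n) ℂ,
      (∀ d : Dat f h s (SLC (n + 1)), MvPolynomial.eval (dv d) P' =
        MvPolynomial.eval (dv (step (JC R J) p (crv (JC R J) p d ^ m) d)) P) ∧
      (RVanish R J P → RVanish R J P') := by
  obtain ⟨P', hP'⟩ := exists_poly_natural (κ := DK f h s) (n := n) R.subtype
    (fun {S} _ φ q => acc (step (fun l => SpecialLinearGroup.map φ (J l)) p
      (crv (fun l => SpecialLinearGroup.map φ (J l)) p (ofFun q) ^ m) (ofFun q)))
    (by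
      intro S T _ _ g φ q
      rw [← acc_dmap, ← step_map, map_pow, ← crv_map, dmap_ofFun]
      rfl) P
  have e1 : ∀ d : Dat f h s (SLC (n + 1)), MvPolynomial.eval (dv d) P' =
      MvPolynomial.eval (dv (step (JC R J) p (crv (JC R J) p d ^ m) d)) P := by
    intro d
    rw [dv, hP', ofFun_acc]
    rfl
  refine ⟨P', e1, fun hP d hd => ?_⟩
  rw [e1, show JC R J = fun l => toC R (J l) from rfl]
  rw [crv_map (toC R) J p d, ← map_pow, step_map]
  exact hP _ ((drel_step J p _ d ((Commute.refl _).pow_right m)).trans hd)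

/-- parameters: transvection parameters of the free handles and flow times -/
abbrev PS (f n M N : ℕ) := (Fin (f + 1) × (PIdx n ⊕ Fin M)) ⊕ Fin N → ℂ

variable {M N : ℕ}

/-- a coordinate function -/
noncomputable def pco (k : (Fin (f + 1) × (PIdx n ⊕ Fin M)) ⊕ Fin N) : AnFun (PS f n M N) :=
  ⟨fun θ => θ k, (ContinuousLinearMap.proj (R := ℂ) (φ := fun _ => ℂ) k).analyticOnNhd Set.univ⟩

lemma jetPt_pco (θ v : PS f n M N) (k : (Fin (f + 1) × (PIdx n ⊕ Fin M)) ⊕ Fin N) :
    jetPt θ v (pco k) = TrivSqZeroExt.inl (θ k) + TrivSqZeroExt.inr (v k) := by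
  refine TrivSqZeroExt.ext ?_ ?_
  · simp [fst_jetPt, evalPt_apply, pco]
  · rw [snd_jetPt]
    change fderiv ℂ (fun θ : PS f n M N => θ k) θ v = _
    rw [show (fun θ : PS f n M N => θ k) =
      ⇑(ContinuousLinearMap.proj (R := ℂ) (φ := fun _ => ℂ) k) from rfl,
      ContinuousLinearMap.fderiv]
    simp

/-- free handles given by parameters -/
noncomputable def freeA {S : Type*} [CommRing S] (W : Fin M → OPair n)
    (c : Fin (f + 1) → PIdx n ⊕ Fin M → S) : Fin (f + 1) → SLR n S :=
  fun i => par (fun k => c i (.inl k)) * parW W (fun l => c i (.inr l))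

lemma map_freeA {S T : Type*} [CommRing S] [CommRing T] (φ : S →+* T) (W : Fin M → OPair n)
    (c : Fin (f + 1) → PIdx n ⊕ Fin M → S) :
    (fun i => SpecialLinearGroup.map φ (freeA W c i)) = freeA W fun i k => φ (c i k) := by
  funext i
  rw [freeA, map_mul, map_par, map_parW]
  rfl

/-- base data -/
noncomputable def base {S : Type*} [CommRing S] (φ : R →+* S) (W : Fin M → OPair n)
    (B : Tup h (SLR n R)) (c : Fin (f + 1) → PIdx n ⊕ Fin M → S) : Dat f h s (SLR n S) where
  fr := flat (freeA W c)
  rs := tmap (SpecialLinearGroup.map φ) B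
  P _ := 1

lemma dmap_base {S T : Type*} [CommRing S] [CommRing T] (g : S →+* T) (φ : R →+* S)
    (W : Fin M → OPair n) (B : Tup h (SLR n R)) (c : Fin (f + 1) → PIdx n ⊕ Fin M → S) :
    dmap (SpecialLinearGroup.map g) (base R φ W B c : Dat f h s (SLR n S)) =
      base R (g.comp φ) W B (fun i k => g (c i k)) := by
  refine Dat.ext ?_ ?_ ?_
  · change tmap _ (flat _) = flat _
    rw [tmap_flat, map_freeA]
  · rfl
  · funext k
    exact map_one _

variable {J : Fin s → SLR n R} {B : Tup h (SLR n R)} {W : Fin M → OPair n}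

lemma drel_base (hB : rel B * (List.ofFn J).prod = 1)
    (c : Fin (f + 1) → PIdx n ⊕ Fin M → R) :
    drel J (base R (RingHom.id R) W B c) = 1 := by
  have e : gma J (base R (RingHom.id R) W B c : Dat f h s (SLR n R)) = J := by
    funext k
    simp [gma, base]
  rw [drel, e]
  simp only [base, rel_flat, one_mul]
  rw [show tmap (SpecialLinearGroup.map (RingHom.id R)) B = B from
    funext fun i => Prod.ext (Subtype.ext (Matrix.ext fun _ _ => rfl))
      (Subtype.ext (Matrix.ext fun _ _ => rfl))]
  exact hB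

lemma eval_base_eq_zero (hinf : (R : Set ℂ).Infinite) (hB : rel B * (List.ofFn J).prod = 1)
    {P : MvPolynomial (DI f h s n) ℂ} (hP : RVanish R J P)
    (c : Fin (f + 1) → PIdx n ⊕ Fin M → ℂ) :
    MvPolynomial.eval (dv (base R R.subtype W B c : Dat f h s (SLC (n + 1)))) P = 0 := by
  set Po := MvPolynomial (Fin (f + 1) × (PIdx n ⊕ Fin M)) ℂ
  set T : Dat f h s (SLR n Po) :=
    base R ((MvPolynomial.C).comp R.subtype) W B fun i k => MvPolynomial.X (i, k) with hT
  set Q := MvPolynomial.aeval (dv T) P with hQ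
  have hev : ∀ x : Fin (f + 1) × (PIdx n ⊕ Fin M) → ℂ, MvPolynomial.eval x Q =
      MvPolynomial.eval (dv (base R R.subtype W B fun i k => x (i, k) :
        Dat f h s (SLC (n + 1)))) P := by
    intro x
    rw [hQ]
    change MvPolynomial.aeval x (MvPolynomial.aeval _ P) = _
    rw [← AlgHom.comp_apply, MvPolynomial.comp_aeval]
    change MvPolynomial.eval (fun k => MvPolynomial.eval x (dv T k)) P = _
    congr 2
    funext k
    rw [← dv_map, hT, dmap_base]
    simp only [MvPolynomial.eval_X]
    rw [show (MvPolynomial.eval x).comp ((MvPolynomial.C).comp R.subtype) = R.subtype from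
      RingHom.ext fun y => by simp]
  have h0 : Q = 0 := by
    refine MvPolynomial.funext_set (fun _ => (R : Set ℂ)) (fun _ => hinf) (fun x hx => ?_)
    rw [hev, map_zero]
    have hx' : ∀ i k, x (i, k) ∈ R := fun i k => hx (i, k) trivial
    have := hP (base R (RingHom.id R) W B fun i k => ⟨x (i, k), hx' i k⟩) (drel_base R hB _)
    rw [toC, dmap_base] at this
    exact this
  have := hev (fun p => c p.1 p.2)
  rw [h0, map_zero] at this
  exact this.symm

/-- boundary classes as constant functions -/
noncomputable def JA (J : Fin s → SLR n R) : Fin s → SLR n (AnFun (PS f n M N)) :=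
  fun l => SpecialLinearGroup.map ((algebraMap ℂ (AnFun (PS f n M N))).comp R.subtype) (J l)

/-- the base family -/
noncomputable def fam0 (W : Fin M → OPair n) (B : Tup h (SLR n R)) :
    Dat f h s (SLR n (AnFun (PS f n M N))) :=
  base R ((algebraMap ℂ (AnFun (PS f n M N))).comp R.subtype) W B fun i k => pco (.inl (i, k))

/-- families obtained by successive twist flows -/
noncomputable def dfam (J : Fin s → SLR n R) (W : Fin M → OPair n) (B : Tup h (SLR n R))
    (φ : Fin N → List (Move (f + 1)) × Tgt h s) :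
    ℕ → Dat f h s (SLR n (AnFun (PS f n M N)))
  | 0 => fam0 R W B
  | j + 1 => if h : j < N then
      step (JA R J) (φ ⟨j, h⟩)
        (expG (pco (.inr ⟨j, h⟩)) (crv (JA R J) (φ ⟨j, h⟩) (dfam J W B φ j))) (dfam J W B φ j)
    else dfam J W B φ j

/-- the point of a family -/
noncomputable def dpt (θ : PS f n M N) (S : Dat f h s (SLR n (AnFun (PS f n M N)))) :
    Dat f h s (SLC (n + 1)) :=
  dmap (evalG θ) S

variable {φ : Fin N → List (Move (f + 1)) × Tgt h s}

lemma evalG_JA (θ : PS f n M N) :
    (fun l => evalG θ (JA R (M := M) (N := N) (f := f) J l)) = JC R J :=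
  funext fun _ => Subtype.ext (Matrix.ext fun _ _ => rfl)

lemma dpt_fam0 (θ : PS f n M N) :
    dpt θ (fam0 R W B : Dat f h s (SLR n (AnFun (PS f n M N)))) =
      base R R.subtype W B fun i k => θ (.inl (i, k)) := by
  rw [dpt, fam0, evalG, dmap_base]
  rfl

lemma dpt_step (θ : PS f n M N) (p : List (Move (f + 1)) × Tgt h s)
    (e : SLR n (AnFun (PS f n M N))) (S : Dat f h s (SLR n (AnFun (PS f n M N)))) :
    dpt θ (step (JA R J) p e S) = step (JC R J) p (evalG θ e) (dpt θ S) := by
  rw [dpt, ← step_map, evalG_JA]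
  rfl

lemma dpt_crv (θ : PS f n M N) (p : List (Move (f + 1)) × Tgt h s)
    (S : Dat f h s (SLR n (AnFun (PS f n M N)))) :
    evalG θ (crv (JA R J) p S) = crv (JC R J) p (dpt θ S) := by
  rw [← crv_map, evalG_JA]
  rfl

lemma dpt_dfam_zero_times (θ : PS f n M N) (hθ : ∀ l, θ (.inr l) = 0) (j : ℕ) :
    dpt θ (dfam R J W B φ j) = base R R.subtype W B fun i k => θ (.inl (i, k)) := by
  induction j with
  | zero => exact dpt_fam0 R θ
  | succ j ih =>
    rw [dfam]
    split_ifs with h
    · rw [dpt_step, evalG_expG_zero _ _ _ (hθ _), step_one, ih]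
    · exact ih

lemma drel_dpt_dfam (hB : rel B * (List.ofFn J).prod = 1) (θ : PS f n M N) (j : ℕ) :
    drel (JC R J) (dpt θ (dfam R J W B φ j)) = 1 := by
  induction j with
  | zero =>
    rw [dfam, dpt_fam0]
    have hg : gma (JC R J) (base R R.subtype W B fun i k => θ (.inl (i, k)) :
        Dat f h s (SLC (n + 1))) = JC R J := by
      funext k; simp [gma, base]
    rw [drel, hg]
    simp only [base, rel_flat, one_mul]
    rw [show JC R J = toC R ∘ J from rfl, ← List.map_ofFn, ← map_list_prod, ← rel_map]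
    rw [show SpecialLinearGroup.map R.subtype = toC R (n := n) from rfl, ← map_mul, hB, map_one]
  | succ j ih =>
    rw [dfam]
    split_ifs with h
    · rw [dpt_step, drel_step, ih]
      rw [← dpt_crv]
      exact commute_expG _ _ _
    · exact ih

/-- the free handle values needed to make the curves of the steps diagonal -/
noncomputable def targetA (J : Fin s → SLR n R) (B : Tup h (SLR n R))
    (p : List (Move (f + 1)) × Tgt h s) : Fin (f + 1) → SLC (n + 1) :=
  aacts (invs p.1) fun i => if i = Fin.last f then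
    torus primeUnit * (p.2.Z (JC R J)
      (⟨flat 1, tmap (toC R) B, fun _ => 1⟩ : Dat f h s (SLC (n + 1))))⁻¹ else 1

lemma evalPt_aeval_gen {E : Type*} [NormedAddCommGroup E] [NormedSpace ℂ E] {σ : Type*} (θ : E)
    (X : σ → AnFun E) (P : MvPolynomial σ ℂ) :
    evalPt θ (MvPolynomial.aeval X P) = MvPolynomial.eval (fun k => evalPt θ (X k)) P := by
  induction P using MvPolynomial.induction_on with
  | C a => rw [MvPolynomial.aeval_C, MvPolynomial.eval_C]; rfl
  | add a b ha hb => rw [map_add, map_add, map_add, ha, hb]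
  | mul_X a m ha =>
    rw [map_mul, map_mul, map_mul, ha, MvPolynomial.aeval_X, MvPolynomial.eval_X]

lemma exists_crv_diag (p : List (Move (f + 1)) × Tgt h s)
    (hW : ∀ i, ∃ c : Fin M → ℂ, parW W c = targetA R J B p i) (j : ℕ) :
    ∃ θs : PS f n M N, ((evalG θs (crv (JA R J) p (dfam R J W B φ j)) : SLC (n + 1)) :
      MC (n + 1)) = Matrix.diagonal (lamV n) := by
  choose x hx using hW
  refine ⟨Sum.elim (fun q => Sum.elim (fun _ => 0) (fun l => x q.1 l) q.2) 0, ?_⟩
  have h1 : dpt (Sum.elim (fun q => Sum.elim (fun _ => 0) (fun l => x q.1 l) q.2) 0)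
      (dfam R J W B φ j) = (⟨flat (targetA R J B p), tmap (toC R) B, fun _ => 1⟩ :
        Dat f h s (SLC (n + 1))) := by
    rw [dpt_dfam_zero_times R _ (fun l => rfl)]
    refine Dat.ext (congrArg flat (funext fun i => ?_)) rfl rfl
    simp only [freeA, Sum.elim_inl, Sum.elim_inr]
    rw [show (par fun _ : PIdx n => (0 : ℂ)) = 1 by
      simp [par, upP_zero, lowP_zero, diagP_zero, offP_zero, triP_zero], one_mul]
    exact hx i
  have h2 : (acts p.1 (flat (targetA R J B p)) (Fin.last f)).1 =
      torus primeUnit * (p.2.Z (JC R J)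
        (⟨flat 1, tmap (toC R) B, fun _ => 1⟩ : Dat f h s (SLC (n + 1))))⁻¹ := by
    have e := acts_invs p.1 (flat fun i => if i = Fin.last f then
      torus primeUnit * (p.2.Z (JC R J)
        (⟨flat 1, tmap (toC R) B, fun _ => 1⟩ : Dat f h s (SLC (n + 1))))⁻¹ else 1)
    rw [acts_flat] at e
    rw [targetA, e]
    simp [flat]
  have h3 : crv (JC R J) p (⟨flat (targetA R J B p), tmap (toC R) B, fun _ => 1⟩ :
      Dat f h s (SLC (n + 1))) = torus primeUnit := by
    rw [crv, Tgt.curve]
    simp only [dacts]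
    rw [Tgt.Z_congr (JC R J) p.2 (d := (⟨acts p.1 (flat (targetA R J B p)), tmap (toC R) B,
      fun _ => 1⟩ : Dat f h s (SLC (n + 1)))) (d' := (⟨flat 1, tmap (toC R) B, fun _ => 1⟩ :
      Dat f h s (SLC (n + 1)))) rfl rfl, h2]
    generalize Tgt.Z (JC R J) p.2 (⟨flat 1, tmap (toC R) B, fun _ => 1⟩ :
      Dat f h s (SLC (n + 1))) = z
    generalize (torus primeUnit : SLC (n + 1)) = q
    group
  rw [dpt_crv, h1, h3, coe_torus]
  rfl

open scoped Matrix.Norms.Operator in
theorem dfam_vanish (hinf : (R : Set ℂ).Infinite) (hB : rel B * (List.ofFn J).prod = 1)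
    (hW : ∀ (l : Fin N) i, ∃ c : Fin M → ℂ, parW W c = targetA R J B (φ l) i)
    {P : MvPolynomial (DI f h s n) ℂ} (hP : RVanish R J P) (θ : PS f n M N) (j : ℕ) :
    MvPolynomial.eval (dv (dpt θ (dfam R J W B φ j))) P = 0 := by
  induction j generalizing P θ with
  | zero => rw [dfam, dpt_fam0]; exact eval_base_eq_zero R hinf hB hP _
  | succ j ih =>
    rw [dfam]
    split_ifs with hj
    swap
    · exact ih hP θ
    set p := φ ⟨j, hj⟩ with hp
    set S := dfam R J W B φ j with hS
    set t : AnFun (PS f n M N) := pco (.inr ⟨j, hj⟩) with ht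
    set Wc := crv (JA R J) p S with hWc
    obtain ⟨Q, hQ⟩ := exists_step_poly R J p P
    rw [dpt_step, ← hQ]
    set c : PS f n M N → DK1 f h s × Fin (n + 1) × Fin (n + 1) → ℂ := fun θ k =>
      match k.1 with
      | .inl l => dv (dpt θ S) (l, k.2)
      | .inr _ => 0 with hc
    set Lm : PS f n M N → DK1 f h s × Fin (n + 1) × Fin (n + 1) → MC (n + 1) := fun _ k =>
      match k.1 with
      | .inl _ => 0
      | .inr _ => Matrix.single k.2.2 k.2.1 1 with hLm
    have key : ∀ (θ : PS f n M N) (C : SLC (n + 1)),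
        ent (Sum.elim (acc (dpt θ S)) fun _ => C) =
          fun k => c θ k + (Lm θ k * (C : MC (n + 1))).trace := by
      intro θ C
      funext k
      obtain ⟨(l | u), a, b⟩ := k
      · simp [hc, hLm, ent, dv]
      · simp [hc, hLm, ent, Matrix.trace_single_mul]
    obtain ⟨θs, hWd⟩ := exists_crv_diag (B := B) (W := W) (φ := φ) R (J := J) p (hW ⟨j, hj⟩) j
    have main := flow_vanish n.succ_pos Q c Lm
      (fun θ => ((evalG θ Wc : SLC (n + 1)) : MC (n + 1)))
      (fun θ => ((evalG θ (expG t Wc) : SLC (n + 1)) : MC (n + 1)))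
      (t : PS f n M N → ℂ) θs (lamV n) nonRes_lamV
      ((analyticOnNhd_evalG Wc).continuousOn.continuousAt Filter.univ_mem) hWd
      (fun θ => coe_evalG_expG _ _ _) ?_ ?_ θ
    · rw [key]
      exact main
    · simp only [← key]
      have e : (fun θ => MvPolynomial.eval
          (ent (Sum.elim (acc (dpt θ S)) fun _ => evalG θ (expG t Wc))) Q) =
          ((MvPolynomial.aeval (ent (Sum.elim (acc S) fun _ => expG t Wc)) Q :
            AnFun (PS f n M N)) : PS f n M N → ℂ) := by
        funext θ
        rw [← evalPt_apply, evalPt_aeval_gen]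
        refine congrArg (fun x => MvPolynomial.eval x Q) (funext fun m => ?_)
        obtain ⟨(l | u), a', b'⟩ := m
        · simp only [ent, Sum.elim_inl, dpt, acc_dmap]
          rfl
        · simp only [ent, Sum.elim_inr]
          rfl
      rw [e]
      exact (MvPolynomial.aeval (ent (Sum.elim (acc S) fun _ => expG t Wc)) Q).2
    · intro θ m
      have e : ((evalG θ Wc : SLC (n + 1)) : MC (n + 1)) ^ m =
          (((evalG θ Wc) ^ m : SLC (n + 1)) : MC (n + 1)) := (powC _ _).symm
      rw [e, ← key, hQ]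
      obtain ⟨P', hP', hP''⟩ := exists_pow_poly R J p m P
      have := ih (hP'' hP) θ
      rw [hP', ← dpt_crv, ← hWc] at this
      exact this

end Vale.Agent.P002.Curve
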