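import Mathlib

/-!
Every complex square matrix is conjugate to an upper bidiagonal one with its eigenvalues on the
diagonal and entries zero or one above it.
-/

namespace Vale.Agent.P002.Curve

open Matrix Polynomial
open scoped DirectSum

theorem exists_chain_basis {r : ℕ} (A : Matrix (Fin r) (Fin r) ℂ) :
    ∃ (ι : Type) (_ : Fintype ι) (e : ι → ℕ) (μ : ι → ℂ)
      (bv : (Σ i, Fin (e i)) → (Fin r → ℂ)),
      LinearIndependent ℂ bv ∧ ⊤ ≤ Submodule.span ℂ (Set.range bv) ∧
      ∀ l : Σ i, Fin (e i), Matrix.toLin' A (bv l) = μ l.1 • bv l +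
        if h : (l.2 : ℕ) + 1 < e l.1 then bv ⟨l.1, ⟨(l.2 : ℕ) + 1, h⟩⟩ else 0 := by
  classical
  set φ : Module.End ℂ (Fin r → ℂ) := Matrix.toLin' A with hφ
  haveI : Module.Finite ℂ[X] (Module.AEval' φ) :=
    Module.Finite.of_restrictScalars_finite ℂ _ _
  have htor : Module.IsTorsion ℂ[X] (Module.AEval' φ) := by
    intro x
    have h0 : A.charpoly ≠ 0 := A.charpoly_monic.ne_zero
    refine ⟨⟨A.charpoly, mem_nonZeroDivisors_of_ne_zero h0⟩, ?_⟩
    obtain ⟨v, rfl⟩ := (Module.AEval'.of φ).surjective x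
    change A.charpoly • Module.AEval'.of φ v = 0
    rw [← Module.AEval.of_aeval_smul]
    rw [hφ, show Matrix.toLin' A = Matrix.toLinAlgEquiv' A from rfl, Polynomial.aeval_algHom_apply]
    simp [Matrix.aeval_self_charpoly]
  obtain ⟨ι, hι, p, hp, e, ⟨E⟩⟩ := Module.equiv_directSum_of_isTorsion htor
  haveI := hι
  have hμ : ∀ i, ∃ μ : ℂ, Ideal.span {p i ^ e i} = Ideal.span {(X - C μ) ^ e i} := by
    intro i
    obtain ⟨μ, hμ⟩ : ∃ μ : ℂ, (p i).IsRoot μ :=
      IsAlgClosed.exists_root _ (by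
        intro h
        have := (hp i).natDegree_pos
        rw [Polynomial.natDegree_eq_zero_iff_degree_le_zero.2 h.le] at this
        exact lt_irrefl _ this)
    have h1 : X - C μ ∣ p i := Polynomial.dvd_iff_isRoot.2 hμ
    have h2 : Associated (X - C μ) (p i) :=
      (Polynomial.irreducible_X_sub_C μ).associated_of_dvd (hp i) h1
    exact ⟨μ, (Ideal.span_singleton_eq_span_singleton.2 (h2.pow_pow).symm)⟩
  choose μ hμ using hμ
  -- the chains
  set gi : ι → Module.AEval' φ := fun i =>
    E.symm (DirectSum.lof ℂ[X] ι (fun i => ℂ[X] ⧸ ℂ[X] ∙ p i ^ e i) i (Submodule.Quotient.mk 1))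
    with hgi
  have hsmul : ∀ i (q : ℂ[X]), q • gi i = 0 ↔ (X - C (μ i)) ^ e i ∣ q := by
    intro i q
    rw [hgi, ← LinearEquiv.map_smul, LinearEquiv.map_eq_zero_iff, ← LinearMap.map_smul,
      ← map_zero (DirectSum.lof ℂ[X] ι (fun i => ℂ[X] ⧸ ℂ[X] ∙ p i ^ e i) i)]
    simp only [DirectSum.lof_eq_of]
    rw [(DirectSum.of_injective (β := fun i => ℂ[X] ⧸ ℂ[X] ∙ p i ^ e i) i).eq_iff' rfl,
      ← Submodule.Quotient.mk_smul, smul_eq_mul, mul_one, Submodule.Quotient.mk_eq_zero]
    change q ∈ Ideal.span {p i ^ e i} ↔ _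
    rw [hμ i, Ideal.mem_span_singleton]
  set bv : (Σ i, Fin (e i)) → (Fin r → ℂ) :=
    fun l => (Module.AEval'.of φ).symm ((X - C (μ l.1)) ^ (l.2 : ℕ) • gi l.1) with hbv
  have hC : ∀ (c : ℂ) (x : Module.AEval' φ), c • x = (C c) • x := fun c x =>
    (algebraMap_smul ℂ[X] c x).symm
  have hcomb : ∀ c : (Σ i, Fin (e i)) → ℂ, Module.AEval'.of φ (∑ l, c l • bv l) =
      ∑ i, (∑ k : Fin (e i), C (c ⟨i, k⟩) * (X - C (μ i)) ^ (k : ℕ)) • gi i := by
    intro c
    rw [Fintype.sum_sigma]
    simp only [map_sum, map_smul, hbv, LinearEquiv.apply_symm_apply, Finset.sum_smul, hC, smul_smul]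
  have hli : LinearIndependent ℂ bv := by
    rw [Fintype.linearIndependent_iff]
    intro c hc l
    have h := hcomb c
    rw [hc, map_zero] at h
    set q : ι → ℂ[X] := fun i => ∑ k : Fin (e i), C (c ⟨i, k⟩) * (X - C (μ i)) ^ (k : ℕ) with hq
    have h' := congrArg E h.symm
    rw [map_zero, map_sum] at h'
    have hi : q l.1 • gi l.1 = 0 := by
      apply E.injective
      rw [map_zero]
      have h2 := congrArg (fun x => x l.1) h'
      simp only [DirectSum.sum_apply, map_smul, hgi, LinearEquiv.apply_symm_apply] at h2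
      rw [hgi, map_smul, LinearEquiv.apply_symm_apply, ← LinearMap.map_smul]
      rw [Finset.sum_eq_single l.1] at h2
      · rw [← LinearMap.map_smul] at h2
        simp only [DirectSum.lof_eq_of, DirectSum.of_eq_same, DirectSum.zero_apply] at h2
        rw [h2, map_zero]
      · intro b _ hb
        rw [← LinearMap.map_smul, DirectSum.lof_eq_of, DirectSum.of_eq_of_ne _ _ _ hb.symm]
      · simp
    rw [hsmul] at hi
    have hlt : (q l.1).taylor (μ l.1) = ∑ k : Fin (e l.1), C (c ⟨l.1, k⟩) * X ^ (k : ℕ) := by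
      simp [hq, map_sum, Polynomial.taylor_apply]
    obtain ⟨w, hw⟩ := hi
    have hdv : X ^ e l.1 ∣ (q l.1).taylor (μ l.1) := by
      refine ⟨w.taylor (μ l.1), ?_⟩
      rw [hw]
      simp [Polynomial.taylor_apply]
    rw [Polynomial.X_pow_dvd_iff] at hdv
    have := hdv l.2 l.2.isLt
    rw [hlt, Polynomial.finsetSum_coeff, Finset.sum_eq_single l.2] at this
    · simpa using this
    · intro k _ hk
      rw [Polynomial.coeff_C_mul_X_pow, if_neg (fun e => hk (Fin.ext e.symm))]
    · simp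
  have hspan : ⊤ ≤ Submodule.span ℂ (Set.range bv) := by
    intro v _
    set y := E (Module.AEval'.of φ v) with hy
    choose q hq using fun i => Submodule.Quotient.mk_surjective _ (y i)
    have hv : Module.AEval'.of φ v = ∑ i, q i • gi i := by
      apply E.injective
      rw [map_sum, ← hy]
      simp only [map_smul, hgi, LinearEquiv.apply_symm_apply]
      refine DFinsupp.ext fun j => ?_
      rw [DirectSum.sum_apply, Finset.sum_eq_single j]
      · rw [← LinearMap.map_smul, DirectSum.lof_eq_of, DirectSum.of_eq_same,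
          ← Submodule.Quotient.mk_smul, smul_eq_mul, mul_one, hq]
      · intro b _ hb
        rw [← LinearMap.map_smul, DirectSum.lof_eq_of, DirectSum.of_eq_of_ne _ _ _ hb.symm]
      · simp
    set rem : ι → ℂ[X] := fun i => q i %ₘ (X - C (μ i)) ^ e i with hrem
    have hv2 : Module.AEval'.of φ v = ∑ i, rem i • gi i := by
      rw [hv]
      refine Finset.sum_congr rfl fun i _ => ?_
      rw [← sub_eq_zero, ← sub_smul, hsmul, hrem]
      exact ⟨q i /ₘ (X - C (μ i)) ^ e i, by
        rw [sub_eq_iff_eq_add, add_comm]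
        exact (Polynomial.modByMonic_add_div (q i) _).symm⟩
    refine (Submodule.mem_span_range_iff_exists_fun ℂ).2
      ⟨fun l => ((rem l.1).taylor (μ l.1)).coeff l.2, ?_⟩
    apply (Module.AEval'.of φ).injective
    rw [hcomb, hv2]
    refine Finset.sum_congr rfl fun i _ => congrArg (· • gi i) ?_
    rcases Nat.eq_zero_or_pos (e i) with he | he
    · have : rem i = 0 := by
        rw [hrem]
        simp [he, Polynomial.modByMonic_one]
      rw [this]
      simp [this]
    · conv_rhs => rw [← Polynomial.sum_taylor_eq (rem i) (μ i)]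
      rw [Polynomial.sum_over_range' _ (by simp) (e i), Finset.sum_range]
      rw [Polynomial.natDegree_taylor, hrem]
      have hm : ((X - C (μ i)) ^ e i).Monic := (Polynomial.monic_X_sub_C _).pow _
      refine lt_of_lt_of_le (Polynomial.natDegree_modByMonic_lt (q i) hm ?_) ?_
      · intro h1
        have := congrArg Polynomial.natDegree h1
        simp at this
        omega
      · simp
  have happ : ∀ l : Σ i, Fin (e i), φ (bv l) = μ l.1 • bv l +
      if h : (l.2 : ℕ) + 1 < e l.1 then bv ⟨l.1, ⟨(l.2 : ℕ) + 1, h⟩⟩ else 0 := by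
    intro l
    apply (Module.AEval'.of φ).injective
    rw [← Module.AEval'.X_smul_of, map_add, map_smul, hC]
    simp only [hbv, LinearEquiv.apply_symm_apply, smul_smul]
    have e1 : (X : ℂ[X]) * (X - C (μ l.1)) ^ (l.2 : ℕ) =
        C (μ l.1) * (X - C (μ l.1)) ^ (l.2 : ℕ) + (X - C (μ l.1)) ^ ((l.2 : ℕ) + 1) := by
      rw [pow_succ]; ring
    rw [e1, add_smul]
    congr 1
    split_ifs with h
    · rw [LinearEquiv.apply_symm_apply]
    · rw [map_zero, hsmul]
      exact pow_dvd_pow _ (by omega)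
  exact ⟨ι, hι, e, μ, bv, hli, hspan, happ⟩

theorem exists_bidiag {r : ℕ} (A : Matrix (Fin r) (Fin r) ℂ) :
    ∃ (P P' T : Matrix (Fin r) (Fin r) ℂ), P * P' = 1 ∧ A * P = P * T ∧
      (∀ i j, j < i → T i j = 0) ∧
      (∀ i j, i < j → T i j = 0 ∨ T i j = 1) ∧
      ∀ i, A.charpoly.IsRoot (T i i) := by
  classical
  obtain ⟨ι, hι, e, μ, bv, hli, hspan, happ⟩ := exists_chain_basis A
  set φ : Module.End ℂ (Fin r → ℂ) := Matrix.toLin' A with hφ
  set b0 := Module.Basis.mk hli hspan with hb0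
  obtain ⟨m, σ, -⟩ : ∃ (m : ℕ) (_ : ι ≃ Fin m), True := ⟨_, Fintype.equivFin ι, trivial⟩
  set ord : (Σ i, Fin (e i)) ≃ Fin (∑ a : Fin m, e (σ.symm a)) :=
    (Equiv.sigmaCongr σ (fun i => finCongr (congrArg e (σ.symm_apply_apply i).symm))).trans
      finSigmaFinEquiv with hord
  have hcard : ∑ a : Fin m, e (σ.symm a) = r := by
    have h1 := Module.finrank_eq_card_basis b0
    rw [Module.finrank_fin_fun, Fintype.card_congr ord, Fintype.card_fin] at h1
    exact h1.symm
  set idx : (Σ i, Fin (e i)) ≃ Fin r := ord.trans ((finCongr hcard).trans Fin.revPerm) with hidx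
  set b := b0.reindex idx with hb
  have hsucc : ∀ (l : Σ i, Fin (e i)) (h : (l.2 : ℕ) + 1 < e l.1),
      (idx ⟨l.1, ⟨(l.2 : ℕ) + 1, h⟩⟩ : ℕ) + 1 = (idx l : ℕ) := by
    rintro ⟨i, k⟩ h
    have key : ∀ (k : Fin (e i)), ∃ S : ℕ, ∀ k' : Fin (e i),
        ((ord ⟨i, k'⟩ : Fin _) : ℕ) = S + (k' : ℕ) := by
      intro _
      refine ⟨∑ a : Fin (σ i : ℕ), e (σ.symm (Fin.castLE (σ i).isLt.le a)), fun k' => ?_⟩
      rw [hord, Equiv.trans_apply, finSigmaFinEquiv_apply]
      rfl
    obtain ⟨S, hS⟩ := key k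
    have h1 := hS k
    have h2 := hS ⟨(k : ℕ) + 1, h⟩
    have h3 : S + ((k : ℕ) + 1) < r := by
      have h4 := (ord ⟨i, ⟨(k : ℕ) + 1, h⟩⟩).isLt
      rw [h2] at h4
      change S + ((k : ℕ) + 1) < _ at h4
      omega
    simp only [hidx, Equiv.trans_apply, Fin.revPerm_apply, Fin.val_rev, finCongr_apply,
      Fin.val_cast]
    rw [h1, h2]
    change _ = _
    simp only
    omega
  set T : Matrix (Fin r) (Fin r) ℂ := LinearMap.toMatrix b b φ with hT
  set s := Pi.basisFun ℂ (Fin r)
  have hA : LinearMap.toMatrix s s φ = A := LinearMap.toMatrix'_toLin' A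
  refine ⟨s.toMatrix b, b.toMatrix s, T, s.toMatrix_mul_toMatrix_flip b, ?_, ?_, ?_, ?_⟩
  · rw [← hA, hT]
    rw [linearMap_toMatrix_mul_basis_toMatrix, basis_toMatrix_mul_linearMap_toMatrix]
  all_goals
    have hent : ∀ i j, T i j = (if i = j then μ (idx.symm j).1 else 0) +
        (if h : ((idx.symm j).2 : ℕ) + 1 < e (idx.symm j).1 then
          (if idx ⟨(idx.symm j).1, ⟨((idx.symm j).2 : ℕ) + 1, h⟩⟩ = i then 1 else 0) else 0) := by
      intro i j
      have hbj : ∀ l, bv l = b (idx l) := fun l => by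
        rw [hb, Module.Basis.reindex_apply, Equiv.symm_apply_apply, hb0, Module.Basis.mk_apply]
      rw [hT, LinearMap.toMatrix_apply]
      conv_lhs => rw [show b j = bv (idx.symm j) by rw [hbj, Equiv.apply_symm_apply]]
      rw [happ, map_add, map_smul, hbj (idx.symm j), Equiv.apply_symm_apply,
        Module.Basis.repr_self]
      rw [Finsupp.add_apply, Finsupp.smul_apply, Finsupp.single_apply, smul_eq_mul, mul_ite,
        mul_one, mul_zero]
      refine congrArg₂ (· + ·) (if_congr eq_comm rfl rfl) ?_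
      split_ifs with h1 h2
      · rw [hbj, Module.Basis.repr_self, h2, Finsupp.single_eq_same]
      · rw [hbj, Module.Basis.repr_self, Finsupp.single_apply, if_neg h2]
      · rw [map_zero, Finsupp.zero_apply]
  · intro i j hij
    rw [hent, if_neg (ne_of_gt hij), zero_add]
    split_ifs with h1 h2
    · exfalso
      have := hsucc (idx.symm j) h1
      rw [h2, Equiv.apply_symm_apply] at this
      have := Fin.lt_def.1 hij
      omega
    · rfl
    · rfl
  · intro i j hij
    rw [hent, if_neg (ne_of_lt hij), zero_add]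
    split_ifs <;> simp
  · intro i
    have hii : T i i = μ (idx.symm i).1 := by
      rw [hent, if_pos rfl]
      split_ifs with h1 h2
      · exfalso
        have := hsucc (idx.symm i) h1
        rw [h2, Equiv.apply_symm_apply] at this
        omega
      · rw [add_zero]
      · rw [add_zero]
    rw [hii]
    set l := idx.symm i
    have he : e l.1 - 1 < e l.1 := by have := l.2.isLt; omega
    have hev := happ ⟨l.1, ⟨e l.1 - 1, he⟩⟩
    rw [dif_neg (by simp only; omega), add_zero] at hev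
    have hne : bv ⟨l.1, ⟨e l.1 - 1, he⟩⟩ ≠ 0 := hli.ne_zero _
    have := Module.End.hasEigenvalue_of_hasEigenvector (f := φ)
      ⟨Module.End.mem_eigenspace_iff.2 hev, hne⟩
    rw [Module.End.hasEigenvalue_iff_isRoot_charpoly, hφ, Matrix.charpoly_toLin'] at this
    exact this

end Vale.Agent.P002.Curve
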