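import Mathlib
import Vale.Agent.P002.CurveJordan
import Vale.Agent.P002.CurveBase
import Vale.Agent.P002.CurveFamily

/-!
The ring of integers of a cyclotomic field inside the complex numbers, and integral base data with
prescribed quasi-unipotent boundary classes.
-/

namespace Vale.Agent.P002.Curve

open Matrix Polynomial
open Vale.Agent.P002.Surface

variable {n s : ℕ}

/-- integral elements of an intermediate field -/
noncomputable def intR (L : IntermediateField ℚ ℂ) : Subring ℂ :=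
  L.toSubalgebra.toSubring ⊓ (integralClosure ℤ ℂ).toSubring

lemma mem_intR {L : IntermediateField ℚ ℂ} {x : ℂ} : x ∈ intR L ↔ x ∈ L ∧ IsIntegral ℤ x :=
  Iff.rfl

lemma intR_infinite (L : IntermediateField ℚ ℂ) : (intR L : Set ℂ).Infinite :=
  (Set.infinite_range_of_injective (fun _ _ h => Int.cast_injective h)).mono
    (Set.range_subset_iff.2 fun z : ℤ => intCast_mem (intR L) z)

lemma exists_cyclo_field (m : ℕ) (hm : 0 < m) :
    ∃ L : IntermediateField ℚ ℂ, FiniteDimensional ℚ L ∧ ∀ x : ℂ, x ^ m = 1 → x ∈ intR L := by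
  have hζ := Complex.isPrimitiveRoot_exp m hm.ne'
  set ζ : ℂ := Complex.exp (2 * Real.pi * Complex.I / m)
  haveI : NeZero m := ⟨hm.ne'⟩
  have hi : IsIntegral ℤ ζ := hζ.isIntegral hm
  refine ⟨IntermediateField.adjoin ℚ {ζ},
    IntermediateField.adjoin.finiteDimensional hi.tower_top, fun x hx => ?_⟩
  obtain ⟨i, _, rfl⟩ := hζ.eq_pow_of_pow_eq_one hx
  exact mem_intR.2 ⟨pow_mem (IntermediateField.mem_adjoin_simple_self ℚ ζ) i, hi.pow i⟩

lemma isUnit_one_sub {K : Type*} [CommRing K] [IsDomain K] {N : ℕ} {μ : K}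
    (hμ : IsPrimitiveRoot μ N) (hN : 0 < N)
    (hp : ∀ {p : ℕ}, p.Prime → ∀ k : ℕ, p ^ k ≠ N) : IsUnit (1 - μ) := by
  have h := congrArg (Polynomial.eval (1 : K))
    (Polynomial.cyclotomic_eq_prod_X_sub_primitiveRoots hμ)
  rw [Polynomial.eval_one_cyclotomic_not_prime_pow hp, Polynomial.eval_prod] at h
  simp only [Polynomial.eval_sub, Polynomial.eval_X, Polynomial.eval_C] at h
  have h2 := (IsUnit.prod_iff (s := primitiveRoots N K) (f := fun x => (1 : K) - x)).1
    (by rw [← h]; exact isUnit_one)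
  exact h2 μ ((mem_primitiveRoots hN).2 hμ)

/-- exponential unit spacing -/
lemma exists_gap {K : Type*} [CommRing K] [IsDomain K] (p q : ℕ) (hp : p.Prime) (hq : q.Prime)
    (hpq : p ≠ q) (hpn : 2 * (n + 1) < p) (hqn : 2 * (n + 1) < q) {ω : K}
    (hω : IsPrimitiveRoot ω (p * q)) :
    ∃ e : Fin (n + 1) → K, (∏ j, e j = 1) ∧ ∀ j k, k < j → IsUnit (e j - e k) := by
  have hpos : 0 < p * q := Nat.mul_pos hp.pos hq.pos
  set a : ℕ := (p * q - 1) * n with ha
  refine ⟨fun j => ω ^ (2 * (j : ℕ) + a), ?_, fun j k hjk => ?_⟩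
  · rw [Finset.prod_pow_eq_pow_sum, Finset.sum_add_distrib, Finset.sum_const, Finset.card_univ,
      Fintype.card_fin, ← Finset.mul_sum, Fin.sum_univ_eq_sum_range (fun i => i)]
    refine (hω.pow_eq_one_iff_dvd _).2 ⟨(n + 1) * n, ?_⟩
    have h1 := Finset.sum_range_id_mul_two (n + 1)
    rw [Nat.add_sub_cancel] at h1
    rw [smul_eq_mul, mul_comm 2, h1, ha, ← mul_assoc, mul_comm (n + 1) (p * q - 1), mul_assoc]
    calc (n + 1) * n + (p * q - 1) * ((n + 1) * n) = (1 + (p * q - 1)) * ((n + 1) * n) := by ring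
      _ = p * q * ((n + 1) * n) := by rw [Nat.add_sub_cancel' hpos]
  · set d : ℕ := 2 * ((j : ℕ) - (k : ℕ)) with hd
    have hlt := Fin.lt_def.1 hjk
    have hd0 : 0 < d := by omega
    have hdn : d < 2 * (n + 1) := by have := j.isLt; omega
    have hcop : Nat.Coprime d (p * q) := by
      refine Nat.Coprime.mul_right ?_ ?_
      · exact ((Nat.Prime.coprime_iff_not_dvd hp).2 (Nat.not_dvd_of_pos_of_lt hd0 (by omega))).symm
      · exact ((Nat.Prime.coprime_iff_not_dvd hq).2 (Nat.not_dvd_of_pos_of_lt hd0 (by omega))).symm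
    have hu : IsUnit (1 - ω ^ d) := by
      refine isUnit_one_sub (hω.pow_of_coprime d hcop) hpos fun {l} hl e he => ?_
      have h1 : p ∣ l ^ e := he ▸ dvd_mul_right p q
      have h2 : q ∣ l ^ e := he ▸ dvd_mul_left q p
      exact hpq (((Nat.prime_dvd_prime_iff_eq hp hl).1 (hp.dvd_of_dvd_pow h1)).trans
        ((Nat.prime_dvd_prime_iff_eq hq hl).1 (hq.dvd_of_dvd_pow h2)).symm)
    have hω1 : IsUnit ω := hω.isUnit hpos.ne'
    have he : ω ^ (2 * (j : ℕ) + a) - ω ^ (2 * (k : ℕ) + a) =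
        -(ω ^ (2 * (k : ℕ) + a) * (1 - ω ^ d)) := by
      rw [show 2 * (j : ℕ) + a = 2 * (k : ℕ) + a + d by omega, pow_add]
      ring
    rw [he]
    exact ((hω1.pow _).mul hu).neg

/-- a quasi-unipotent class contains a triangular matrix with integral entries -/
lemma exists_tri_rep (L : IntermediateField ℚ ℂ) (C : SLC (n + 1))
    (hC : ∀ μ, (C : MC (n + 1)).charpoly.IsRoot μ → μ ∈ intR L) :
    ∃ J : SLR n (intR L), (J : Matrix (Fin (n + 1)) (Fin (n + 1)) (intR L)).BlockTriangular id ∧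
      IsConj C (toC (intR L) J) ∧
      ∀ i, (C : MC (n + 1)).charpoly.IsRoot ((J i i : intR L) : ℂ) := by
  obtain ⟨P, P', T, hPP, hCP, hlow, hup, hdiag⟩ := exists_bidiag (C : MC (n + 1))
  have hT : ∀ i j, T i j ∈ intR L := by
    intro i j
    rcases lt_trichotomy i j with h | rfl | h
    · rcases hup i j h with e | e <;> rw [e]
      exacts [zero_mem _, one_mem _]
    · exact hC _ (hdiag i)
    · rw [hlow i j h]; exact zero_mem _
  have hPd : P.det * P'.det = 1 := by rw [← Matrix.det_mul, hPP, Matrix.det_one]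
  have hTd : T.det = 1 := by
    have h := congrArg Matrix.det hCP
    rw [Matrix.det_mul, Matrix.det_mul, C.property, one_mul] at h
    calc T.det = T.det * (P.det * P'.det) := by rw [hPd, mul_one]
      _ = (P.det * T.det) * P'.det := by ring
      _ = 1 := by rw [← h, hPd]
  set T' : Matrix (Fin (n + 1)) (Fin (n + 1)) (intR L) := fun i j => ⟨T i j, hT i j⟩
  have hmap : (intR L).subtype.mapMatrix T' = T := rfl
  have hT'd : T'.det = 1 := by
    apply Subtype.ext
    change (intR L).subtype T'.det = 1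
    rw [RingHom.map_det, hmap, hTd]
  refine ⟨⟨T', hT'd⟩, fun i j h => Subtype.ext (hlow i j h), ?_, fun i => hdiag i⟩
  obtain ⟨c, hc⟩ := IsAlgClosed.exists_pow_nat_eq P'.det n.succ_pos
  set Q : SLC (n + 1) := ⟨c • P, by
    rw [Matrix.det_smul, Fintype.card_fin, hc, mul_comm, hPd]⟩ with hQ
  have hQ' : C * Q = Q * toC (intR L) ⟨T', hT'd⟩ := by
    refine Subtype.ext ?_
    change (C : MC (n + 1)) * (c • P) = c • P * T
    rw [Matrix.mul_smul, Matrix.smul_mul, hCP]
  refine isConj_iff.2 ⟨Q⁻¹, ?_⟩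
  rw [inv_inv, mul_assoc, hQ', inv_mul_cancel_left]

/-- integral data: a field, boundary representatives, and two handles absorbing their product -/
theorem exists_integral_data (C : Fin s → SLC (n + 1))
    (hC : ∀ k μ, (C k : MC (n + 1)).charpoly.IsRoot μ → ∃ m : ℕ, 0 < m ∧ μ ^ m = 1) :
    ∃ L : IntermediateField ℚ ℂ, FiniteDimensional ℚ L ∧
      ∃ (J : Fin s → SLR n (intR L)) (B : Tup 2 (SLR n (intR L))),
        rel B * (List.ofFn J).prod = 1 ∧ ∀ k, IsConj (C k) (toC (intR L) (J k)) := by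
  classical
  have hord : ∀ k μ, μ ∈ (C k : MC (n + 1)).charpoly.roots.toFinset →
      ∃ m : ℕ, 0 < m ∧ μ ^ m = 1 := by
    intro k μ hμ
    rw [Multiset.mem_toFinset, Polynomial.mem_roots'] at hμ
    exact hC k μ hμ.2
  choose m hm0 hm using hord
  set m0 : ℕ := ∏ k, ∏ μ ∈ (C k : MC (n + 1)).charpoly.roots.toFinset.attach, m k μ.1 μ.2 with hm0'
  have hm0pos : 0 < m0 := Finset.prod_pos fun k _ => Finset.prod_pos fun μ _ => hm0 k μ.1 μ.2
  have hroot : ∀ k μ, (C k : MC (n + 1)).charpoly.IsRoot μ → μ ^ m0 = 1 := by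
    intro k μ hμ
    have hmem : μ ∈ (C k : MC (n + 1)).charpoly.roots.toFinset := by
      rw [Multiset.mem_toFinset, Polynomial.mem_roots (Matrix.charpoly_monic _).ne_zero]
      exact hμ
    have hd : m k μ hmem ∣ m0 :=
      (Finset.dvd_prod_of_mem (fun x : {x // x ∈ (C k : MC (n + 1)).charpoly.roots.toFinset} =>
        m k x.1 x.2) (Finset.mem_attach _ ⟨μ, hmem⟩)).trans
          (Finset.dvd_prod_of_mem _ (Finset.mem_univ k))
    obtain ⟨q, hq⟩ := hd
    rw [hq, pow_mul, hm k μ hmem, one_pow]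
  obtain ⟨p, hp1, hp⟩ := Nat.exists_infinite_primes (2 * (n + 1) + 1)
  obtain ⟨q, hq1, hq⟩ := Nat.exists_infinite_primes (p + 1)
  set mm : ℕ := (n + 1) * m0 * (p * q) with hmm
  have hmm0 : 0 < mm := Nat.mul_pos (Nat.mul_pos n.succ_pos hm0pos) (Nat.mul_pos hp.pos hq.pos)
  obtain ⟨L, hL, hmem⟩ := exists_cyclo_field mm hmm0
  have hmem0 : ∀ x : ℂ, x ^ m0 = 1 → x ∈ intR L := by
    intro x hx
    refine hmem x ?_
    rw [hmm, mul_comm (n + 1), mul_assoc, pow_mul, hx, one_pow]
  have hJ : ∀ k, ∃ J : SLR n (intR L),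
      (J : Matrix (Fin (n + 1)) (Fin (n + 1)) (intR L)).BlockTriangular id ∧
      IsConj (C k) (toC (intR L) J) ∧
      ∀ i, (C k : MC (n + 1)).charpoly.IsRoot ((J i i : intR L) : ℂ) :=
    fun k => exists_tri_rep L (C k) fun μ hμ => hmem0 μ (hroot k μ hμ)
  choose J hJt hJc hJd using hJ
  refine ⟨L, hL, J, ?_⟩
  set T : SLR n (intR L) := (List.ofFn J).prod with hT
  have hTt : ∀ (l : List (SLR n (intR L))),
      (∀ x ∈ l, (x : Matrix (Fin (n + 1)) (Fin (n + 1)) (intR L)).BlockTriangular id ∧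
        ∀ i, (x i i) ^ m0 = 1) →
      ((l.prod : SLR n (intR L)) : Matrix (Fin (n + 1)) (Fin (n + 1)) (intR L)).BlockTriangular id ∧
        ∀ i, (l.prod i i) ^ m0 = 1 := by
    intro l
    induction l with
    | nil =>
      intro _
      refine ⟨?_, fun i => ?_⟩
      · change (1 : Matrix (Fin (n + 1)) (Fin (n + 1)) (intR L)).BlockTriangular id
        exact Matrix.blockTriangular_one
      · change (1 : Matrix (Fin (n + 1)) (Fin (n + 1)) (intR L)) i i ^ m0 = 1
        rw [Matrix.one_apply_eq, one_pow]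
    | cons x l ih =>
      intro h
      obtain ⟨h1, h2⟩ := ih fun y hy => h y (List.mem_cons_of_mem x hy)
      obtain ⟨h3, h4⟩ := h x (by simp)
      rw [List.prod_cons]
      change ((x : Matrix (Fin (n + 1)) (Fin (n + 1)) (intR L)) *
        (l.prod : SLR n (intR L))).BlockTriangular id ∧ ∀ i,
          ((x : Matrix (Fin (n + 1)) (Fin (n + 1)) (intR L)) * (l.prod : SLR n (intR L))) i i ^ m0 = 1
      refine ⟨h3.mul h1, fun i => ?_⟩
      rw [tri_mul_diag h3 h1, mul_pow, h4, h2, one_mul]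
  obtain ⟨hT1, hT2⟩ := hTt (List.ofFn J) (fun x hx => by
    obtain ⟨k, rfl⟩ := List.mem_ofFn.1 hx
    refine ⟨hJt k, fun i => Subtype.ext ?_⟩
    push_cast
    exact hroot k _ (hJd k i))
  set d : Fin (n + 1) → intR L := fun i => T i i with hd
  have hdp : ∏ j, d j = 1 := by
    rw [hd, ← det_tri hT1]
    exact T.property
  have hK : (∏ j, ppr d j) ^ m0 = 1 := by
    rw [← Finset.prod_pow]
    refine Finset.prod_eq_one fun j _ => ?_
    rw [ppr, ← Finset.prod_pow]
    exact Finset.prod_eq_one fun k _ => hT2 k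
  obtain ⟨t, ht⟩ := IsAlgClosed.exists_pow_nat_eq
    ((((∏ j, ppr d j : intR L)) : ℂ))⁻¹ n.succ_pos
  have htR : t ∈ intR L := by
    refine hmem t ?_
    rw [hmm, mul_assoc, pow_mul, ht, inv_pow, pow_mul]
    rw [← SubmonoidClass.coe_pow, hK]
    simp
  have hKne : (((∏ j, ppr d j : intR L)) : ℂ) ≠ 0 := by
    intro h
    have h' := congrArg (fun x : intR L => (x : ℂ)) hK
    simp only [SubmonoidClass.coe_pow, h, zero_pow hm0pos.ne', OneMemClass.coe_one] at h'
    exact zero_ne_one h'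
  obtain ⟨S, E', hD⟩ := exists_comm_diag d hdp ⟨t, htR⟩ (Subtype.ext (by
    rw [MulMemClass.coe_mul, SubmonoidClass.coe_pow]
    rw [ht, inv_mul_cancel₀ hKne]
    rfl))
  have hω := Complex.isPrimitiveRoot_exp (p * q) (Nat.mul_pos hp.pos hq.pos).ne'
  set ω : ℂ := Complex.exp (2 * Real.pi * Complex.I / (p * q : ℕ)) with hωd
  have hωR : ω ∈ intR L := hmem ω (by rw [hmm, mul_comm, pow_mul, hω.pow_eq_one, one_pow])
  have hω' : IsPrimitiveRoot (⟨ω, hωR⟩ : intR L) (p * q) :=
    IsPrimitiveRoot.of_map_of_injective (f := (intR L).subtype) hω Subtype.val_injective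
  obtain ⟨e, he, hgap⟩ := exists_gap (n := n) p q hp hq (by omega) (by omega) (by omega) hω'
  obtain ⟨u, hu⟩ := exists_comm_unitri e d he hdp hgap T hT1 (fun j => rfl)
  refine ⟨![(E', S), (u, diagS e he)], ?_, hJc⟩
  rw [hu, hD, rel]
  simp only [List.ofFn_succ, List.ofFn_zero, List.prod_cons, List.prod_nil, mul_one, cm,
    Matrix.cons_val_zero, Matrix.cons_val_succ]
  group

end Vale.Agent.P002.Curve
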