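import Mathlib
import Vale.Agent.P002.SurfaceFamily

/-!
At the integral base representation, the twist flow families realise every tangent vector of the
representation variety.
-/

namespace Vale.Agent.P002.Surface

open Matrix
open scoped DualNumber

variable {g n : ℕ}

/-- integer base parameters: handle 1 upper unipotent, handle 2 lower unipotent, others trivial -/
def baseC {R : Type*} [CommRing R] (i : Fin g) : PIdx n → R
  | .inl (.inl _) => if (i : ℕ) = 1 then 1 else 0
  | .inl (.inr _) => if (i : ℕ) = 2 then 1 else 0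
  | .inr _ => 0

lemma map_baseC {R S : Type*} [CommRing R] [CommRing S] (f : R →+* S) (i : Fin g) (k : PIdx n) :
    f (baseC i k) = baseC i k := by
  rcases k with (k | k) | k <;> simp [baseC, apply_ite f]

/-- the base tuple -/
noncomputable def baseA (g n : ℕ) (i : Fin g) : SLC (n + 1) := par (baseC i)

lemma coe_baseA_one (hg : 3 ≤ g) :
    ((baseA g n ⟨1, by omega⟩ : SLC (n + 1)) : MC (n + 1)) = 1 + upN n := by
  simp only [baseA, par, baseC, if_true, show ((1 : ℕ) = 2) = False from by simp, if_false,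
    lowP_zero, diagP_zero, offP_zero, triP_zero, mul_one, coe_upP_one]

lemma coe_baseA_two (hg : 3 ≤ g) :
    ((baseA g n ⟨2, by omega⟩ : SLC (n + 1)) : MC (n + 1)) = 1 + lowN n := by
  simp only [baseA, par, baseC, if_true, show ((2 : ℕ) = 1) = False from by simp, if_false,
    upP_zero, diagP_zero, offP_zero, triP_zero, mul_one, one_mul, coe_lowP_one]

lemma adjoin_baseA (hg : 3 ≤ g) :
    Algebra.adjoin ℂ ({((baseA g n ⟨1, by omega⟩ : SLC (n + 1)) : MC (n + 1)),
      ((baseA g n ⟨2, by omega⟩ : SLC (n + 1)) : MC (n + 1))} : Set (MC (n + 1))) = ⊤ := by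
  rw [coe_baseA_one hg, coe_baseA_two hg]
  exact adjoin_upN_lowN

/-- the base parameters -/
def baseθ (g n N : ℕ) : PSp g n N := Sum.elim (fun p => baseC p.1 p.2) 0

/-- handle jets at the base point -/
noncomputable def aJ (v : Fin g × PIdx n → ℂ) (i : Fin g) : SLD (n + 1) :=
  par fun k => TrivSqZeroExt.inl (baseC i k) + TrivSqZeroExt.inr (v (i, k))

lemma jt_S0 {N : ℕ} (v : PSp g n N) :
    jt (baseθ g n N) v (S0 g n N) = flat (aJ fun p => v (.inl p)) := by
  rw [jt, S0, jetG, tmap_base0]
  simp only [base0, jetPt_xco, baseθ, Sum.elim_inl]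
  rfl

lemma fstG_aJ (v : Fin g × PIdx n → ℂ) (i : Fin g) : fstG (aJ v i) = baseA g n i := by
  rw [aJ, fstG, map_par]
  simp [baseA]

lemma over_flat_aJ (v : Fin g × PIdx n → ℂ) : Over (baseA g n) (flat (aJ v)) :=
  over_flat (fstG_aJ v)

/-- extend handle parameters by zero times -/
def extV : (Fin g × PIdx n → ℂ) →ₗ[ℂ] PSp g n 0 where
  toFun v := Sum.elim v Fin.elim0
  map_add' u v := by
    funext k
    rcases k with k | k
    · rfl
    · exact k.elim0
  map_smul' c v := by
    funext k
    rcases k with k | k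
    · rfl
    · exact k.elim0

lemma aJ_eq_jetG (v : Fin g × PIdx n → ℂ) (i : Fin g) :
    aJ v i = jetG (baseθ g n 0) (extV v) (S0 g n 0 i).1 :=
  (congrArg Prod.fst (congrFun (jt_S0 (g := g) (n := n) (extV v)) i)).symm

/-- linear map: handle jets -/
noncomputable def gamL (i : Fin g) : (Fin g × PIdx n → ℂ) →ₗ[ℂ] MC (n + 1) where
  toFun v := gam (aJ v i)
  map_add' u v := by
    have h : sndM ((aJ (u + v) i : SLD (n + 1)) : MD (n + 1)) =
        sndM (aJ u i : MD (n + 1)) + sndM (aJ v i : MD (n + 1)) := by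
      ext a b
      simp only [aJ_eq_jetG, Matrix.add_apply, sndM_jetG, map_add]
    simp only [gam, fstG_aJ, h, Matrix.mul_add]
  map_smul' c v := by
    have h : sndM ((aJ (c • v) i : SLD (n + 1)) : MD (n + 1)) =
        c • sndM (aJ v i : MD (n + 1)) := by
      ext a b
      simp only [aJ_eq_jetG, Matrix.smul_apply, sndM_jetG, map_smul]
    simp only [gam, fstG_aJ, h, Matrix.mul_smul, RingHom.id_apply]

lemma snd_trace_jetG {E : Type*} [NormedAddCommGroup E] [NormedSpace ℂ E] (θ v : E)
    (W : SLR n (AnFun E)) :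
    ((jetG θ v W : SLD (n + 1)) : MD (n + 1)).trace.snd =
      fderiv ℂ (fun θ => ((evalG θ W : SLC (n + 1)) : MC (n + 1)).trace) θ v := by
  rw [snd_trace]
  simp only [Matrix.trace, Matrix.diag]
  rw [fderiv_fun_sum]
  · simp only [sndM_jetG, _root_.sum_apply]
  · intro a _
    exact AnFun.differentiableAt ((W : Matrix (Fin (n + 1)) (Fin (n + 1)) (AnFun E)) a a) θ

lemma trL_key (o : Fin g) (L : List (Move g)) (w : Fin g × PIdx n → ℂ) :
    ((((acts L (flat (aJ w))) o).1 : SLD (n + 1)) : MD (n + 1)).trace.snd =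
      fderiv ℂ (fun θ => (((pt θ (acts L (S0 g n 0))) o).1 : MC (n + 1)).trace)
        (baseθ g n 0) (extV w) := by
  have e : flat (aJ w) = jt (baseθ g n 0) (extV w) (S0 g n 0) :=
    (jt_S0 (extV w)).symm
  rw [e, ← jt_acts]
  generalize acts L (S0 g n 0) = T
  exact snd_trace_jetG (baseθ g n 0) (extV w) (T o).1

/-- derivative of the trace of the primitive word given by a list of moves -/
noncomputable def trL (o : Fin g) (L : List (Move g)) :
    (Fin g × PIdx n → ℂ) →ₗ[ℂ] ℂ where
  toFun v := ((((acts L (flat (aJ v))) o).1 : SLD (n + 1)) : MD (n + 1)).trace.snd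
  map_add' u v := by simp only [trL_key, map_add]
  map_smul' c v := by simp only [trL_key, map_smul, smul_eq_mul, RingHom.id_apply]

variable {N : ℕ} {o : Fin g} {φ : Fin N → List (Move g)}

lemma tlp_trace_mul {r : ℕ} (W γ : MC r) (hγ : γ.trace = 0) :
    (tlp W * γ).trace = (W * γ).trace := by
  simp [tlp, Matrix.sub_mul, Matrix.trace_sub, hγ]

lemma over_jt_fam (v : PSp g n N) (j : ℕ) :
    Over (baseA g n) (jt (baseθ g n N) v (fam o φ j)) := by
  rw [Over, tmap_fstG_jt, pt_fam_zero_times _ (fun l => rfl), pt_S0]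
  rfl

/-- the pairing of the `b`-jets of the flow families with handle jets -/
theorem pair_fam (v : PSp g n N) (u : Fin g × PIdx n → ℂ) (j : ℕ) :
    pair (jt (baseθ g n N) v (fam o φ j)) (flat (aJ u)) =
      ∑ l : Fin N, if (l : ℕ) < j then v (.inr l) * trL o (φ l) u else 0 := by
  induction j with
  | zero =>
    rw [fam, jt_S0]
    simp [pair, flat, sndM_one, oneD]
  | succ j ih =>
    rw [fam]
    split_ifs with h
    swap
    · rw [ih]
      refine Finset.sum_congr rfl fun l _ => ?_
      have := l.isLt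
      simp [show ((l : ℕ) < j) ↔ ((l : ℕ) < j + 1) from ⟨fun _ => by omega, fun _ => by omega⟩]
    set l0 : Fin N := ⟨j, h⟩ with hl0
    set L := φ l0 with hL
    set S := acts L (fam (n := n) o φ j) with hS
    set θ0 := baseθ g n N with hθ0
    set t := jt θ0 v (fam (n := n) o φ j) with ht
    set a := aJ (g := g) (n := n) u with ha
    have hta : Over (baseA g n) t := over_jt_fam v j
    have hfa : ∀ i, fstG (a i) = baseA g n i := fstG_aJ u
    have hT : jt θ0 v S = acts L t := jt_acts _ _ _ _
    set X := jt θ0 v (flowT o (xco (.inr l0)) S) with hX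
    have hout : Over (baseA g n) (acts (invs L) X) := by
      have := over_jt_fam (g := g) (o := o) (φ := φ) v (j + 1)
      rw [fam, dif_pos h, jt_acts] at this
      exact this
    rw [jt_acts, ← hX, ← pair_acts hout hfa L, acts_invs, acts_flat, hX, jt_flowT, hT]
    set a' := aacts L a with ha'
    have hta' : Over (aacts L (baseA g n)) (acts L t) := hta.acts L
    have hfa' : ∀ i, fstG (a' i) = aacts L (baseA g n) i := by
      intro i
      have := ((over_flat hfa).acts L).fst_a i
      rwa [acts_flat] at this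
    set e := jetG θ0 v (expG (xco (.inr l0)) (S o).1) with he
    have hz : ((xco (g := g) (n := n) (.inr l0) : AnFun (PSp g n N)) : PSp g n N → ℂ) θ0 = 0 := rfl
    have hfe : fstG e = 1 := by rw [he, fstG_jetG, evalG_expG_zero _ _ _ hz]
    have hse : sndM (e : MD (n + 1)) =
        v (.inr l0) • tlp ((aacts L (baseA g n) o : SLC (n + 1)) : MC (n + 1)) := by
      rw [he, sndM_jetG_expG _ _ _ _ hz]
      congr 1
      · have := congrArg TrivSqZeroExt.snd
          (jetPt_xco θ0 v (.inr l0 : (Fin g × PIdx n) ⊕ Fin N))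
        simpa [snd_jetPt] using this
      · have h1 : fstG (jetG θ0 v (S o).1) = aacts L (baseA g n) o := by
          have := hta'.fst_a o
          rw [← hT] at this
          exact this
        rw [fstG_jetG] at h1
        rw [h1]
    have hsum : ∀ f : Fin g → ℂ, ∑ i, f i = f o + ∑ i ∈ Finset.univ.erase o, f i :=
      fun f => (Finset.add_sum_erase _ _ (Finset.mem_univ _)).symm
    have hpair : pair (Function.update (acts L t) o ((acts L t o).1, (acts L t o).2 * e)) (flat a') =
        pair (acts L t) (flat a') + v (.inr l0) * trL o L u := by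
      simp only [pair]
      rw [hsum, hsum (fun i => _)]
      simp only [Function.update_self]
      rw [sndM_mul_of_fst_one _ _ (hta'.fst_b o) hfe, Matrix.add_mul, Matrix.trace_add, hse,
        Matrix.smul_mul, Matrix.trace_smul, tlp_trace_mul _ _ (trace_gam _)]
      have hw : ((aacts L (baseA g n) o : SLC (n + 1)) : MC (n + 1)) * gam (flat a' o).1 =
          sndM ((flat a' o).1 : MD (n + 1)) := by
        rw [sndM_coe, show fstG (flat a' o).1 = aacts L (baseA g n) o from hfa' o]
      have hsum' : ∑ i ∈ Finset.univ.erase o,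
          (sndM ((Function.update (acts L t) o ((acts L t o).1, (acts L t o).2 * e) i).2 :
              MD (n + 1)) * gam (flat a' i).1).trace =
          ∑ i ∈ Finset.univ.erase o,
            (sndM ((acts L t i).2 : MD (n + 1)) * gam (flat a' i).1).trace := by
        refine Finset.sum_congr rfl fun i hi => ?_
        rw [Function.update_of_ne (Finset.ne_of_mem_erase hi)]
      rw [hw, hsum', ← snd_trace, smul_eq_mul]
      change _ = _ + v (.inr l0) *
        ((((acts L (flat (aJ u))) o).1 : SLD (n + 1)) : MD (n + 1)).trace.snd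
      rw [acts_flat]
      ring
    rw [hpair, ← acts_flat, pair_acts hta hfa, ih]
    have hv : v (.inr l0) * trL o L u =
        ∑ l : Fin N, if l = l0 then v (.inr l) * trL o (φ l) u else 0 := by
      rw [Finset.sum_ite_eq' Finset.univ l0]
      simp [hL]
    rw [hv, ← Finset.sum_add_distrib]
    refine Finset.sum_congr rfl fun l _ => ?_
    rcases eq_or_ne l l0 with rfl | hl
    · simp [hl0]
    · have : (l : ℕ) ≠ j := fun e => hl (Fin.ext e)
      simp [hl, show ((l : ℕ) < j + 1) ↔ ((l : ℕ) < j) from ⟨fun _ => by omega, fun _ => by omega⟩]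

section single

variable [DecidableEq (Fin g × PIdx n)]

lemma gam_TR_eps {i j : Fin (n + 1)} (h : i ≠ j) :
    gam (TR h (TrivSqZeroExt.inr 1 : ℂ[ε]) : SLD (n + 1)) = Matrix.single i j 1 := by
  have h1 : fstG (TR h (TrivSqZeroExt.inr 1 : ℂ[ε]) : SLD (n + 1)) = 1 := by
    rw [fstG, map_TR]
    simp [TR_zero]
  rw [gam, h1, inv_one, oneC, Matrix.one_mul, coe_TR, sndM_add, sndM_one, zero_add]
  ext a b
  rcases eq_or_ne i a with rfl | ha <;> rcases eq_or_ne j b with rfl | hb <;>
    simp_all [sndM_apply, Matrix.single_apply]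

lemma aJ_single (i : Fin g) (k : OPair n ⊕ Fin n) :
    aJ (Pi.single (i, .inr (.inr k)) 1) i = inlG (baseA g n i) *
      (offP (fun p => if k = .inl p then (TrivSqZeroExt.inr 1 : ℂ[ε]) else 0) *
        triP (fun p => if k = .inr p then (TrivSqZeroExt.inr 1 : ℂ[ε]) else 0)) := by
  have hb : inlG (baseA g n i) = par (fun q => (TrivSqZeroExt.inl (baseC i q) : ℂ[ε])) := by
    rw [inlG, baseA, map_par]
    rfl
  rw [hb, aJ]
  have e1 : ∀ p, (Pi.single (i, Sum.inr (Sum.inr k)) (1 : ℂ) : Fin g × PIdx n → ℂ)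
      (i, Sum.inr (Sum.inr p)) = if k = p then 1 else 0 := by
    intro p
    rcases eq_or_ne k p with rfl | hp
    · simp
    · simp [hp, Ne.symm hp]
  simp only [par, e1, baseC, Pi.single_eq_of_ne, ne_eq, Prod.mk.injEq, Sum.inr.injEq,
    reduceCtorEq, and_false, not_false_eq_true, TrivSqZeroExt.inr_zero, add_zero,
    TrivSqZeroExt.inl_zero, zero_add, diagP_zero, offP_zero, triP_zero, mul_one]
  simp only [apply_ite TrivSqZeroExt.inr, TrivSqZeroExt.inr_zero, mul_assoc]

lemma gam_inlG_mul (A : SLC (n + 1)) (y : SLD (n + 1)) : gam (inlG A * y) = gam y := by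
  have : gam (inlG A) = 0 := by rw [gam, sndM_inlG, Matrix.mul_zero]
  rw [gam_mul, this, Matrix.mul_zero, Matrix.zero_mul, zero_add]

lemma gamL_single_off (i : Fin g) (p : OPair n) :
    gamL i (Pi.single (i, .inr (.inr (.inl p))) 1) = Matrix.single p.1.1 p.1.2 1 := by
  change gam (aJ _ i) = _
  rw [aJ_single, gam_inlG_mul]
  simp only [reduceCtorEq, if_false, triP_zero, mul_one, Sum.inl.injEq, offP]
  rw [prod_ofFn_single _ (Fintype.equivFin (OPair n) p)]
  · simp only [Equiv.symm_apply_apply, if_true]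
    exact gam_TR_eps p.2
  · intro j hj
    have : p ≠ (Fintype.equivFin (OPair n)).symm j := fun e => hj (by simp [e])
    simp [this, TR_zero]

lemma gamL_single_tri (i : Fin g) (k : Fin n) :
    gamL i (Pi.single (i, .inr (.inr (.inr k))) 1) =
      Matrix.single k.castSucc (Fin.last n) 1 + Matrix.single (Fin.last n) (Fin.last n) 1
        - Matrix.single k.castSucc k.castSucc 1 - Matrix.single (Fin.last n) k.castSucc 1 := by
  change gam (aJ _ i) = _
  rw [aJ_single, gam_inlG_mul]
  simp only [reduceCtorEq, if_false, offP_zero, one_mul, Sum.inr.injEq, triP]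
  rw [prod_ofFn_single _ k]
  · simp only [if_true]
    set K : SLD (n + 1) := TR (lne k).symm (1 : ℂ[ε]) with hK
    have hT1 : fstG (TR (lne k) (TrivSqZeroExt.inr 1 : ℂ[ε]) : SLD (n + 1)) = 1 := by
      rw [fstG, map_TR]
      simp [TR_zero]
    have hKf : fstG K = TR (lne k).symm (1 : ℂ) := by
      rw [hK, fstG, map_TR, map_one]
    have h1 : fstG (K * TR (lne k) (TrivSqZeroExt.inr 1 : ℂ[ε]) * K⁻¹) = 1 := by
      rw [map_mul, map_mul, map_inv, hT1, mul_one, mul_inv_cancel]
    have hg' : ∀ y : SLD (n + 1), fstG y = 1 → gam y = sndM (y : MD (n + 1)) := fun y hy => by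
      rw [gam, hy, inv_one, oneC, Matrix.one_mul]
    rw [hg' _ h1, sndM_conj _ _ hT1, ← hg' _ hT1, gam_TR_eps, hKf,
      show (TR (lne k).symm (1 : ℂ) : SLC (n + 1))⁻¹ = TR (lne k).symm (-1) from
        SpecialLinearGroup.transvection_inv _ _, coe_TR, coe_TR]
    have h1' := lne k
    have h2' := h1'.symm
    have hneg : ∀ a b : Fin (n + 1),
        Matrix.single a b (-1 : ℂ) = -Matrix.single a b (1 : ℂ) := by
      intro a b
      ext x y
      simp only [Matrix.neg_apply, Matrix.single_apply]
      split_ifs <;> simp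
    simp only [Matrix.add_mul, Matrix.mul_add, one_mul, mul_one, Matrix.single_mul_single_same,
      hneg, Matrix.mul_neg, Matrix.neg_mul]
    abel
  · intro j hj
    simp [hj.symm, TR_zero]

end single

lemma aJ_eq_of_row (u v : Fin g × PIdx n → ℂ) (i : Fin g) (h : ∀ k, u (i, k) = v (i, k)) :
    aJ u i = aJ v i := by
  simp only [aJ, h]

lemma gamL_of_row_zero (v : Fin g × PIdx n → ℂ) (i : Fin g) (h : ∀ k, v (i, k) = 0) :
    gamL i v = 0 := by
  rw [← map_zero (gamL (g := g) (n := n) i)]
  exact congrArg gam (aJ_eq_of_row v 0 i h)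

lemma gamL_surj (u : Fin g → MC (n + 1)) (hu : ∀ i, (u i).trace = 0) :
    ∃ v, ∀ i, gamL (g := g) (n := n) i v = u i := by
  classical
  have h : ∀ i, ∃ w : PIdx n → ℂ, gamL (g := g) (n := n) i
      (fun p => if p.1 = i then w p.2 else 0) = u i := by
    intro i
    let emb : (PIdx n → ℂ) →ₗ[ℂ] (Fin g × PIdx n → ℂ) :=
      { toFun := fun w p => if p.1 = i then w p.2 else 0
        map_add' := fun a b => by funext p; by_cases hp : p.1 = i <;> simp [hp]
        map_smul' := fun c a => by funext p; by_cases hp : p.1 = i <;> simp [hp] }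
    have hsingle : ∀ k, emb (Pi.single k 1) = Pi.single (i, k) 1 := by
      intro k
      funext p
      obtain ⟨a, b⟩ := p
      rcases eq_or_ne a i with rfl | ha
      · rcases eq_or_ne b k with rfl | hb
        · simp [emb]
        · simp [emb, hb]
      · simp [emb, ha]
    obtain ⟨w, hw⟩ := range_supset_traceless ((gamL i).comp emb)
      (fun p => by rw [LinearMap.comp_apply, hsingle, gamL_single_off])
      (fun k => by rw [LinearMap.comp_apply, hsingle, gamL_single_tri]) (hu i)
    exact ⟨w, hw⟩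
  choose w hw using h
  refine ⟨fun p => w p.1 p.2, fun i => ?_⟩
  rw [← hw i]
  exact congrArg gam (aJ_eq_of_row _ _ i (fun k => by simp))

lemma sndM_cm {A : Fin g → SLC (n + 1)} {c : Tup g (SLD (n + 1))} (hc : Over A c) (i : Fin g) :
    fstG (cm (c i)) = 1 ∧ sndM ((cm (c i) : SLD (n + 1)) : MD (n + 1)) =
      (A i : MC (n + 1)) * sndM ((c i).2 : MD (n + 1)) * (((A i)⁻¹ : SLC (n + 1)) : MC (n + 1)) -
        sndM ((c i).2 : MD (n + 1)) := by
  have hb := hc.fst_b i
  refine ⟨by simp [cm, hb], ?_⟩
  rw [cm, sndM_mul_of_fst_one _ _ (by simp [hb]) (by simp [hb]), sndM_conj _ _ hb,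
    sndM_inv_of_fst_one _ hb, hc.fst_a i, sub_eq_add_neg]

lemma sum_conj_eq_zero {A : Fin g → SLC (n + 1)} {c : Tup g (SLD (n + 1))} (hc : Over A c)
    (hrel : rel c = 1) :
    ∑ i, ((A i : MC (n + 1)) * sndM ((c i).2 : MD (n + 1)) *
        (((A i)⁻¹ : SLC (n + 1)) : MC (n + 1)) - sndM ((c i).2 : MD (n + 1))) = 0 := by
  have key : ∀ {m : ℕ} (f : Fin m → SLD (n + 1)), (∀ i, fstG (f i) = 1) →
      fstG (List.ofFn f).prod = 1 ∧ sndM (((List.ofFn f).prod : SLD (n + 1)) : MD (n + 1)) =
        ∑ i, sndM (f i : MD (n + 1)) := by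
    intro m
    induction m with
    | zero => exact fun f _ => ⟨by simp, by simp [oneD, sndM_one]⟩
    | succ m ih =>
      intro f hf
      obtain ⟨h1, h2⟩ := ih (fun i => f i.succ) (fun i => hf _)
      rw [List.ofFn_succ, List.prod_cons, Fin.sum_univ_succ]
      exact ⟨by rw [map_mul, hf, h1, one_mul],
        by rw [sndM_mul_of_fst_one _ _ (hf 0) h1, h2]⟩
  have h := (key (fun i => cm (c i)) (fun i => (sndM_cm hc i).1)).2
  rw [← rel, hrel, oneD, sndM_one] at h
  rw [h]
  exact Finset.sum_congr rfl fun i _ => (sndM_cm hc i).2.symm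

/-- Finitely many moves such that twist flows along them realise all tangent vectors. -/
theorem exists_full_family (hg : 3 ≤ g) (o : Fin g) :
    ∃ (N : ℕ) (φ : Fin N → List (Move g)), ∀ c : Tup g (SLD (n + 1)),
      Over (baseA g n) c → rel c = 1 →
        ∃ v : PSp g n N, jt (baseθ g n N) v (fam o φ N) = c := by
  classical
  obtain ⟨b, hb, hspan, hli⟩ :=
    exists_linearIndependent ℂ (Set.range (trL (g := g) (n := n) o))
  haveI : Fintype b := hli.setFinite.fintype
  set N := Fintype.card b with hN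
  have hφ : ∀ l : Fin N, ∃ L, trL (n := n) o L =
      (((Fintype.equivFin b).symm l : b) : (Fin g × PIdx n → ℂ) →ₗ[ℂ] ℂ) :=
    fun l => hb ((Fintype.equivFin b).symm l).2
  choose φ hφ using hφ
  refine ⟨N, φ, fun c hc hrel => ?_⟩
  -- the functional given by `c`
  let Φ : (Fin g × PIdx n → ℂ) →ₗ[ℂ] ℂ :=
    { toFun := fun u => pair c (flat (aJ u))
      map_add' := fun u u' => by
        simp only [pair, flat, ← Finset.sum_add_distrib, ← Matrix.trace_add, ← Matrix.mul_add]
        exact Finset.sum_congr rfl fun i _ => by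
          rw [show gam (aJ (u + u') i) = gam (aJ u i) + gam (aJ u' i) from (gamL i).map_add u u']
      map_smul' := fun s u => by
        simp only [pair, flat, smul_eq_mul, RingHom.id_apply, Finset.mul_sum]
        exact Finset.sum_congr rfl fun i _ => by
          rw [show gam (aJ (s • u) i) = s • gam (aJ u i) from (gamL i).map_smul s u,
            Matrix.mul_smul, Matrix.trace_smul, smul_eq_mul] }
  have hker : ⨅ l : Fin N, LinearMap.ker (trL (n := n) o (φ l)) ≤ LinearMap.ker Φ := by
    intro u hu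
    rw [Submodule.mem_iInf] at hu
    have hall : ∀ L, trL o L u = 0 := by
      intro L
      have hL : trL (n := n) o L ∈ Submodule.span ℂ b := by
        rw [hspan]; exact Submodule.subset_span ⟨L, rfl⟩
      have hle : Submodule.span ℂ b ≤ LinearMap.ker (LinearMap.applyₗ u :
          ((Fin g × PIdx n → ℂ) →ₗ[ℂ] ℂ) →ₗ[ℂ] ℂ) := by
        rw [Submodule.span_le]
        intro x hx
        obtain ⟨l, hl⟩ := (Fintype.equivFin b).symm.surjective ⟨x, hx⟩
        have h1 := hu l
        rw [LinearMap.mem_ker, hφ l, hl] at h1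
        exact h1
      exact hle hL
    have hzero : ∀ L : List (Move g),
        (((acts L (flat (aJ u)) ⟨0, by omega⟩).1 : SLD (n + 1)) : MD (n + 1)).trace.snd = 0 := by
      intro L
      obtain ⟨L', hL'⟩ := exists_acts_perm (Equiv.swap o (⟨0, by omega⟩ : Fin g))
      have h := hall (L ++ L')
      change ((((acts (L ++ L') (flat (aJ u))) o).1 : SLD (n + 1)) : MD (n + 1)).trace.snd = 0 at h
      rw [acts_append, acts_flat L, hL'] at h
      rw [acts_flat L]
      simpa [flat] using h
    obtain ⟨Y, hY⟩ := coboundary_of_trace_jets n.succ_pos hg (baseA g n) (adjoin_baseA hg)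
      (aJ u) (fstG_aJ u) hzero
    rw [LinearMap.mem_ker]
    change pair c (flat (aJ u)) = 0
    have h0 := sum_conj_eq_zero hc hrel
    have h1 := congrArg (fun M => (M * Y).trace) h0
    simp only [Finset.sum_mul, Matrix.trace_sum, Matrix.zero_mul, Matrix.trace_zero] at h1
    rw [← h1]
    simp only [pair, flat, hY]
    refine Finset.sum_congr rfl fun i _ => ?_
    simp only [Matrix.mul_sub, Matrix.sub_mul, Matrix.trace_sub, Matrix.mul_assoc]
    congr 1
    conv_rhs => rw [Matrix.trace_mul_comm]
    simp only [Matrix.mul_assoc]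
  obtain ⟨t, ht⟩ := (Submodule.mem_span_range_iff_exists_fun ℂ).1
    (mem_span_of_iInf_ker_le_ker hker)
  set θ0 := baseθ g n N
  have hovJ : ∀ v : PSp g n N, Over (baseA g n) (jt θ0 v (fam o φ N)) := fun v => over_jt_fam v N
  -- adjust the `a`-part
  have hlinA : ∀ (v w : PSp g n N) (i : Fin g),
      gam (jt θ0 (v + w) (fam o φ N) i).1 =
        gam (jt θ0 v (fam o φ N) i).1 + gam (jt θ0 w (fam o φ N) i).1 := by
    intro v w i
    have h : sndM ((jt θ0 (v + w) (fam (n := n) o φ N) i).1 : MD (n + 1)) =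
        sndM ((jt θ0 v (fam o φ N) i).1 : MD (n + 1)) +
          sndM ((jt θ0 w (fam o φ N) i).1 : MD (n + 1)) := by
      ext a b
      simp only [Matrix.add_apply, jt, tmap, sndM_jetG, map_add]
    simp only [gam, (hovJ _).fst_a, h, Matrix.mul_add]
  set v1 : PSp g n N := Sum.elim 0 t with hv1
  obtain ⟨x, hx⟩ := gamL_surj (g := g) (n := n)
    (fun i => gam (c i).1 - gam (jt θ0 v1 (fam o φ N) i).1)
    (fun i => by simp only [Matrix.trace_sub, trace_gam, sub_zero])
  set v2 : PSp g n N := Sum.elim x 0 with hv2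
  have hv2a : ∀ i, gam (jt θ0 v2 (fam o φ N) i).1 = gamL i x := by
    intro i
    have hline : ∀ s : ℂ, pt (θ0 + s • v2) (fam o φ N) = pt (θ0 + s • v2) (S0 g n N) :=
      fun s => pt_fam_zero_times _ (fun l => by simp [θ0, baseθ, hv2]) N
    have key : sndM ((jt θ0 v2 (fam (n := n) o φ N) i).1 : MD (n + 1)) =
        sndM ((jt θ0 v2 (S0 g n N) i).1 : MD (n + 1)) := by
      ext a b
      simp only [jt, tmap, sndM_jetG]
      have hd : ∀ S : Tup g (SLR n (AnFun (PSp g n N))), HasDerivAt
          (fun s : ℂ => ((evalG (θ0 + s • v2) (S i).1 : SLC (n + 1)) : MC (n + 1)) a b)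
          (fderiv ℂ (fun θ => ((evalG θ (S i).1 : SLC (n + 1)) : MC (n + 1)) a b) θ0 v2) 0 := by
        intro S
        have h1 : HasDerivAt (fun s : ℂ => θ0 + s • v2) v2 0 := by
          simpa using ((hasDerivAt_id (0 : ℂ)).smul_const v2).const_add θ0
        have h2 := (AnFun.differentiableAt
          (((S i).1 : SLR n (AnFun (PSp g n N))) a b) θ0).hasFDerivAt
        refine HasFDerivAt.comp_hasDerivAt (x := (0 : ℂ))
          (l := fun θ => ((evalG θ (S i).1 : SLC (n + 1)) : MC (n + 1)) a b) ?_ h1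
        simp only [zero_smul, add_zero]
        exact h2
      refine (hd _).unique ((hd (S0 g n N)).congr_of_eventuallyEq ?_)
      refine Filter.Eventually.of_forall fun s => ?_
      have := congrArg Prod.fst (congrFun (hline s) i)
      exact congrArg (fun X : SLC (n + 1) => (X : MC (n + 1)) a b) this
    rw [gam, (hovJ v2).fst_a, key, jt_S0]
    change _ = gam (aJ x i)
    rw [gam, fstG_aJ]
    rfl
  refine ⟨v1 + v2, ?_⟩
  set v := v1 + v2
  have hA : ∀ i, gam (jt θ0 v (fam o φ N) i).1 = gam (c i).1 := by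
    intro i
    rw [hlinA, hv2a, hx, add_sub_cancel]
  have hB : ∀ i, sndM ((jt θ0 v (fam o φ N) i).2 : MD (n + 1)) = sndM ((c i).2 : MD (n + 1)) := by
    have hpair : ∀ u, pair (jt θ0 v (fam o φ N)) (flat (aJ u)) = pair c (flat (aJ u)) := by
      intro u
      rw [pair_fam]
      have := LinearMap.congr_fun ht u
      change _ = Φ u
      rw [← this, LinearMap.sum_apply]
      refine Finset.sum_congr rfl fun l _ => ?_
      simp [v, hv1, hv2, l.isLt]
    intro i
    have htr : ∀ y : SLD (n + 1), fstG y = 1 → (sndM (y : MD (n + 1))).trace = 0 := by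
      intro y hy
      have := trace_gam y
      rwa [gam, hy, inv_one, oneC, Matrix.one_mul] at this
    set D : MC (n + 1) := sndM ((jt θ0 v (fam o φ N) i).2 : MD (n + 1)) -
      sndM ((c i).2 : MD (n + 1)) with hD
    have hDtr : D.trace = 0 := by
      rw [hD, Matrix.trace_sub, htr _ ((hovJ v).fst_b i), htr _ (hc.fst_b i), sub_zero]
    have hDz : D = 0 := by
      refine eq_zero_of_forall_trace_mul fun X => ?_
      have hX : (D * X).trace = (D * tlp X).trace := by
        simp [tlp, Matrix.mul_sub, Matrix.trace_sub, hDtr]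
      rw [hX]
      obtain ⟨u, hu⟩ := gamL_surj (g := g) (n := n) (fun l => if l = i then tlp X else 0)
        (fun l => by split_ifs <;> simp [trace_tlp n.succ_pos])
      have := hpair u
      simp only [pair, flat] at this
      have e : ∀ l, gam (aJ u l) = if l = i then tlp X else 0 := hu
      simp only [e, mul_ite, Matrix.mul_zero, apply_ite Matrix.trace, Matrix.trace_zero,
        Finset.sum_ite_eq', Finset.mem_univ, if_true] at this
      rw [hD, Matrix.sub_mul, Matrix.trace_sub, this, sub_self]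
    exact sub_eq_zero.1 hDz
  funext i
  refine Prod.ext ?_ ?_
  · refine Subtype.ext (ext_fst_snd ?_ ?_)
    · rw [← coe_fstG, ← coe_fstG, (hovJ v).fst_a, hc.fst_a]
    · rw [sndM_coe, sndM_coe, hA, (hovJ v).fst_a, hc.fst_a]
  · refine Subtype.ext (ext_fst_snd ?_ (hB i))
    rw [← coe_fstG, ← coe_fstG, (hovJ v).fst_b, hc.fst_b]

end Vale.Agent.P002.Surface
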