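import Mathlib
import Vale.Agent.P002.CurveFamily
import Vale.Agent.P002.SurfaceTangent

/-!
At the base data, single twist flow steps together with the free handle parameters realise every
tangent vector of the space of data satisfying the relation.
-/

namespace Vale.Agent.P002.Curve

open Matrix
open Vale.Agent.P002.Surface
open scoped DualNumber

variable {f h s n : ℕ}

section jets

variable {r : ℕ}

lemma fstG_epsG (X : MC r) (hX : X.trace = 0) : fstG (epsG X hX) = 1 :=
  Subtype.ext ((fstA_oneEps X).trans oneC.symm)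

lemma sndM_epsG (X : MC r) (hX : X.trace = 0) : sndM ((epsG X hX : SLD r) : MD r) = X :=
  sndM_oneEps X

lemma eq_epsG {y : SLD r} {X : MC r} (hX : X.trace = 0) (h1 : fstG y = 1)
    (h2 : sndM (y : MD r) = X) : y = epsG X hX := by
  refine Subtype.ext (ext_fst_snd ?_ (h2.trans (sndM_epsG X hX).symm))
  rw [← coe_fstG, ← coe_fstG, h1, fstG_epsG]

lemma eq_inlG {y : SLD r} {A : SLC r} (h1 : fstG y = A) (h2 : sndM (y : MD r) = 0) :
    y = inlG A := by
  refine Subtype.ext (ext_fst_snd ?_ (h2.trans (sndM_inlG A).symm))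
  rw [← coe_fstG, h1, fstA_inlG]

lemma fstG_inlG (A : SLC r) : fstG (inlG A) = A :=
  Subtype.ext (fstA_inlG A)

lemma jet_one_of_zero {y : SLD r} (h1 : fstG y = 1) (h2 : sndM (y : MD r) = 0) : y = 1 := by
  rw [eq_inlG h1 h2, map_one]

lemma sndM_inl_mul (A : SLC r) (y : SLD r) :
    sndM ((inlG A * y : SLD r) : MD r) = (A : MC r) * sndM (y : MD r) := by
  rw [mulD, sndM_mul, sndM_inlG, Matrix.zero_mul, add_zero, fstA_inlG]

lemma sndM_mul_inl (A : SLC r) (y : SLD r) :
    sndM ((y * inlG A : SLD r) : MD r) = sndM (y : MD r) * (A : MC r) := by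
  rw [mulD, sndM_mul, sndM_inlG, Matrix.mul_zero, zero_add, fstA_inlG]

lemma sndM_conj_inl (A : SLC r) {y : SLD r} (hy : fstG y = 1) :
    sndM (((inlG A)⁻¹ * y * inlG A : SLD r) : MD r) =
      ((A⁻¹ : SLC r) : MC r) * sndM (y : MD r) * (A : MC r) := by
  rw [← map_inv, sndM_mul_inl, sndM_inl_mul]

lemma sndM_mid {e e' : SLD r} (he : fstG e = 1) (he' : fstG e' = 1) (A : SLC r) :
    sndM ((e * inlG A * e' : SLD r) : MD r) =
      sndM (e : MD r) * (A : MC r) + (A : MC r) * sndM (e' : MD r) := by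
  rw [mulD, sndM_mul, sndM_mul_inl, fstA_of_fst_one he', Matrix.mul_one, mulD, map_mul,
    fstA_of_fst_one he, Matrix.one_mul, fstA_inlG]
  exact add_comm _ _

end jets

/-- the base data over the complex numbers -/
noncomputable def dat0 (B : Tup h (SLC (n + 1))) : Dat f h s (SLC (n + 1)) :=
  ⟨flat (baseA (f + 1) n), B, fun _ => 1⟩

/-- jets with constant base -/
noncomputable def datJ (B : Tup h (SLC (n + 1))) : Dat f h s (SLD (n + 1)) :=
  dmap inlG (dat0 B)

/-- constant boundary classes -/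
noncomputable def JD (Jc : Fin s → SLC (n + 1)) : Fin s → SLD (n + 1) := fun l => inlG (Jc l)

/-- tangent vector of a jet -/
noncomputable def vec (c : Dat f h s (SLD (n + 1))) : DI f h s n → ℂ := fun k => (dv c k).snd

lemma vec_apply (c : Dat f h s (SLD (n + 1))) (l : DK f h s) (a b : Fin (n + 1)) :
    vec c (l, a, b) = sndM ((acc c l : SLD (n + 1)) : MD (n + 1)) a b := rfl

lemma trace_tlp' (W : MC (n + 1)) : (tlp W).trace = 0 := trace_tlp n.succ_pos W

/-- tangent vector of a single step -/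
noncomputable def stepV (Jc : Fin s → SLC (n + 1)) (B : Tup h (SLC (n + 1)))
    (p : List (Move (f + 1)) × Tgt h s) : DI f h s n → ℂ :=
  vec (step (JD Jc) p (epsG (tlp ((crv Jc p (dat0 B) : SLC (n + 1)) : MC (n + 1))) (trace_tlp' _)) (datJ B))

/-- tangent vectors of the free handle parameters -/
noncomputable def alphaL : (Fin (f + 1) × PIdx n → ℂ) →ₗ[ℂ] (DI f h s n → ℂ) where
  toFun u k :=
    match k.1 with
    | .inl (i, false) => ((baseA (f + 1) n i : MC (n + 1)) * gamL i u) k.2.1 k.2.2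
    | _ => 0
  map_add' u v := by
    funext ⟨l, a, b⟩
    rcases l with ⟨i, _ | _⟩ | l <;> simp [Matrix.mul_add]
  map_smul' c u := by
    funext ⟨l, a, b⟩
    rcases l with ⟨i, _ | _⟩ | l <;> simp

lemma vec_free (B : Tup h (SLC (n + 1))) (u : Fin (f + 1) × PIdx n → ℂ) :
    vec (⟨flat (aJ u), tmap inlG B, fun _ => 1⟩ : Dat f h s (SLD (n + 1))) = alphaL u := by
  funext ⟨l, a, b⟩
  rw [vec_apply]
  rcases l with ⟨i, _ | _⟩ | ⟨i, _ | _⟩ | k
  · change sndM ((aJ u i : SLD (n + 1)) : MD (n + 1)) a b = _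
    rw [sndM_coe, fstG_aJ]
    rfl
  · change sndM ((1 : SLD (n + 1)) : MD (n + 1)) a b = _
    rw [oneD, sndM_one]
    rfl
  · change sndM ((inlG (B i).1 : SLD (n + 1)) : MD (n + 1)) a b = _
    rw [sndM_inlG]
    rfl
  · change sndM ((inlG (B i).2 : SLD (n + 1)) : MD (n + 1)) a b = _
    rw [sndM_inlG]
    rfl
  · change sndM ((1 : SLD (n + 1)) : MD (n + 1)) a b = _
    rw [oneD, sndM_one]
    rfl

/-- the non-free part of a tangent vector -/
abbrev Rst (h s n : ℕ) := (Fin h → MC (n + 1) × MC (n + 1)) × (Fin s → MC (n + 1))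

/-- projection to the non-free part -/
def prR : (DI f h s n → ℂ) →ₗ[ℂ] Rst h s n where
  toFun v := (fun i => (Matrix.of fun a b => v (.inr (.inl (i, false)), a, b),
      Matrix.of fun a b => v (.inr (.inl (i, true)), a, b)),
    fun k => Matrix.of fun a b => v (.inr (.inr k), a, b))
  map_add' u v := rfl
  map_smul' c u := rfl

lemma prR_vec (c : Dat f h s (SLD (n + 1))) :
    prR (vec c) = (fun i => (sndM ((c.rs i).1 : MD (n + 1)), sndM ((c.rs i).2 : MD (n + 1))),
      fun k => sndM (c.P k : MD (n + 1))) := rfl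

lemma prR_alphaL (u : Fin (f + 1) × PIdx n → ℂ) : prR (alphaL u : DI f h s n → ℂ) = 0 := rfl

/-- conjugation into the position of a target -/
noncomputable def adL (q : SLC (n + 1)) : MC (n + 1) →ₗ[ℂ] MC (n + 1) :=
  (LinearMap.mulLeft ℂ ((q⁻¹ : SLC (n + 1)) : MC (n + 1))).comp
    (LinearMap.mulRight ℂ (q : MC (n + 1)))

lemma adL_apply (q : SLC (n + 1)) (X : MC (n + 1)) :
    adL q X = ((q⁻¹ : SLC (n + 1)) : MC (n + 1)) * X * (q : MC (n + 1)) := by
  simp [adL, Matrix.mul_assoc]

/-- linearised effect of a twist on the non-free part -/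
noncomputable def twistL (Jc : Fin s → SLC (n + 1)) (B : Tup h (SLC (n + 1))) :
    Tgt h s → (MC (n + 1) →ₗ[ℂ] Rst h s n)
  | .self => 0
  | .h1 i => (LinearMap.inl ℂ _ _).comp ((LinearMap.single ℂ _ i).comp
      (((LinearMap.mulLeft ℂ ((B i).1 : MC (n + 1)) -
          LinearMap.mulRight ℂ ((B i).1 : MC (n + 1))).prod
        (LinearMap.mulLeft ℂ ((B i).2 : MC (n + 1)))).comp
          (adL ((Tgt.h1 i).pos Jc (dat0 B : Dat 0 h s (SLC (n + 1)))))))
  | .h2 i => (LinearMap.inl ℂ _ _).comp ((LinearMap.single ℂ _ i).comp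
      (((-LinearMap.mulRight ℂ ((B i).1 : MC (n + 1))).prod 0).comp
          (adL ((Tgt.h2 i).pos Jc (dat0 B : Dat 0 h s (SLC (n + 1)))))))
  | .bd k => (LinearMap.inr ℂ _ _).comp ((LinearMap.single ℂ _ k).comp
      (-adL ((Tgt.bd k).pos Jc (dat0 B : Dat 0 h s (SLC (n + 1))))))

lemma pos_dat0 (Jc : Fin s → SLC (n + 1)) (B : Tup h (SLC (n + 1))) (t : Tgt h s)
    (q : Tup (f + 1) (SLC (n + 1))) :
    t.pos Jc (⟨q, B, fun _ => 1⟩ : Dat f h s (SLC (n + 1))) =
      t.pos Jc (dat0 B : Dat 0 h s (SLC (n + 1))) := by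
  cases t <;> rfl

theorem prR_step (Jc : Fin s → SLC (n + 1)) (B : Tup h (SLC (n + 1)))
    (p : List (Move (f + 1)) × Tgt h s) (X : MC (n + 1)) (hX : X.trace = 0) :
    prR (vec (step (JD Jc) p (epsG X hX) (datJ B))) = twistL Jc B p.2 X := by
  have hz : ∀ x : SLC (n + 1), sndM ((inlG x : SLD (n + 1)) : MD (n + 1)) = 0 := sndM_inlG
  have hd : dacts p.1 (datJ B : Dat f h s (SLD (n + 1))) = dmap inlG (dacts p.1 (dat0 B)) := by
    rw [datJ, dacts_map]
  rw [prR_vec, step]
  simp only [dacts]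
  obtain ⟨L, t⟩ := p
  simp only at hd ⊢
  set e : SLD (n + 1) := epsG X hX with he
  have he1 : fstG e = 1 := fstG_epsG X hX
  have he2 : sndM (e : MD (n + 1)) = X := sndM_epsG X hX
  have hq : ∀ i, fstG (((inlG i : SLD (n + 1)))⁻¹ * e * inlG i) = 1 := fun i => by
    simp [he1]
  have hq' : ∀ i, fstG (((inlG i : SLD (n + 1)))⁻¹ * e⁻¹ * inlG i) = 1 := fun i => by
    simp [he1]
  have he1' : fstG e⁻¹ = 1 := by simp [he1]
  have hp : t.pos (JD Jc) (dacts L (datJ B : Dat f h s (SLD (n + 1)))) =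
      inlG (t.pos Jc (dat0 B : Dat 0 h s (SLC (n + 1)))) := by
    rw [hd, show JD Jc = fun l => inlG (Jc l) from rfl, Tgt.pos_map]
    exact congrArg inlG (pos_dat0 Jc B t _)
  simp only [dacts] at hp
  cases t with
  | self =>
    simp only [Tgt.twist, twistL, LinearMap.zero_apply]
    refine Prod.ext (funext fun i => ?_) (funext fun k => ?_)
    · exact Prod.ext (hz _) (hz _)
    · exact hz _
  | h1 i =>
    simp only [Tgt.twist, twistL, LinearMap.comp_apply, LinearMap.inl_apply]
    refine Prod.ext ?_ (funext fun k => hz _)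
    funext l
    rcases eq_or_ne l i with rfl | hl
    · simp only [Function.update_self, hp, LinearMap.coe_single, Pi.single_eq_same,
        LinearMap.prod_apply, Function.prod_apply, LinearMap.sub_apply, LinearMap.mulLeft_apply,
        LinearMap.mulRight_apply, adL_apply]
      rw [show ((datJ B : Dat f h s (SLD (n + 1))).rs l) = (inlG (B l).1, inlG (B l).2) from rfl]
      refine Prod.ext ?_ ?_
      · simp only
        rw [sndM_mid (hq' _) (hq _), sndM_conj_inl _ he1', sndM_conj_inl _ he1,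
          sndM_inv_of_fst_one _ he1, he2]
        simp only [Matrix.mul_neg, Matrix.neg_mul]
        abel
      · simp only
        rw [sndM_inl_mul, sndM_conj_inl _ he1, he2]
    · simp only [Function.update_of_ne hl, LinearMap.coe_single, Pi.single_eq_of_ne hl]
      exact Prod.ext (hz _) (hz _)
  | h2 i =>
    simp only [Tgt.twist, twistL, LinearMap.comp_apply, LinearMap.inl_apply]
    refine Prod.ext ?_ (funext fun k => hz _)
    funext l
    rcases eq_or_ne l i with rfl | hl
    · simp only [Function.update_self, hp, LinearMap.coe_single, Pi.single_eq_same,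
        LinearMap.prod_apply, Function.prod_apply, LinearMap.neg_apply, LinearMap.zero_apply,
        LinearMap.mulRight_apply, adL_apply]
      rw [show ((datJ B : Dat f h s (SLD (n + 1))).rs l) = (inlG (B l).1, inlG (B l).2) from rfl]
      refine Prod.ext ?_ (hz _)
      simp only
      rw [sndM_mul_inl, sndM_conj_inl _ he1', sndM_inv_of_fst_one _ he1, he2]
      simp only [Matrix.mul_neg, Matrix.neg_mul]
    · simp only [Function.update_of_ne hl, LinearMap.coe_single, Pi.single_eq_of_ne hl]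
      exact Prod.ext (hz _) (hz _)
  | bd k =>
    simp only [Tgt.twist, twistL, LinearMap.comp_apply, LinearMap.inr_apply]
    refine Prod.ext (funext fun i => Prod.ext (hz _) (hz _)) ?_
    funext l
    rcases eq_or_ne l k with rfl | hl
    · simp only [Function.update_self, hp, LinearMap.coe_single, Pi.single_eq_same,
        LinearMap.neg_apply, adL_apply]
      rw [show ((datJ B : Dat f h s (SLD (n + 1))).P l) = 1 from map_one _, mul_one,
        sndM_conj_inl _ he1', sndM_inv_of_fst_one _ he1, he2]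
      simp only [Matrix.mul_neg, Matrix.neg_mul]
    · simp only [Function.update_of_ne hl, LinearMap.coe_single, Pi.single_eq_of_ne hl]
      exact hz _

lemma aacts_monoid (hg : 2 ≤ f) {x : MC (n + 1)}
    (hx : x ∈ Submonoid.closure ({((baseA (f + 1) n ⟨1, by omega⟩ : SLC (n + 1)) : MC (n + 1)),
      ((baseA (f + 1) n ⟨2, by omega⟩ : SLC (n + 1)) : MC (n + 1))} : Set (MC (n + 1)))) :
    ∃ L : List (Move (f + 1)),
      ((aacts L (baseA (f + 1) n) (Fin.last f) : SLC (n + 1)) : MC (n + 1)) = x := by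
  set o : Fin (f + 1) := ⟨0, by omega⟩ with ho
  have h0 : baseA (f + 1) n o = 1 := by
    simp [baseA, par, baseC, ho, upP_zero, lowP_zero, diagP_zero, offP_zero, triP_zero]
  suffices ∃ (L : List (Move (f + 1))) (v : SLC (n + 1)), (v : MC (n + 1)) = x ∧
      acts L (flat (baseA (f + 1) n)) = flat (Function.update (baseA (f + 1) n) o v) by
    obtain ⟨L, v, hv, hL⟩ := this
    obtain ⟨L', hL'⟩ := exists_acts_perm (Equiv.swap (Fin.last f) o)
    refine ⟨L ++ L', ?_⟩
    have e : acts (L ++ L') (flat (baseA (f + 1) n)) =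
        flat (Function.update (baseA (f + 1) n) o v ∘ Equiv.swap (Fin.last f) o) := by
      rw [acts_append, hL, hL']
    rw [acts_flat] at e
    rw [show aacts (L ++ L') (baseA (f + 1) n) (Fin.last f) = v from
      (congrArg Prod.fst (congrFun e (Fin.last f))).trans (by simp [flat]), hv]
  induction hx using Submonoid.closure_induction_right with
  | one => exact ⟨[], 1, oneC, by rw [acts_nil, ← h0, Function.update_eq_self]⟩
  | mul_right x hx y hy ih =>
    obtain ⟨L, v, hv, hL⟩ := ih
    obtain ⟨l, hl, hly⟩ : ∃ l, o ≠ l ∧ y = (baseA (f + 1) n l : MC (n + 1)) := by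
      rcases hy with rfl | rfl
      · exact ⟨⟨1, by omega⟩, by simp [ho], rfl⟩
      · exact ⟨⟨2, by omega⟩, by simp [ho], rfl⟩
    obtain ⟨L', hL'⟩ := exists_acts_mul (by omega : 2 ≤ f + 1) hl
    refine ⟨L ++ L', v * baseA (f + 1) n l, by rw [mulC, hv, hly], ?_⟩
    rw [acts_append, hL, hL']
    congr 1
    simp [Function.update_of_ne hl.symm]

lemma crv_dat0 (Jc : Fin s → SLC (n + 1)) (B : Tup h (SLC (n + 1)))
    (p : List (Move (f + 1)) × Tgt h s) :
    crv Jc p (dat0 B) = aacts p.1 (baseA (f + 1) n) (Fin.last f) *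
      p.2.Z Jc (dat0 B : Dat f h s (SLC (n + 1))) := by
  rw [crv, Tgt.curve, dat0]
  simp only [dacts, acts_flat]
  rw [Tgt.Z_congr Jc p.2 (d := (⟨flat (aacts p.1 (baseA (f + 1) n)), B, fun _ => 1⟩ :
    Dat f h s (SLC (n + 1)))) (d' := (⟨flat (baseA (f + 1) n), B, fun _ => 1⟩ :
    Dat f h s (SLC (n + 1)))) rfl rfl]
  rfl

/-- twists realise every non-free tangent vector of the allowed shape -/
lemma twistL_mem (hg : 2 ≤ f) (Jc : Fin s → SLC (n + 1)) (B : Tup h (SLC (n + 1)))
    (Sp : Submodule ℂ (DI f h s n → ℂ)) (hSp : ∀ p, stepV Jc B p ∈ Sp) (t : Tgt h s)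
    (Y : MC (n + 1)) (hY : Y.trace = 0) : twistL Jc B t Y ∈ Sp.map prR := by
  let tl : MC (n + 1) →ₗ[ℂ] MC (n + 1) :=
    { toFun := tlp
      map_add' := fun X Y => by simp only [tlp, Matrix.trace_add, add_div, add_smul]; abel
      map_smul' := fun c X => by
        simp only [tlp, Matrix.trace_smul, smul_eq_mul, RingHom.id_apply, smul_sub, smul_smul,
          mul_div_assoc] }
  set Z : SLC (n + 1) := t.Z Jc (dat0 B : Dat f h s (SLC (n + 1))) with hZ
  set K : Submodule ℂ (MC (n + 1)) :=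
    (Sp.map prR).comap ((twistL Jc B t).comp (tl.comp (LinearMap.mulRight ℂ (Z : MC (n + 1)))))
    with hK
  have hall : ∀ x : MC (n + 1), x ∈ K := by
    intro x
    have hx : x ∈ Algebra.adjoin ℂ ({((baseA (f + 1) n ⟨1, by omega⟩ : SLC (n + 1)) : MC (n + 1)),
        ((baseA (f + 1) n ⟨2, by omega⟩ : SLC (n + 1)) : MC (n + 1))} : Set (MC (n + 1))) := by
      rw [adjoin_baseA (by omega : 3 ≤ f + 1)]; trivial
    rw [← Subalgebra.mem_toSubmodule, Algebra.adjoin_eq_span] at hx
    refine (Submodule.span_le.2 ?_ : _ ≤ K) hx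
    intro y hy
    obtain ⟨L, hL⟩ := aacts_monoid hg hy
    rw [SetLike.mem_coe, hK, Submodule.mem_comap]
    have := Submodule.mem_map_of_mem (f := prR) (hSp (L, t))
    rw [stepV, prR_step, crv_dat0, mulC, hL] at this
    exact this
  have := hall (Y * ((Z⁻¹ : SLC (n + 1)) : MC (n + 1)))
  rw [hK, Submodule.mem_comap] at this
  simp only [LinearMap.comp_apply, LinearMap.mulRight_apply, Matrix.mul_assoc, coe_inv_mul_SLC,
    Matrix.mul_one] at this
  have e : tl Y = Y := by
    change tlp Y = Y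
    simp [tlp, hY]
  rwa [e] at this

/-- every non-free tangent vector is realised by twists -/
lemma prR_mem (hg : 2 ≤ f) (Jc : Fin s → SLC (n + 1)) (B : Tup h (SLC (n + 1)))
    (Sp : Submodule ℂ (DI f h s n → ℂ)) (hSp : ∀ p, stepV Jc B p ∈ Sp)
    (c : Dat f h s (SLD (n + 1))) (hc : dmap fstG c = dat0 B) : prR (vec c) ∈ Sp.map prR := by
  classical
  have hr : ∀ i, fstG (c.rs i).1 = (B i).1 ∧ fstG (c.rs i).2 = (B i).2 := fun i =>
    ⟨congrArg Prod.fst (congrFun (congrArg Dat.rs hc) i),
      congrArg Prod.snd (congrFun (congrArg Dat.rs hc) i)⟩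
  have hP : ∀ k, fstG (c.P k) = 1 := fun k => congrFun (congrArg Dat.P hc) k
  have hinv : ∀ (q : SLC (n + 1)) (Y : MC (n + 1)),
      adL q ((q : MC (n + 1)) * Y * ((q⁻¹ : SLC (n + 1)) : MC (n + 1))) = Y := by
    intro q Y
    simp only [adL_apply, Matrix.mul_assoc, coe_inv_mul_SLC, Matrix.mul_one, inv_mul_mul_SLC]
  have htr : ∀ (q : SLC (n + 1)) (Y : MC (n + 1)), Y.trace = 0 →
      ((q : MC (n + 1)) * Y * ((q⁻¹ : SLC (n + 1)) : MC (n + 1))).trace = 0 := by
    intro q Y hY
    rw [Matrix.trace_mul_comm, ← Matrix.mul_assoc, coe_inv_mul_SLC, Matrix.one_mul, hY]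
  have key : prR (vec c) =
      (∑ i, ((Pi.single i (sndM ((c.rs i).1 : MD (n + 1)), sndM ((c.rs i).2 : MD (n + 1))) :
          Fin h → MC (n + 1) × MC (n + 1)), (0 : Fin s → MC (n + 1)))) +
        ∑ k, ((0 : Fin h → MC (n + 1) × MC (n + 1)),
          (Pi.single k (sndM (c.P k : MD (n + 1))) : Fin s → MC (n + 1))) := by
    rw [prR_vec]
    refine Prod.ext ?_ ?_
    · simp only [Prod.fst_add, Prod.fst_sum, Finset.sum_const_zero, add_zero]
      exact (Finset.univ_sum_single _).symm
    · simp only [Prod.snd_add, Prod.snd_sum, Finset.sum_const_zero, zero_add]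
      exact (Finset.univ_sum_single _).symm
  rw [key]
  refine add_mem (sum_mem fun i _ => ?_) (sum_mem fun k _ => ?_)
  · set a : SLC (n + 1) := (B i).1 with ha
    set Y : MC (n + 1) := gam (c.rs i).2 with hYd
    set δa : MC (n + 1) := sndM ((c.rs i).1 : MD (n + 1)) with hδa
    set Y' : MC (n + 1) := -((δa - ((a : MC (n + 1)) * Y - Y * (a : MC (n + 1)))) *
      ((a⁻¹ : SLC (n + 1)) : MC (n + 1))) with hY'd
    have hY : Y.trace = 0 := trace_gam _
    have hY' : Y'.trace = 0 := by
      have h1 : (δa * ((a⁻¹ : SLC (n + 1)) : MC (n + 1))).trace = 0 := by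
        rw [Matrix.trace_mul_comm, hδa, ha, ← (hr i).1]
        exact trace_gam _
      have h2 : ((a : MC (n + 1)) * Y * ((a⁻¹ : SLC (n + 1)) : MC (n + 1))).trace = 0 := htr a Y hY
      have h3 : (Y * (a : MC (n + 1)) * ((a⁻¹ : SLC (n + 1)) : MC (n + 1))).trace = 0 := by
        rw [Matrix.mul_assoc, coe_mul_inv_SLC, Matrix.mul_one, hY]
      rw [hY'd]
      simp only [Matrix.sub_mul, Matrix.trace_neg, Matrix.trace_sub, h1, h2, h3, sub_zero, neg_zero]
    set p1 := (Tgt.h1 i).pos Jc (dat0 B : Dat 0 h s (SLC (n + 1))) with hp1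
    set p2 := (Tgt.h2 i).pos Jc (dat0 B : Dat 0 h s (SLC (n + 1))) with hp2
    have h := add_mem
      (twistL_mem hg Jc B Sp hSp (.h1 i)
        ((p1 : MC (n + 1)) * Y * ((p1⁻¹ : SLC (n + 1)) : MC (n + 1))) (htr _ _ hY))
      (twistL_mem hg Jc B Sp hSp (.h2 i)
        ((p2 : MC (n + 1)) * Y' * ((p2⁻¹ : SLC (n + 1)) : MC (n + 1))) (htr _ _ hY'))
    convert h using 1
    simp only [twistL, LinearMap.comp_apply, ← hp1, ← hp2, hinv, LinearMap.inl_apply,
      Prod.mk_add_mk, add_zero, LinearMap.coe_single, ← Pi.single_add]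
    congr 2
    simp only [LinearMap.prod_apply, Function.prod_apply, LinearMap.sub_apply,
      LinearMap.mulLeft_apply, LinearMap.mulRight_apply, LinearMap.neg_apply,
      LinearMap.zero_apply, Prod.mk_add_mk, add_zero, hY'd, Matrix.neg_mul, neg_neg,
      Matrix.mul_assoc, ← ha, coe_inv_mul_SLC, Matrix.mul_one, add_sub_cancel]
    rw [hYd, sndM_coe ((c.rs i).2), (hr i).2]
  · set q := (Tgt.bd k).pos Jc (dat0 B : Dat 0 h s (SLC (n + 1))) with hq
    have hPk : sndM (c.P k : MD (n + 1)) = gam (c.P k) := by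
      rw [sndM_coe, hP k, oneC, Matrix.one_mul]
    have h := twistL_mem hg Jc B Sp hSp (.bd k)
      ((q : MC (n + 1)) * (-gam (c.P k)) * ((q⁻¹ : SLC (n + 1)) : MC (n + 1)))
      (htr _ _ (by rw [Matrix.trace_neg, trace_gam, neg_zero]))
    convert h using 1
    simp only [twistL, LinearMap.comp_apply, ← hq, LinearMap.neg_apply, hinv, LinearMap.inr_apply,
      LinearMap.coe_single, hPk, neg_neg]

/-- the old families along the free handles with one time switched on -/
lemma jt_fam_single {g N : ℕ} (o : Fin g) (φ : Fin N → List (Move g)) (l : Fin N) (j : ℕ) :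
    jt (baseθ g n N) (Pi.single (.inr l) 1) (fam o φ j) =
      if (l : ℕ) < j then acts (invs (φ l))
        (Function.update (acts (φ l) (flat fun i => inlG (baseA g n i))) o
          ((acts (φ l) (flat fun i => inlG (baseA g n i)) o).1,
            (acts (φ l) (flat fun i => inlG (baseA g n i)) o).2 *
              epsG (tlp ((aacts (φ l) (baseA g n) o : SLC (n + 1)) : MC (n + 1))) (trace_tlp' _)))
      else flat fun i => inlG (baseA g n i) := by
  classical
  induction j with
  | zero =>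
    rw [if_neg (Nat.not_lt_zero _), fam, jt_S0]
    refine congrArg flat (funext fun i => ?_)
    rw [baseA, inlG, map_par, aJ]
    refine congrArg par (funext fun k => ?_)
    simp
  | succ j ih =>
    rw [fam]
    split_ifs with h1 h2 h2
    · rw [jt_acts, jt_flowT, jt_acts, ih]
      have hv : ∀ k, ((xco (g := g) (n := n) (.inr k) : AnFun (PSp g n N)) : PSp g n N → ℂ)
          (baseθ g n N) = 0 := fun k => rfl
      have hfd : fderiv ℂ ((xco (g := g) (n := n) (.inr ⟨j, h1⟩) : AnFun (PSp g n N)) :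
          PSp g n N → ℂ) (baseθ g n N) (Pi.single (.inr l) 1) = if l = ⟨j, h1⟩ then 1 else 0 := by
        rw [← snd_jetPt, jetPt_xco]
        simp only [Pi.single_apply, Sum.inr.injEq]
        rcases eq_or_ne l ⟨j, h1⟩ with hlj | hlj
        · simp [hlj]
        · simp [hlj, Ne.symm hlj]
      have hW : evalG (baseθ g n N) ((acts (φ ⟨j, h1⟩) (fam o φ j)) o).1 =
          aacts (φ ⟨j, h1⟩) (baseA g n) o := by
        have := congrArg (fun T => (T o).1)
          (pt_acts (baseθ g n N) (φ ⟨j, h1⟩) (fam (n := n) o φ j))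
        rw [pt_fam_zero_times _ (fun l => rfl), pt_S0] at this
        refine this.trans ?_
        rw [show (base0 fun i k => baseθ g n N (.inl (i, k))) = flat (baseA g n) from rfl,
          acts_flat]
        rfl
      rcases eq_or_ne l ⟨j, h1⟩ with hl | hl
      · subst hl
        rw [if_neg (by simp)]
        congr 2
        refine congrArg₂ Prod.mk rfl (congrArg₂ (· * ·) rfl (eq_epsG _ ?_ ?_))
        · rw [fstG_jetG, evalG_expG_zero _ _ _ (hv _)]
        · rw [sndM_jetG_expG _ _ _ _ (hv _), hfd, if_pos rfl, one_smul, hW]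
      · have hlj : (l : ℕ) < j := by
          have : (l : ℕ) ≠ j := fun e => hl (Fin.ext e)
          omega
        have he1 : jetG (baseθ g n N) (Pi.single (.inr l) 1)
            (expG (xco (.inr ⟨j, h1⟩)) ((acts (φ ⟨j, h1⟩) (fam (n := n) o φ j)) o).1) = 1 :=
          jet_one_of_zero (by rw [fstG_jetG, evalG_expG_zero _ _ _ (hv _)])
            (by rw [sndM_jetG_expG _ _ _ _ (hv _), hfd, if_neg hl, zero_smul])
        rw [he1, mul_one,
          Prod.mk.eta, Function.update_eq_self, invs_acts, if_pos hlj]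
    · rw [jt_acts, jt_flowT, jt_acts, ih]
      have hl : l ≠ ⟨j, h1⟩ := fun e => h2 (by rw [e]; exact Nat.lt_succ_self j)
      have hv : ((xco (g := g) (n := n) (.inr ⟨j, h1⟩) : AnFun (PSp g n N)) : PSp g n N → ℂ)
          (baseθ g n N) = 0 := rfl
      have he1 : jetG (baseθ g n N) (Pi.single (.inr l) 1)
          (expG (xco (.inr ⟨j, h1⟩)) ((acts (φ ⟨j, h1⟩) (fam (n := n) o φ j)) o).1) = 1 :=
        jet_one_of_zero (by rw [fstG_jetG, evalG_expG_zero _ _ _ hv])
          (by
            rw [sndM_jetG_expG _ _ _ _ hv, ← snd_jetPt, jetPt_xco]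
            simp [Pi.single_apply, Ne.symm hl])
      rw [he1, mul_one, Prod.mk.eta, Function.update_eq_self,
        invs_acts, if_neg (fun e => h2 (Nat.lt_succ_of_lt e))]
    · rw [ih]
      have : (l : ℕ) < j := by have := l.isLt; omega
      rw [if_pos this]
    · rw [ih, if_neg (fun e => h2 (Nat.lt_succ_of_lt e))]

lemma vec_self_step (Jc : Fin s → SLC (n + 1)) (B : Tup h (SLC (n + 1)))
    (L : List (Move (f + 1))) :
    step (JD Jc) ((L, Tgt.self) : List (Move (f + 1)) × Tgt h s)
        (epsG (tlp ((crv Jc ((L, Tgt.self) : List (Move (f + 1)) × Tgt h s) (dat0 B) : SLC (n + 1)) : MC (n + 1))) (trace_tlp' _)) (datJ B) =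
      (⟨acts (invs L) (Function.update (acts L (flat fun i => inlG (baseA (f + 1) n i)))
          (Fin.last f) ((acts L (flat fun i => inlG (baseA (f + 1) n i)) (Fin.last f)).1,
            (acts L (flat fun i => inlG (baseA (f + 1) n i)) (Fin.last f)).2 *
              epsG (tlp ((aacts L (baseA (f + 1) n) (Fin.last f) : SLC (n + 1)) : MC (n + 1)))
                (trace_tlp' _))), tmap inlG B, fun _ => 1⟩ : Dat f h s (SLD (n + 1))) := by
  have hc : crv Jc ((L, Tgt.self) : List (Move (f + 1)) × Tgt h s) (dat0 B) =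
      aacts L (baseA (f + 1) n) (Fin.last f) := by
    rw [crv_dat0]; simp [Tgt.Z, Tgt.pos, Tgt.loop]
  have e : dacts L (datJ B : Dat f h s (SLD (n + 1))) =
      ⟨acts L (flat fun i => inlG (baseA (f + 1) n i)), tmap inlG B, fun _ => 1⟩ := by
    refine Dat.ext ?_ rfl (funext fun k => map_one _)
    simp only [dacts, datJ, dmap, dat0, tmap_flat]
  simp only [step, hc]
  rw [e]
  simp only [dacts, Tgt.twist]
  refine Dat.ext ?_ rfl rfl
  refine congrArg (acts (invs L)) (congrArg (Function.update _ _) ?_)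
  simp only [Tgt.newO, Tgt.Z, Tgt.pos, Tgt.loop, mul_one, inv_one, one_mul]
  set x := (acts L (flat fun i => inlG (baseA (f + 1) n i)) (Fin.last f)).1 with hx
  set y := (acts L (flat fun i => inlG (baseA (f + 1) n i)) (Fin.last f)).2 with hy
  set e0 := epsG (tlp ((aacts L (baseA (f + 1) n) (Fin.last f) : SLC (n + 1)) : MC (n + 1)))
    (trace_tlp' _) with he0
  have hx' : x = inlG (aacts L (baseA (f + 1) n) (Fin.last f)) := by
    rw [hx, ← tmap_flat, acts_map, acts_flat]
    rfl
  have hy' : y = 1 := by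
    rw [hy, acts_flat]
    rfl
  have hcomm : Commute x e0 := by
    refine Subtype.ext (ext_fst_snd ?_ ?_)
    · rw [mulD, mulD, map_mul, map_mul, he0, fstA_of_fst_one (fstG_epsG _ _), Matrix.mul_one,
        Matrix.one_mul]
    · rw [hx', sndM_inl_mul, sndM_mul_inl, he0, sndM_epsG]
      simp [tlp, Matrix.mul_sub, Matrix.sub_mul]
  rw [hy', one_mul, mul_one, inv_mul_cancel, one_mul, mul_assoc, hcomm.eq, ← mul_assoc,
    inv_mul_cancel, one_mul]

/-- linear map: jets of an old family, completed by constant data -/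
noncomputable def oldV {N : ℕ} (φ : Fin N → List (Move (f + 1))) :
    PSp (f + 1) n N →ₗ[ℂ] (DI f h s n → ℂ) where
  toFun v k :=
    match k.1 with
    | .inl (i, false) => sndM ((jt (baseθ (f + 1) n N) v (fam (Fin.last f) φ N) i).1 :
        MD (n + 1)) k.2.1 k.2.2
    | .inl (i, true) => sndM ((jt (baseθ (f + 1) n N) v (fam (Fin.last f) φ N) i).2 :
        MD (n + 1)) k.2.1 k.2.2
    | _ => 0
  map_add' u v := by
    funext ⟨l, a, b⟩
    rcases l with ⟨i, _ | _⟩ | l <;> simp [jt, tmap, sndM_jetG, map_add]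
  map_smul' c v := by
    funext ⟨l, a, b⟩
    rcases l with ⟨i, _ | _⟩ | l <;> simp [jt, tmap, sndM_jetG, map_smul]

lemma oldV_eq_vec {N : ℕ} (φ : Fin N → List (Move (f + 1))) (B : Tup h (SLC (n + 1)))
    (v : PSp (f + 1) n N) :
    oldV φ v = vec (⟨jt (baseθ (f + 1) n N) v (fam (Fin.last f) φ N), tmap inlG B, fun _ => 1⟩ :
      Dat f h s (SLD (n + 1))) := by
  funext ⟨l, a, b⟩
  rw [vec_apply]
  rcases l with ⟨i, _ | _⟩ | ⟨i, _ | _⟩ | k
  · rfl
  · rfl
  · exact (congrFun (congrFun (sndM_inlG (B i).1) a) b).symm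
  · exact (congrFun (congrFun (sndM_inlG (B i).2) a) b).symm
  · exact (congrFun (congrFun ((congrArg sndM oneD).trans sndM_one) a) b).symm

/-- Finitely many steps, with the free handle parameters, span the tangent space. -/
theorem exists_full_steps (hg : 2 ≤ f) (Jc : Fin s → SLC (n + 1)) (B : Tup h (SLC (n + 1)))
    (hrel : rel B * (List.ofFn Jc).prod = 1) (T0 : Submodule ℂ (DI f h s n → ℂ))
    (hT : ∀ v ∈ T0, ∃ c, dmap fstG c = dat0 B ∧ drel (JD Jc) c = 1 ∧ vec c = v)
    (hT' : ∀ c, dmap fstG c = dat0 B → drel (JD Jc) c = 1 → vec c ∈ T0) :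
    ∃ (N : ℕ) (φ : Fin N → List (Move (f + 1)) × Tgt h s), ∀ v ∈ T0,
      ∃ (t : Fin N → ℂ) (u : Fin (f + 1) × PIdx n → ℂ),
        v = (∑ l, t l • stepV Jc B (φ l)) + alphaL u := by
  classical
  obtain ⟨b, hb, hspan, hli⟩ :=
    exists_linearIndependent ℂ (Set.range (stepV (f := f) Jc B))
  haveI : Fintype b := hli.setFinite.fintype
  choose φ hφ using fun l : Fin (Fintype.card b) => hb ((Fintype.equivFin b).symm l).2
  set Sp : Submodule ℂ (DI f h s n → ℂ) :=
    Submodule.span ℂ b ⊔ LinearMap.range (alphaL (f := f) (h := h) (s := s) (n := n)) with hSp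
  have hmem : ∀ p, stepV Jc B p ∈ Sp := fun p =>
    Submodule.mem_sup_left (hspan ▸ Submodule.subset_span ⟨p, rfl⟩)
  refine ⟨Fintype.card b, φ, fun v hv => ?_⟩
  suffices h : v ∈ Sp by
    obtain ⟨x, hx, y, ⟨u, rfl⟩, rfl⟩ := Submodule.mem_sup.1 h
    have hb' : b = Set.range fun l : Fin (Fintype.card b) => stepV Jc B (φ l) := by
      ext z
      constructor
      · intro hz
        exact ⟨Fintype.equivFin b ⟨z, hz⟩, by simp [hφ]⟩
      · rintro ⟨l, rfl⟩
        simp [hφ]
    rw [hb'] at hx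
    obtain ⟨t, ht⟩ := (Submodule.mem_span_range_iff_exists_fun ℂ).1 hx
    exact ⟨t, u, by rw [ht]⟩
  obtain ⟨c, hc, hcr, rfl⟩ := hT v hv
  obtain ⟨w, hw, hwe⟩ := prR_mem hg Jc B Sp hmem c hc
  have hd0 : dmap fstG (datJ B : Dat f h s (SLD (n + 1))) = dat0 B := by
    refine Dat.ext (funext fun i => ?_) (funext fun i => ?_) (funext fun k => ?_) <;>
      simp [datJ, dmap, tmap, fstG_inlG]
  have hg0 : gma Jc (dat0 B : Dat f h s (SLC (n + 1))) = Jc := by
    funext k; simp [gma, dat0]
  have hr0 : drel (JD Jc) (datJ B : Dat f h s (SLD (n + 1))) = 1 := by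
    rw [datJ, show JD Jc = fun l => inlG (Jc l) from rfl, ← drel_map, drel, hg0]
    simp [dat0, rel_flat, hrel]
  have hSpT : Sp ≤ T0 := by
    refine sup_le (Submodule.span_le.2 fun z hz => ?_) ?_
    · obtain ⟨p, rfl⟩ := hb hz
      change vec _ ∈ T0
      refine hT' _ ?_ ?_
      · rw [← step_map, fstG_epsG, hd0, step_one]
      · rw [drel_step _ _ _ _ ?_, hr0]
        have e : crv (JD Jc) p (datJ B) = inlG (crv Jc p (dat0 B)) := crv_map inlG Jc p _
        rw [e]
        refine Subtype.ext (ext_fst_snd ?_ ?_)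
        · rw [mulD, mulD, map_mul, map_mul, fstA_of_fst_one (fstG_epsG _ _), Matrix.mul_one,
            Matrix.one_mul]
        · rw [sndM_inl_mul, sndM_mul_inl, sndM_epsG]
          simp [tlp, Matrix.mul_sub, Matrix.sub_mul]
    · rintro z ⟨u, rfl⟩
      rw [← vec_free B u]
      refine hT' _ ?_ ?_
      · refine Dat.ext (funext fun i => ?_) (funext fun i => ?_) (funext fun k => ?_)
        · simp [dmap, tmap, flat, dat0, fstG_aJ]
        · simp [dmap, tmap, dat0, fstG_inlG]
        · simp [dmap, dat0]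
      · have e : gma (JD Jc) (⟨flat (aJ u), tmap inlG B, fun _ => 1⟩ :
            Dat f h s (SLD (n + 1))) = inlG ∘ Jc := by
          funext k; simp [gma, JD]
        rw [drel, e, ← List.map_ofFn, ← map_list_prod]
        simp only [rel_flat, one_mul, ← rel_map]
        rw [← map_mul, hrel, map_one]
  have hres : vec c - w ∈ T0 := sub_mem hv (hSpT hw)
  obtain ⟨c', hc', hcr', hv'⟩ := hT _ hres
  have hp : prR (vec c') = 0 := by rw [hv', map_sub, hwe, sub_self]
  rw [prR_vec] at hp
  have hrs : c'.rs = tmap inlG B := by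
    funext i
    have h1 := congrFun (congrArg Prod.fst hp) i
    exact Prod.ext (eq_inlG (congrArg Prod.fst (congrFun (congrArg Dat.rs hc') i))
        (congrArg Prod.fst h1))
      (eq_inlG (congrArg Prod.snd (congrFun (congrArg Dat.rs hc') i)) (congrArg Prod.snd h1))
  have hP : c'.P = fun _ => 1 := funext fun k =>
    jet_one_of_zero (congrFun (congrArg Dat.P hc') k) (congrFun (congrArg Prod.snd hp) k)
  have hrel' : rel c'.fr = 1 := by
    have e : gma (JD Jc) c' = inlG ∘ Jc := by
      funext k; simp [gma, JD, hP]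
    rw [drel, e, ← List.map_ofFn, ← map_list_prod, hrs, ← rel_map, mul_assoc, ← map_mul, hrel,
      map_one, mul_one] at hcr'
    exact hcr'
  obtain ⟨M, φo, hfull⟩ := exists_full_family (n := n) (by omega : 3 ≤ f + 1) (Fin.last f)
  obtain ⟨v1, hv1⟩ := hfull c'.fr (congrArg Dat.fr hc') hrel'
  have hold : oldV φo v1 ∈ Sp := by
    rw [show v1 = Sum.elim (fun p => v1 (.inl p)) 0 +
        ∑ l, v1 (.inr l) • (Pi.single (.inr l) 1 : PSp (f + 1) n M) from ?_]
    · rw [map_add, map_sum]
      refine add_mem ?_ (sum_mem fun l _ => ?_)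
      · refine Submodule.mem_sup_right ⟨fun p => v1 (.inl p), ?_⟩
        rw [oldV_eq_vec φo B, ← vec_free B]
        congr 2
        set v0 : PSp (f + 1) n M := Sum.elim (fun p => v1 (.inl p)) 0
        have : ∀ j, jt (baseθ (f + 1) n M) v0 (fam (Fin.last f) φo j) =
            flat (aJ fun p => v1 (.inl p)) := by
          intro j
          induction j with
          | zero => rw [fam, jt_S0]; rfl
          | succ j ih =>
            rw [fam]
            split_ifs with h1
            · have hv : ((xco (g := f + 1) (n := n) (.inr ⟨j, h1⟩) : AnFun (PSp (f + 1) n M)) :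
                  PSp (f + 1) n M → ℂ) (baseθ (f + 1) n M) = 0 := rfl
              have he1 : jetG (baseθ (f + 1) n M) v0 (expG (xco (.inr ⟨j, h1⟩))
                  ((acts (φo ⟨j, h1⟩) (fam (n := n) (Fin.last f) φo j)) (Fin.last f)).1) = 1 :=
                jet_one_of_zero (by rw [fstG_jetG, evalG_expG_zero _ _ _ hv])
                  (by rw [sndM_jetG_expG _ _ _ _ hv, ← snd_jetPt, jetPt_xco]; simp [v0])
              rw [jt_acts, jt_flowT, jt_acts, ih, he1,
                mul_one, Prod.mk.eta, Function.update_eq_self, invs_acts]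
            · exact ih
        exact (this M).symm
      · rw [map_smul]
        refine Submodule.smul_mem _ _ ?_
        rw [oldV_eq_vec φo B, jt_fam_single, if_pos l.isLt, ← vec_self_step Jc B]
        exact hmem _
    · funext k
      rcases k with p | l
      · simp [Finset.sum_apply]
      · simp [Finset.sum_apply, Pi.single_apply]
  have hfin : vec c' = oldV φo v1 := by
    rw [oldV_eq_vec φo B, hv1]
    congr 1
    exact Dat.ext rfl hrs hP
  have := add_mem hw (hfin ▸ hold : vec c' ∈ Sp)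
  rwa [hv', add_sub_cancel] at this

end Vale.Agent.P002.Curve
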