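import Mathlib
import Vale.Agent.P002.CurveTangent

/-!
Representations over a subring are dense near the base data in the space of data satisfying the
relation of a punctured surface group with prescribed boundary classes.
-/

namespace Vale.Agent.P002.Curve

open Matrix Filter Topology
open Vale.Agent.P002.Surface
open scoped DualNumber

variable {f h s n : ℕ}

/-- A chart from a family which satisfies the constraints and realises all tangent vectors. -/
theorem exists_cover {κ ι E : Type*} [Fintype κ] [Fintype ι] [NormedAddCommGroup E]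
    [NormedSpace ℂ E] [FiniteDimensional ℂ E] (Cm : (κ → ℂ) → (ι → ℂ))
    (dC : (κ → ℂ) →L[ℂ] (ι → ℂ)) (F : E → κ → ℂ) (dF : E →L[ℂ] (κ → ℂ)) (θ0 : E)
    (K : ι → ℂ) (hC : HasStrictFDerivAt Cm dC (F θ0)) (hFd : HasStrictFDerivAt F dF θ0)
    (hCF : ∀ θ, Cm (F θ) = K) (hker : ∀ v, dC v = 0 → ∃ v', dF v' = v) :
    ∃ U : Set (κ → ℂ), IsOpen U ∧ F θ0 ∈ U ∧ ∀ w ∈ U, Cm w = K → ∃ θ, F θ = w := by
  set w0 := F θ0 with hw0
  set T0 : Submodule ℂ (κ → ℂ) := LinearMap.ker dC.toLinearMap with hT0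
  obtain ⟨π, hπ⟩ := T0.subtype.exists_leftInverse_of_injective (Submodule.ker_subtype T0)
  set πc : (κ → ℂ) →L[ℂ] T0 := LinearMap.toContinuousLinearMap π
  have hG : HasStrictFDerivAt (πc ∘ F) (πc.comp dF) θ0 :=
    πc.hasStrictFDerivAt.comp θ0 hFd
  have hGs : LinearMap.range (πc.comp dF : E →L[ℂ] T0).toLinearMap = ⊤ := by
    rw [LinearMap.range_eq_top]
    intro y
    obtain ⟨v', hv'⟩ := hker y (LinearMap.mem_ker.1 y.2)
    refine ⟨v', ?_⟩
    change π (dF v') = y
    rw [hv']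
    exact LinearMap.congr_fun hπ y
  have hmap := hG.map_nhds_eq_of_surj hGs
  set Φ : (κ → ℂ) → (ι → ℂ) × T0 := fun w => (Cm w, πc w) with hΦ
  have hΦd : HasStrictFDerivAt Φ (dC.prod πc) w0 := hC.prodMk πc.hasStrictFDerivAt
  have hinj : LinearMap.ker (dC.prod πc : (κ → ℂ) →L[ℂ] _).toLinearMap = ⊥ := by
    rw [LinearMap.ker_eq_bot']
    intro v hv
    have h1 : dC v = 0 := congrArg Prod.fst hv
    have h2 : π v = 0 := congrArg Prod.snd hv
    have h3 := LinearMap.congr_fun hπ ⟨v, LinearMap.mem_ker.2 h1⟩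
    change π v = ⟨v, _⟩ at h3
    rw [h2] at h3
    exact (congrArg Subtype.val h3).symm
  obtain ⟨Λ, hΛ⟩ := (dC.prod πc : (κ → ℂ) →L[ℂ] _).toLinearMap.exists_leftInverse_of_injective hinj
  set Λc : ((ι → ℂ) × T0) →L[ℂ] (κ → ℂ) := LinearMap.toContinuousLinearMap Λ
  have hh : HasStrictFDerivAt (Λc ∘ Φ)
      ((ContinuousLinearEquiv.refl ℂ (κ → ℂ) : (κ → ℂ) ≃L[ℂ] (κ → ℂ)) : (κ → ℂ) →L[ℂ] (κ → ℂ))
      w0 := by
    refine (Λc.hasStrictFDerivAt.comp w0 hΦd).congr_fderiv ?_
    exact ContinuousLinearMap.ext fun v => LinearMap.congr_fun hΛ v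
  set Sw : Set (κ → ℂ) := {w | hh.localInverse _ _ _ ((Λc ∘ Φ) w) = w} with hSw
  have hSwn : Sw ∈ 𝓝 w0 := hh.eventually_left_inverse
  have hSθ : F ⁻¹' Sw ∈ 𝓝 θ0 := hFd.continuousAt.preimage_mem_nhds hSwn
  have himg := Filter.image_mem_map (m := πc ∘ F) hSθ
  rw [hmap] at himg
  refine ⟨interior (Sw ∩ πc ⁻¹' ((πc ∘ F) '' (F ⁻¹' Sw))), isOpen_interior, ?_, ?_⟩
  · exact mem_interior_iff_mem_nhds.2
      (Filter.inter_mem hSwn (πc.continuous.continuousAt.preimage_mem_nhds himg))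
  · intro w hwU hw
    obtain ⟨hwS, θ, hθS, hθ⟩ := interior_subset hwU
    refine ⟨θ, ?_⟩
    have heq : Φ (F θ) = Φ w := Prod.ext ((hCF θ).trans hw.symm) hθ
    have e1 : hh.localInverse _ _ _ ((Λc ∘ Φ) w) = w := hwS
    have e2 : hh.localInverse _ _ _ ((Λc ∘ Φ) (F θ)) = F θ := hθS
    rw [← e1, ← e2]
    simp only [Function.comp_apply, heq]

/-- space of raw coordinates -/
abbrev DRaw (f h s n : ℕ) := DI f h s n → ℂ

/-- a coordinate function -/
noncomputable def dco (k : DI f h s n) : AnFun (DRaw f h s n) :=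
  ⟨fun w => w k, (ContinuousLinearMap.proj (R := ℂ) (φ := fun _ => ℂ) k).analyticOnNhd Set.univ⟩

lemma jetPt_dco (w v : DRaw f h s n) (k : DI f h s n) :
    jetPt w v (dco k) = TrivSqZeroExt.inl (w k) + TrivSqZeroExt.inr (v k) := by
  refine TrivSqZeroExt.ext ?_ ?_
  · simp [fst_jetPt, evalPt_apply, dco]
  · rw [snd_jetPt]
    change fderiv ℂ (fun w : DRaw f h s n => w k) w v = _
    rw [show (fun w : DRaw f h s n => w k) =
      ⇑(ContinuousLinearMap.proj (R := ℂ) (φ := fun _ => ℂ) k) from rfl,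
      ContinuousLinearMap.fderiv]
    simp

/-- a matrix of coordinates -/
noncomputable def dgen (l : DK f h s) :
    Matrix (Fin (n + 1)) (Fin (n + 1)) (AnFun (DRaw f h s n)) :=
  Matrix.of fun a b => dco (l, a, b)

/-- a commutator written with adjugates -/
noncomputable def cmM {R : Type*} [CommRing R] (A B : Matrix (Fin (n + 1)) (Fin (n + 1)) R) :
    Matrix (Fin (n + 1)) (Fin (n + 1)) R :=
  A * B * A.adjugate * B.adjugate

/-- the relation, written with adjugates -/
noncomputable def drelM (Jc : Fin s → SLC (n + 1)) :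
    Matrix (Fin (n + 1)) (Fin (n + 1)) (AnFun (DRaw f h s n)) :=
  (List.ofFn fun i => cmM (dgen (.inl (i, false))) (dgen (.inl (i, true)))).prod *
    (List.ofFn fun i => cmM (dgen (.inr (.inl (i, false)))) (dgen (.inr (.inl (i, true))))).prod *
    (List.ofFn fun k => dgen (.inr (.inr k)) *
      (Jc k : MC (n + 1)).map (algebraMap ℂ (AnFun (DRaw f h s n))) *
        (dgen (.inr (.inr k))).adjugate).prod

/-- indices of the constraints -/
abbrev DC (f h s n : ℕ) := DK f h s ⊕ (Fin (n + 1) × Fin (n + 1))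

/-- the constraints -/
noncomputable def dcon (Jc : Fin s → SLC (n + 1)) : DC f h s n → AnFun (DRaw f h s n)
  | .inl l => (dgen l).det
  | .inr (a, b) => drelM Jc a b

lemma coe_prod_ofFn {R : Type*} [CommRing R] {m : ℕ} (q : Fin m → SLR n R) :
    (((List.ofFn q).prod : SLR n R) : Matrix (Fin (n + 1)) (Fin (n + 1)) R) =
      (List.ofFn fun i => (q i : Matrix (Fin (n + 1)) (Fin (n + 1)) R)).prod := by
  induction m with
  | zero => rfl
  | succ m ih =>
    rw [List.ofFn_succ, List.prod_cons, List.ofFn_succ, List.prod_cons, ← ih]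
    rfl

lemma mulR {R : Type*} [CommRing R] (A B : SLR n R) :
    ((A * B : SLR n R) : Matrix (Fin (n + 1)) (Fin (n + 1)) R) =
      (A : Matrix (Fin (n + 1)) (Fin (n + 1)) R) * (B : Matrix (Fin (n + 1)) (Fin (n + 1)) R) :=
  rfl

lemma map_cmM {R S : Type*} [CommRing R] [CommRing S] (φ : R →+* S)
    (A B : Matrix (Fin (n + 1)) (Fin (n + 1)) R) :
    φ.mapMatrix (cmM A B) = cmM (φ.mapMatrix A) (φ.mapMatrix B) := by
  simp only [cmM, map_mul, RingHom.map_adjugate]

lemma map_dcon {R : Type*} [CommRing R] (Jc : Fin s → SLC (n + 1))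
    (φ : AnFun (DRaw f h s n) →+* R) (J' : Fin s → SLR n R)
    (hJ : ∀ k a b, φ (algebraMap ℂ (AnFun (DRaw f h s n)) ((Jc k : MC (n + 1)) a b)) = J' k a b)
    (p : Dat f h s (SLR n R)) (hp : ∀ k, φ (dco k) = dv p k) :
    (∀ l, φ (dcon Jc (.inl l)) = 1) ∧
      ∀ a b, φ (dcon Jc (.inr (a, b))) = (drel J' p : SLR n R) a b := by
  have hG : ∀ l, φ.mapMatrix (dgen l) = ((acc p l : SLR n R) : Matrix (Fin (n + 1)) (Fin (n + 1)) R) :=
    fun l => Matrix.ext fun a b => hp (l, a, b)
  refine ⟨fun l => ?_, fun a b => ?_⟩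
  · simp only [dcon, RingHom.map_det, hG]
    exact (acc p l).property
  · have hJ' : ∀ k, φ.mapMatrix ((Jc k : MC (n + 1)).map
        (algebraMap ℂ (AnFun (DRaw f h s n)))) =
          (J' k : Matrix (Fin (n + 1)) (Fin (n + 1)) R) :=
      fun k => Matrix.ext fun a b => hJ k a b
    have h : φ.mapMatrix (drelM Jc) =
        ((drel J' p : SLR n R) : Matrix (Fin (n + 1)) (Fin (n + 1)) R) := by
      simp only [drelM, map_mul, map_list_prod, List.map_ofFn, Function.comp_def, map_cmM, hG,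
        hJ', RingHom.map_adjugate]
      rw [drel, rel, rel, mulR, mulR, coe_prod_ofFn,
        coe_prod_ofFn, coe_prod_ofFn]
      rfl
    exact congrFun (congrFun h a) b

variable (R : Subring ℂ) {M N : ℕ}

/-- base parameters -/
noncomputable def baseP (f n M N : ℕ) : PS f n M N :=
  Sum.elim (fun q => Sum.elim (baseC q.1) 0 q.2) 0

lemma jetG_const (θ v : PS f n M N) (x : SLR n R) :
    jetG θ v (SpecialLinearGroup.map ((algebraMap ℂ (AnFun (PS f n M N))).comp R.subtype) x) =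
      inlG (toC R x) := by
  refine Subtype.ext (Matrix.ext fun a b => TrivSqZeroExt.ext ?_ ?_)
  · exact fst_jetPt θ v _
  · refine (snd_jetPt θ v _).trans ?_
    change fderiv ℂ (fun _ : PS f n M N => (((x : Matrix (Fin (n + 1)) (Fin (n + 1)) R) a b) : ℂ))
      θ v = _
    rw [fderiv_fun_const]
    rfl

lemma jetG_JA (J : Fin s → SLR n R) (θ v : PS f n M N) :
    (fun l => jetG θ v (JA R J l)) = JD (JC R J) :=
  funext fun l => jetG_const R θ v (J l)

lemma dpt_base_dat0 (J : Fin s → SLR n R) (B : Tup h (SLR n R)) (W : Fin M → OPair n)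
    (φ : Fin N → List (Move (f + 1)) × Tgt h s) (j : ℕ) :
    dpt (baseP f n M N) (dfam R J W B φ j) =
      (dat0 (tmap (toC R) B) : Dat f h s (SLC (n + 1))) := by
  rw [dpt_dfam_zero_times R _ (fun l => rfl)]
  refine Dat.ext (congrArg flat (funext fun i => ?_)) rfl rfl
  simp only [freeA, baseP, Sum.elim_inl, Sum.elim_inr]
  rw [show parW W (fun l => (0 : Fin M → ℂ) l) = 1 from parW_zero W, mul_one]
  rfl

lemma jet_expG {θ v : PS f n M N} {S : SLR n (AnFun (PS f n M N))} {W : SLC (n + 1)}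
    (hW : evalG θ S = W) (k : Fin N) (hθ : θ (.inr k) = 0) :
    fstG (jetG θ v (expG (pco (.inr k)) S)) = 1 ∧
      sndM ((jetG θ v (expG (pco (.inr k)) S) : SLD (n + 1)) : MD (n + 1)) =
        v (.inr k) • tlp (W : MC (n + 1)) := by
  have hz : ((pco (f := f) (n := n) (M := M) (.inr k) : AnFun (PS f n M N)) :
      PS f n M N → ℂ) θ = 0 := hθ
  refine ⟨by rw [fstG_jetG, evalG_expG_zero _ _ _ hz], ?_⟩
  rw [sndM_jetG_expG _ _ _ _ hz, hW, ← snd_jetPt, jetPt_pco]
  simp

lemma djet_fam0 (B : Tup h (SLR n R)) (W : Fin M → OPair n) (v : PS f n M N)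
    (u : Fin (f + 1) × PIdx n → ℂ) (hu : ∀ i k, v (.inl (i, .inl k)) = u (i, k))
    (hw : ∀ i l, v (.inl (i, .inr l)) = 0) :
    dmap (jetG (baseP f n M N) v) (fam0 R W B : Dat f h s (SLR n (AnFun (PS f n M N)))) =
      (⟨flat (aJ u), tmap inlG (tmap (toC R) B), fun _ => 1⟩ : Dat f h s (SLD (n + 1))) := by
  rw [fam0, jetG, dmap_base]
  refine Dat.ext (congrArg flat (funext fun i => ?_)) ?_ rfl
  · simp only [freeA, jetPt_pco, baseP, Sum.elim_inl, Sum.elim_inr, hu, hw, Pi.zero_apply,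
      TrivSqZeroExt.inl_zero, TrivSqZeroExt.inr_zero, add_zero, parW_zero, mul_one]
    rfl
  · funext i
    refine Prod.ext ?_ ?_
    · exact (Subtype.ext (Matrix.ext fun a b => rfl)).trans (jetG_const R _ _ (B i).1)
    · exact (Subtype.ext (Matrix.ext fun a b => rfl)).trans (jetG_const R _ _ (B i).2)

lemma djet_dfam (J : Fin s → SLR n R) (B : Tup h (SLR n R)) (W : Fin M → OPair n)
    (φ : Fin N → List (Move (f + 1)) × Tgt h s) (v : PS f n M N)
    (u : Fin (f + 1) × PIdx n → ℂ) (hu : ∀ i k, v (.inl (i, .inl k)) = u (i, k))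
    (hw : ∀ i l, v (.inl (i, .inr l)) = 0) (ht : ∀ l, v (.inr l) = 0) (j : ℕ) :
    dmap (jetG (baseP f n M N) v) (dfam R J W B φ j) =
      (⟨flat (aJ u), tmap inlG (tmap (toC R) B), fun _ => 1⟩ : Dat f h s (SLD (n + 1))) := by
  induction j with
  | zero => rw [dfam]; exact djet_fam0 R B W v u hu hw
  | succ j ih =>
    rw [dfam]
    split_ifs with hj
    · obtain ⟨h1, h2⟩ := jet_expG (v := v) (S := crv (JA R J) (φ ⟨j, hj⟩) (dfam R J W B φ j))
        rfl ⟨j, hj⟩ (rfl : baseP f n M N (.inr ⟨j, hj⟩) = 0)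
      rw [ht, zero_smul] at h2
      rw [← step_map, jet_one_of_zero h1 h2, step_one, ih]
    · exact ih

lemma djet_single (J : Fin s → SLR n R) (B : Tup h (SLR n R)) (W : Fin M → OPair n)
    (φ : Fin N → List (Move (f + 1)) × Tgt h s) (l : Fin N) (j : ℕ) :
    dmap (jetG (baseP f n M N) (Pi.single (.inr l) 1)) (dfam R J W B φ j) =
      if (l : ℕ) < j then step (JD (JC R J)) (φ l)
        (epsG (tlp ((crv (JC R J) (φ l) (dat0 (tmap (toC R) B)) : SLC (n + 1)) : MC (n + 1)))
          (trace_tlp' _)) (datJ (tmap (toC R) B))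
      else datJ (tmap (toC R) B) := by
  classical
  induction j with
  | zero =>
    rw [if_neg (Nat.not_lt_zero _)]
    rw [dfam, djet_fam0 R B W (Pi.single (.inr l) 1) 0 (fun i k => by simp) (fun i k => by simp)]
    refine Dat.ext ?_ rfl (funext fun k => (map_one _).symm)
    change flat _ = tmap inlG (flat _)
    rw [tmap_flat]
    refine congrArg flat (funext fun i => ?_)
    rw [baseA, inlG, map_par, aJ]
    refine congrArg par (funext fun k => ?_)
    simp
  | succ j ih =>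
    rw [dfam]
    split_ifs with hj h2 h2
    · obtain ⟨h1, h3⟩ := jet_expG (v := (Pi.single (.inr l) 1 : PS f n M N))
        (S := crv (JA R J) (φ ⟨j, hj⟩) (dfam R J W B φ j))
        (W := crv (JC R J) (φ ⟨j, hj⟩) (dat0 (tmap (toC R) B)))
        (by rw [dpt_crv, dpt_base_dat0]) ⟨j, hj⟩ (rfl : baseP f n M N (.inr ⟨j, hj⟩) = 0)
      rw [← step_map, jetG_JA, ih]
      rcases eq_or_ne l ⟨j, hj⟩ with hl | hl
      · subst hl
        rw [if_neg (by simp), Pi.single_eq_same, one_smul] at *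
        rw [eq_epsG _ h1 h3]
      · have hlj : (l : ℕ) < j := by
          have : (l : ℕ) ≠ j := fun e => hl (Fin.ext e)
          omega
        rw [Pi.single_eq_of_ne (by simp [hl.symm]), zero_smul] at h3
        rw [jet_one_of_zero h1 h3, step_one, if_pos hlj]
    · obtain ⟨h1, h3⟩ := jet_expG (v := (Pi.single (.inr l) 1 : PS f n M N))
        (S := crv (JA R J) (φ ⟨j, hj⟩) (dfam R J W B φ j))
        rfl ⟨j, hj⟩ (rfl : baseP f n M N (.inr ⟨j, hj⟩) = 0)
      have hl : l ≠ ⟨j, hj⟩ := fun e => h2 (by rw [e]; exact Nat.lt_succ_self j)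
      rw [Pi.single_eq_of_ne (by simp [hl.symm]), zero_smul] at h3
      rw [← step_map, jetG_JA, ih, jet_one_of_zero h1 h3, step_one,
        if_neg (fun e => h2 (Nat.lt_succ_of_lt e))]
    · rw [ih, if_pos (by have := l.isLt; omega)]
    · rw [ih, if_neg (fun e => h2 (Nat.lt_succ_of_lt e))]

variable {R}

/-- Density of data over the subring near the base data. -/
theorem data_dense (hg : 2 ≤ f) (hinf : (R : Set ℂ).Infinite) (J : Fin s → SLR n R)
    (B : Tup h (SLR n R)) (hB : rel B * (List.ofFn J).prod = 1) :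
    ∃ U : Set (DRaw f h s n), IsOpen U ∧
      dv (dat0 (tmap (toC R) B) : Dat f h s (SLC (n + 1))) ∈ U ∧
      ∀ P : MvPolynomial (DI f h s n) ℂ, RVanish R J P →
        ∀ d : Dat f h s (SLC (n + 1)), drel (JC R J) d = 1 → dv d ∈ U →
          MvPolynomial.eval (dv d) P = 0 := by
  classical
  set Jc := JC R J with hJc
  set Bc := tmap (toC R) B with hBc
  have hrel : rel Bc * (List.ofFn Jc).prod = 1 := by
    rw [hBc, hJc, show JC R J = toC R ∘ J from rfl, ← List.map_ofFn, ← map_list_prod, ← rel_map,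
      ← map_mul, hB, map_one]
  set w0 : DRaw f h s n := dv (dat0 Bc : Dat f h s (SLC (n + 1))) with hw0
  set dC : DRaw f h s n →L[ℂ] (DC f h s n → ℂ) :=
    ContinuousLinearMap.pi (fun k => fderiv ℂ (dcon Jc k : DRaw f h s n → ℂ) w0) with hdC
  set Cm : DRaw f h s n → (DC f h s n → ℂ) := fun w k => (dcon Jc k : DRaw f h s n → ℂ) w
  have hJe : ∀ (w : DRaw f h s n) k a b, evalPt w
      (algebraMap ℂ (AnFun (DRaw f h s n)) ((Jc k : MC (n + 1)) a b)) = Jc k a b :=
    fun w k a b => rfl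
  have hJj : ∀ (w v : DRaw f h s n) k a b, jetPt w v
      (algebraMap ℂ (AnFun (DRaw f h s n)) ((Jc k : MC (n + 1)) a b)) = JD Jc k a b := by
    intro w v k a b
    refine TrivSqZeroExt.ext ?_ ?_
    · exact fst_jetPt w v _
    · refine (snd_jetPt w v _).trans ?_
      change fderiv ℂ (fun _ : DRaw f h s n => (Jc k : MC (n + 1)) a b) w v = _
      rw [fderiv_fun_const]
      rfl
  have hCon : ∀ d : Dat f h s (SLC (n + 1)), drel Jc d = 1 →
      Cm (dv d) = Sum.elim (fun _ => (1 : ℂ))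
        (fun q : Fin (n + 1) × Fin (n + 1) => (1 : MC (n + 1)) q.1 q.2) := by
    intro d hd
    obtain ⟨h1, h2⟩ := map_dcon Jc (evalPt (dv d)) Jc (hJe _) d (fun k => rfl)
    funext k
    rcases k with l | ⟨a, b⟩
    · exact h1 l
    · refine (h2 a b).trans ?_
      rw [hd]
      rfl
  have hg0 : gma Jc (dat0 Bc : Dat f h s (SLC (n + 1))) = Jc := by
    funext k; simp [gma, dat0]
  have hd0 : drel Jc (dat0 Bc : Dat f h s (SLC (n + 1))) = 1 := by
    rw [drel, hg0]
    simp [dat0, rel_flat, hrel]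
  set T0 : Submodule ℂ (DRaw f h s n) := LinearMap.ker dC.toLinearMap with hT0
  have hsnd : ∀ v, v ∈ T0 ↔ ∀ k, (jetPt w0 v (dcon Jc k)).snd = 0 := by
    intro v
    rw [hT0, LinearMap.mem_ker]
    constructor
    · intro hv k
      rw [snd_jetPt]
      exact congrFun hv k
    · intro hv
      funext k
      have := hv k
      rw [snd_jetPt] at this
      exact this
  have hT : ∀ v ∈ T0, ∃ c, dmap fstG c = (dat0 Bc : Dat f h s (SLC (n + 1))) ∧
      drel (JD Jc) c = 1 ∧ vec c = v := by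
    intro v hv
    rw [hsnd] at hv
    have hb1 := map_dcon Jc (evalPt w0) Jc (hJe _) (dat0 Bc) (fun k => rfl)
    have hdet : ∀ l, ((jetPt w0 v).mapMatrix (dgen l)).det = 1 := by
      intro l
      rw [← RingHom.map_det]
      refine TrivSqZeroExt.ext ?_ ?_
      · rw [fst_jetPt, TrivSqZeroExt.fst_one]
        exact hb1.1 l
      · rw [TrivSqZeroExt.snd_one]
        exact hv (.inl l)
    set c : Dat f h s (SLD (n + 1)) := ofFun fun l => ⟨(jetPt w0 v).mapMatrix (dgen l), hdet l⟩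
    have hcv : ∀ k, jetPt w0 v (dco k) = dv c k := by
      rintro ⟨l, a, b⟩
      simp only [dv, ent]
      rw [show acc c = _ from acc_ofFun _]
      rfl
    have hover : dmap fstG c = dat0 Bc := by
      rw [← ofFun_acc (dmap fstG c), ← ofFun_acc (dat0 Bc : Dat f h s (SLC (n + 1))), acc_dmap]
      refine congrArg ofFun (funext fun l => Subtype.ext (Matrix.ext fun a b => ?_))
      rw [show acc c = _ from acc_ofFun _]
      exact fst_jetPt w0 v (dco (l, a, b))
    refine ⟨c, hover, ?_, ?_⟩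
    · refine Subtype.ext (Matrix.ext fun a b => ?_)
      rw [← (map_dcon Jc (jetPt w0 v) (JD Jc) (hJj w0 v) c hcv).2 a b]
      refine TrivSqZeroExt.ext ?_ ?_
      · rw [fst_jetPt, hb1.2 a b, hd0]
        rcases eq_or_ne a b with rfl | hab
        · simp [oneC, oneD]
        · simp [oneC, oneD, hab]
      · rw [hv (.inr (a, b))]
        rcases eq_or_ne a b with rfl | hab
        · simp [oneD]
        · simp [oneD, hab]
    · funext k
      change (dv c k).snd = v k
      rw [← hcv, jetPt_dco]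
      simp
  have hT' : ∀ c, dmap fstG c = (dat0 Bc : Dat f h s (SLC (n + 1))) → drel (JD Jc) c = 1 →
      vec c ∈ T0 := by
    intro c hc hr
    rw [hsnd]
    have hcv : ∀ k, jetPt w0 (vec c) (dco k) = dv c k := by
      intro k
      rw [jetPt_dco]
      refine TrivSqZeroExt.ext ?_ ?_
      · have e : (dv (dmap fstG c) k : ℂ) = (dv c k).fst := by
          rw [dv, acc_dmap]; rfl
        rw [hc] at e
        simp [hw0, e]
      · simp [vec]
    have hb := map_dcon Jc (jetPt w0 (vec c)) (JD Jc) (hJj _ _) c hcv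
    intro k
    rcases k with l | ⟨a, b⟩
    · rw [hb.1 l, TrivSqZeroExt.snd_one]
    · rw [hb.2 a b, hr, oneD]
      rcases eq_or_ne a b with rfl | hab
      · simp
      · simp [hab]
  obtain ⟨N, φ, hfull⟩ := exists_full_steps hg Jc Bc hrel T0 hT hT'
  obtain ⟨M, W, hW⟩ := exists_word (fun q : Fin N × Fin (f + 1) => targetA R J B (φ q.1) q.2)
  set θ0 := baseP f n M N with hθ0
  set S := dfam R J W B φ N with hS
  set F : PS f n M N → DRaw f h s n := fun θ => dv (dpt θ S) with hF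
  have hFc : ∀ (θ : PS f n M N) (k : DI f h s n),
      F θ k = ((dv S k : AnFun (PS f n M N)) : _ → ℂ) θ := fun θ k => dv_map (evalPt θ) S k
  set dF : PS f n M N →L[ℂ] DRaw f h s n := ContinuousLinearMap.pi
    (fun k => fderiv ℂ ((dv S k : AnFun (PS f n M N)) : _ → ℂ) θ0) with hdF
  have hFd : HasStrictFDerivAt F dF θ0 := by
    rw [hasStrictFDerivAt_pi']
    intro k
    have h := ((dv S k : AnFun (PS f n M N)).2 θ0 trivial).hasStrictFDerivAt
    rw [show (fun θ => F θ k) = ((dv S k : AnFun (PS f n M N)) : _ → ℂ) from funext (hFc · k)]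
    exact h
  have hdFv : ∀ v, dF v = vec (dmap (jetG θ0 v) S) := by
    intro v
    funext k
    change fderiv ℂ ((dv S k : AnFun (PS f n M N)) : _ → ℂ) θ0 v =
      (dv (dmap (jetG θ0 v) S : Dat f h s (SLD (n + 1))) k).snd
    rw [jetG, dv_map, snd_jetPt]
  have hF0 : F θ0 = w0 := congrArg dv (dpt_base_dat0 R J B W φ N)
  have hCd : HasStrictFDerivAt Cm dC (F θ0) := by
    rw [hF0, hasStrictFDerivAt_pi']
    intro k
    exact ((dcon Jc k).2 w0 trivial).hasStrictFDerivAt
  obtain ⟨U, hU, hU0, hcov⟩ := exists_cover Cm dC F dF θ0 _ hCd hFd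
    (fun θ => hCon _ (drel_dpt_dfam R hB θ N)) (fun v hv => by
      obtain ⟨t, u, rfl⟩ := hfull v (LinearMap.mem_ker.2 hv)
      refine ⟨Sum.elim (fun q => Sum.elim (fun k => u (q.1, k)) 0 q.2) 0 +
        ∑ l, t l • (Pi.single (.inr l) 1 : PS f n M N), ?_⟩
      rw [map_add, map_sum, add_comm]
      refine congrArg₂ (· + ·) (Finset.sum_congr rfl fun l _ => ?_) ?_
      · rw [map_smul, hdFv, hS, djet_single, if_pos l.isLt]
        rfl
      · rw [hdFv, hS, djet_dfam R J B W φ _ u (fun i k => rfl) (fun i l => rfl) (fun l => rfl),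
          vec_free])
  refine ⟨U, hU, hF0 ▸ hU0, fun P hP d hd hdU => ?_⟩
  obtain ⟨θ, hθ⟩ := hcov _ hdU (hCon d hd)
  rw [← hθ]
  exact dfam_vanish R hinf hB (fun l i => hW (l, i)) hP θ N

end Vale.Agent.P002.Curve
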