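import Mathlib
import Vale.Agent.P002.CurveMain

/-!
A conjugator close to the identity for nearby elements of a conjugacy class.
-/

namespace Vale.Agent.P002.Curve

open Matrix Filter Topology
open Vale.Agent.P002.Surface
open scoped Matrix.Norms.Operator

variable {n : ℕ}

/-- `X ↦ M X - X J` -/
noncomputable def conjL (J M : MC (n + 1)) : MC (n + 1) →ₗ[ℂ] MC (n + 1) :=
  LinearMap.mulLeft ℂ M - LinearMap.mulRight ℂ J

lemma conjL_apply (J M X : MC (n + 1)) : conjL J M X = M * X - X * J := by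
  simp [conjL]

lemma finrank_ker_conjL (J Γ : SLC (n + 1)) (h : IsConj J Γ) :
    Module.finrank ℂ (LinearMap.ker (conjL (J : MC (n + 1)) (Γ : MC (n + 1)))) =
      Module.finrank ℂ (LinearMap.ker (conjL (J : MC (n + 1)) (J : MC (n + 1)))) := by
  obtain ⟨q, hq⟩ := isConj_iff.1 h
  set e : MC (n + 1) ≃ₗ[ℂ] MC (n + 1) := LinearEquiv.ofLinear
    (LinearMap.mulLeft ℂ (q : MC (n + 1)))
    (LinearMap.mulLeft ℂ ((q⁻¹ : SLC (n + 1)) : MC (n + 1)))
    (LinearMap.ext fun X => by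
      rw [LinearMap.comp_apply, LinearMap.mulLeft_apply, LinearMap.mulLeft_apply,
        ← Matrix.mul_assoc, coe_mul_inv_SLC, Matrix.one_mul, LinearMap.id_apply])
    (LinearMap.ext fun X => inv_mul_mul_SLC q X) with he
  have hmap : (LinearMap.ker (conjL (J : MC (n + 1)) (J : MC (n + 1)))).map
      (e : MC (n + 1) →ₗ[ℂ] MC (n + 1)) =
      LinearMap.ker (conjL (J : MC (n + 1)) (Γ : MC (n + 1))) := by
    have key : ∀ X, conjL (J : MC (n + 1)) (Γ : MC (n + 1)) ((q : MC (n + 1)) * X) =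
        (q : MC (n + 1)) * conjL (J : MC (n + 1)) (J : MC (n + 1)) X := by
      intro X
      rw [conjL_apply, conjL_apply, Matrix.mul_sub, ← hq, mulC, mulC, Matrix.mul_assoc,
        inv_mul_mul_SLC, Matrix.mul_assoc, Matrix.mul_assoc]
    ext Y
    simp only [Submodule.mem_map, LinearMap.mem_ker]
    constructor
    · rintro ⟨X, hX, rfl⟩
      change conjL _ _ ((q : MC (n + 1)) * X) = 0
      rw [key, hX, Matrix.mul_zero]
    · intro hY
      refine ⟨((q⁻¹ : SLC (n + 1)) : MC (n + 1)) * Y, ?_, ?_⟩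
      · have hY' : Y = (q : MC (n + 1)) * (((q⁻¹ : SLC (n + 1)) : MC (n + 1)) * Y) := by
          rw [← Matrix.mul_assoc, coe_mul_inv_SLC, Matrix.one_mul]
        rw [hY', key] at hY
        have := congrArg (fun Z => ((q⁻¹ : SLC (n + 1)) : MC (n + 1)) * Z) hY
        simp only [inv_mul_mul_SLC, Matrix.mul_zero] at this
        exact this
      · change (q : MC (n + 1)) * _ = Y
        rw [← Matrix.mul_assoc, coe_mul_inv_SLC, Matrix.one_mul]
  rw [← hmap]
  exact LinearEquiv.finrank_map_eq e _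

theorem exists_conj_near (J : SLC (n + 1)) {V : Set (MC (n + 1))} (hV : V ∈ 𝓝 1) :
    ∀ᶠ M in 𝓝 (J : MC (n + 1)), ∀ Γ : SLC (n + 1), (Γ : MC (n + 1)) = M → IsConj J Γ →
      ∃ P : SLC (n + 1), (P : MC (n + 1)) ∈ V ∧ P * J * P⁻¹ = Γ := by
  set K0 := LinearMap.ker (conjL (J : MC (n + 1)) (J : MC (n + 1))) with hK0
  obtain ⟨S, hS⟩ := Submodule.exists_isCompl K0
  have hker : LinearMap.ker ((conjL (J : MC (n + 1)) (J : MC (n + 1))).domRestrict S) = ⊥ := by
    rw [LinearMap.ker_eq_bot']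
    intro x hx
    have h1 : (x : MC (n + 1)) ∈ K0 ⊓ S := ⟨LinearMap.mem_ker.2 hx, x.2⟩
    rw [hS.inf_eq_bot, Submodule.mem_bot] at h1
    exact Subtype.ext h1
  obtain ⟨c, hc0, hc⟩ := LinearMap.exists_antilipschitzWith _ hker
  have hlow : ∀ x ∈ S, ‖x‖ ≤ c * ‖(J : MC (n + 1)) * x - x * (J : MC (n + 1))‖ := by
    intro x hx
    have := ZeroHomClass.bound_of_antilipschitz _ hc (⟨x, hx⟩ : S)
    simpa [LinearMap.domRestrict_apply, conjL_apply] using this
  -- the scaled conjugator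
  set nrm : MC (n + 1) → MC (n + 1) :=
    fun x => (Complex.exp (-(Complex.log x.det / (n + 1)))) • x with hnrm
  have hnc : ContinuousAt nrm 1 := by
    have h1 : ContinuousAt (fun x : MC (n + 1) => x.det) 1 :=
      (Continuous.matrix_det continuous_id).continuousAt
    have h0 : ContinuousAt (fun x : MC (n + 1) => x) 1 := continuousAt_id
    refine ContinuousAt.smul (M := ℂ) ?_ h0
    refine ((ContinuousAt.clog h1 ?_).div_const ((n : ℂ) + 1)).neg.cexp
    simp [Complex.one_mem_slitPlane]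
  have hn1 : nrm 1 = 1 := by simp [hnrm]
  have hdet : ∀ x : MC (n + 1), x.det ≠ 0 → (nrm x).det = 1 := by
    intro x hx
    rw [hnrm, Matrix.det_smul, Fintype.card_fin, ← Complex.exp_nat_mul]
    rw [show ((n + 1 : ℕ) : ℂ) * -(Complex.log x.det / (n + 1)) = -Complex.log x.det by
      push_cast
      field_simp]
    rw [Complex.exp_neg, Complex.exp_log hx, inv_mul_cancel₀ hx]
  have hW : ∀ᶠ x in 𝓝 (1 : MC (n + 1)), nrm x ∈ V ∧ x.det ≠ 0 := by
    refine Filter.Eventually.and ?_ ?_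
    · exact hnc.eventually (by rwa [hn1])
    · exact (Continuous.matrix_det continuous_id).continuousAt.eventually_ne (by simp)
  obtain ⟨ε, hε, hεW⟩ := Metric.eventually_nhds_iff.1 hW
  set δ : ℝ := min (1 / (2 * ((c : ℝ) + 1))) (ε / (2 * ((c : ℝ) + 1))) with hδ
  have hc1 : (0 : ℝ) < (c : ℝ) + 1 := by positivity
  have hδ0 : 0 < δ := lt_min (by positivity) (by positivity)
  refine Metric.eventually_nhds_iff.2 ⟨δ, hδ0, fun M hM Γ hΓ hconj => ?_⟩
  subst hΓ
  rw [dist_eq_norm] at hM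
  have hlow' : ∀ x ∈ S, ‖x‖ ≤ 2 * c * ‖conjL (J : MC (n + 1)) (Γ : MC (n + 1)) x‖ := by
    intro x hx
    have h1 := hlow x hx
    have h2 : (J : MC (n + 1)) * x - x * (J : MC (n + 1)) =
        conjL (J : MC (n + 1)) (Γ : MC (n + 1)) x - ((Γ : MC (n + 1)) - J) * x := by
      rw [conjL_apply, Matrix.sub_mul]
      abel
    rw [h2] at h1
    have h3 : ‖conjL (J : MC (n + 1)) (Γ : MC (n + 1)) x - ((Γ : MC (n + 1)) - J) * x‖ ≤
        ‖conjL (J : MC (n + 1)) (Γ : MC (n + 1)) x‖ + ‖(Γ : MC (n + 1)) - J‖ * ‖x‖ :=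
      (norm_sub_le _ _).trans (add_le_add le_rfl (norm_mul_le _ _))
    have h4 : (c : ℝ) * ‖(Γ : MC (n + 1)) - J‖ ≤ 1 / 2 := by
      have h5 : δ ≤ 1 / (2 * ((c : ℝ) + 1)) := min_le_left _ _
      calc (c : ℝ) * ‖(Γ : MC (n + 1)) - J‖ ≤ ((c : ℝ) + 1) * δ := by
            gcongr
            linarith
        _ ≤ ((c : ℝ) + 1) * (1 / (2 * ((c : ℝ) + 1))) := by gcongr
        _ = 1 / 2 := by field_simp
    have h6 : ‖x‖ ≤ c * ‖conjL (J : MC (n + 1)) (Γ : MC (n + 1)) x‖ + 1 / 2 * ‖x‖ := by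
      calc ‖x‖ ≤ c * (‖conjL (J : MC (n + 1)) (Γ : MC (n + 1)) x‖ +
            ‖(Γ : MC (n + 1)) - J‖ * ‖x‖) := h1.trans (by gcongr)
        _ = c * ‖conjL (J : MC (n + 1)) (Γ : MC (n + 1)) x‖ +
            (c * ‖(Γ : MC (n + 1)) - J‖) * ‖x‖ := by ring
        _ ≤ _ := by gcongr
    linarith
  set KΓ := LinearMap.ker (conjL (J : MC (n + 1)) (Γ : MC (n + 1))) with hKΓ
  have hinf : KΓ ⊓ S = ⊥ := by
    rw [eq_bot_iff]
    rintro x ⟨hx1, hx2⟩
    have := hlow' x hx2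
    rw [LinearMap.mem_ker.1 hx1, norm_zero, mul_zero] at this
    exact (Submodule.mem_bot ℂ).2 (norm_le_zero_iff.1 this)
  have hsup : KΓ ⊔ S = ⊤ := by
    apply Submodule.eq_top_of_finrank_eq
    have h1 := Submodule.finrank_sup_add_finrank_inf_eq KΓ S
    have h2 := Submodule.finrank_add_eq_of_isCompl hS
    rw [hinf, finrank_bot, add_zero, finrank_ker_conjL J Γ hconj] at h1
    rw [h1, h2]
  obtain ⟨x, hx, y, hy, hxy⟩ := Submodule.mem_sup.1 (hsup ▸ Submodule.mem_top :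
    (1 : MC (n + 1)) ∈ KΓ ⊔ S)
  have hyn : ‖y‖ ≤ 2 * c * ‖(Γ : MC (n + 1)) - J‖ := by
    have h1 : conjL (J : MC (n + 1)) (Γ : MC (n + 1)) y = (Γ : MC (n + 1)) - J := by
      have h2 := congrArg (conjL (J : MC (n + 1)) (Γ : MC (n + 1))) hxy
      rw [map_add, LinearMap.mem_ker.1 hx, zero_add, conjL_apply _ _ 1, Matrix.mul_one,
        Matrix.one_mul] at h2
      exact h2
    exact h1 ▸ hlow' y hy
  have hxW : nrm x ∈ V ∧ x.det ≠ 0 := by
    apply hεW
    rw [dist_eq_norm, show x - 1 = -y by rw [← hxy]; abel, norm_neg]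
    calc ‖y‖ ≤ 2 * c * ‖(Γ : MC (n + 1)) - J‖ := hyn
      _ ≤ 2 * c * δ := by gcongr
      _ ≤ 2 * c * (ε / (2 * ((c : ℝ) + 1))) := by gcongr; exact min_le_right _ _
      _ < ε := by
        rw [show 2 * (c : ℝ) * (ε / (2 * ((c : ℝ) + 1))) = ε * (c / ((c : ℝ) + 1)) by field_simp]
        exact mul_lt_of_lt_one_right hε ((div_lt_one hc1).2 (by linarith))
  set P : SLC (n + 1) := ⟨nrm x, hdet x hxW.2⟩ with hP
  refine ⟨P, hxW.1, ?_⟩
  have hcomm : (Γ : MC (n + 1)) * x = x * (J : MC (n + 1)) := by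
    have := LinearMap.mem_ker.1 hx
    rwa [conjL_apply, sub_eq_zero] at this
  have key : P * J = Γ * P := by
    refine Subtype.ext ?_
    change nrm x * (J : MC (n + 1)) = (Γ : MC (n + 1)) * nrm x
    simp only [hnrm, Matrix.smul_mul, Matrix.mul_smul, hcomm]
  rw [key, mul_assoc, mul_inv_cancel, mul_one]

end Vale.Agent.P002.Curve
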