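import Mathlib
import Vale.Agent.P002.CurveSection
import Vale.Agent.P002.CurveField

/-!
Integral representations of a punctured surface group with prescribed quasi-unipotent boundary
classes are dense near an irreducible integral representation.
-/

namespace Vale.Agent.P002.Curve

open Matrix Filter Topology
open Vale.Agent.P002.Surface

variable {f h s n : ℕ}

/-- generators of a representation -/
abbrev GK (g s : ℕ) := Fin g ⊕ Fin g ⊕ Fin s

/-- the generators given by data -/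
def gens {G : Type*} [Group G] (J : Fin s → G) (d : Dat f h s G) : GK (f + 1 + h) s → G :=
  Sum.elim (Fin.append (fun i => (d.fr i).1) (fun i => (d.rs i).1))
    (Sum.elim (Fin.append (fun i => (d.fr i).2) (fun i => (d.rs i).2)) (gma J d))

lemma gens_map {G H : Type*} [Group G] [Group H] (φ : G →* H) (J : Fin s → G) (d : Dat f h s G)
    (k : GK (f + 1 + h) s) : gens (fun l => φ (J l)) (dmap φ d) k = φ (gens J d k) := by
  rcases k with i | i | k
  · induction i using Fin.addCases <;> simp [gens, dmap, tmap]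
  · induction i using Fin.addCases <;> simp [gens, dmap, tmap]
  · exact gma_map φ J d k

lemma rel_gens {G : Type*} [Group G] (J : Fin s → G) (d : Dat f h s G) :
    (List.ofFn fun i => gens J d (.inl i) * gens J d (.inr (.inl i)) * (gens J d (.inl i))⁻¹ *
      (gens J d (.inr (.inl i)))⁻¹).prod * (List.ofFn fun k => gens J d (.inr (.inr k))).prod =
        drel J d := by
  have e : (fun i => gens J d (.inl i) * gens J d (.inr (.inl i)) * (gens J d (.inl i))⁻¹ *
      (gens J d (.inr (.inl i)))⁻¹) =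
      Fin.append (fun i => cm (d.fr i)) (fun i => cm (d.rs i)) := by
    funext i
    induction i using Fin.addCases <;> simp [gens, cm]
  rw [e, List.ofFn_fin_append, List.prod_append]
  rfl

lemma exists_pullback (R : Subring ℂ) (J : Fin s → SLR n R)
    (P : MvPolynomial (GK (f + 1 + h) s × Fin (n + 1) × Fin (n + 1)) ℂ) :
    ∃ P' : MvPolynomial (DI f h s n) ℂ, ∀ d : Dat f h s (SLC (n + 1)),
      MvPolynomial.eval (dv d) P' = MvPolynomial.eval (ent (gens (JC R J) d)) P := by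
  obtain ⟨P', hP'⟩ := exists_poly_natural (κ := DK f h s) (n := n) R.subtype
    (fun {S} _ φ q => gens (fun l => SpecialLinearGroup.map φ (J l)) (ofFun q))
    (by
      intro S T _ _ g φ q
      funext k
      rw [← gens_map, dmap_ofFun]
      rfl) P
  exact ⟨P', fun d => by rw [dv, hP', ofFun_acc]; rfl⟩

/-- the map from coordinates and conjugators to data coordinates -/
def toData (w : GK (f + 1 + h) s × Fin (n + 1) × Fin (n + 1) → ℂ) (X : Fin s → MC (n + 1)) :
    DI f h s n → ℂ := fun k =>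
  match k.1 with
  | .inl (i, b) => Bool.rec (w (.inl (Fin.castAdd h i), k.2))
      (w (.inr (.inl (Fin.castAdd h i)), k.2)) b
  | .inr (.inl (i, b)) => Bool.rec (w (.inl (Fin.natAdd (f + 1) i), k.2))
      (w (.inr (.inl (Fin.natAdd (f + 1) i)), k.2)) b
  | .inr (.inr l) => X l k.2.1 k.2.2

lemma continuous_toData :
    Continuous fun q : (GK (f + 1 + h) s × Fin (n + 1) × Fin (n + 1) → ℂ) × (Fin s → MC (n + 1)) =>
      toData q.1 q.2 := by
  refine continuous_pi fun ⟨l, a, b⟩ => ?_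
  rcases l with ⟨i, _ | _⟩ | ⟨i, _ | _⟩ | l <;> simp only [toData] <;> fun_prop

lemma toData_gens {J : Fin s → SLC (n + 1)} {u : GK (f + 1 + h) s → SLC (n + 1)}
    {P : Fin s → SLC (n + 1)} (hu : ∀ k, P k * J k * (P k)⁻¹ = u (.inr (.inr k))) :
    ∃ d : Dat f h s (SLC (n + 1)), gens J d = u ∧
      dv d = toData (ent u) (fun k => (P k : MC (n + 1))) := by
  refine ⟨⟨fun i => (u (.inl (Fin.castAdd h i)), u (.inr (.inl (Fin.castAdd h i)))),
    fun i => (u (.inl (Fin.natAdd (f + 1) i)), u (.inr (.inl (Fin.natAdd (f + 1) i)))), P⟩, ?_, ?_⟩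
  · funext k
    rcases k with i | i | k
    · induction i using Fin.addCases <;> simp [gens]
    · induction i using Fin.addCases <;> simp [gens]
    · exact hu k
  · funext ⟨l, a, b⟩
    rcases l with ⟨i, _ | _⟩ | ⟨i, _ | _⟩ | l <;> rfl

variable {L : IntermediateField ℚ ℂ}

lemma int_point {C : Fin s → SLC (n + 1)} (J : Fin s → SLR n (intR L))
    (hJ : ∀ k, IsConj (C k) (toC (intR L) (J k))) (d : Dat f h s (SLR n (intR L)))
    (hd : drel J d = 1) :
    (List.ofFn fun i => gens (JC (intR L) J) (dmap (toC (intR L)) d) (.inl i) *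
        gens (JC (intR L) J) (dmap (toC (intR L)) d) (.inr (.inl i)) *
        (gens (JC (intR L) J) (dmap (toC (intR L)) d) (.inl i))⁻¹ *
        (gens (JC (intR L) J) (dmap (toC (intR L)) d) (.inr (.inl i)))⁻¹).prod *
      (List.ofFn fun k => gens (JC (intR L) J) (dmap (toC (intR L)) d) (.inr (.inr k))).prod = 1 ∧
    (∀ k, IsConj (C k) (gens (JC (intR L) J) (dmap (toC (intR L)) d) (.inr (.inr k)))) ∧
    ∀ c, ent (gens (JC (intR L) J) (dmap (toC (intR L)) d)) c ∈ L ∧
      IsIntegral ℤ (ent (gens (JC (intR L) J) (dmap (toC (intR L)) d)) c) := by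
  refine ⟨?_, fun k => ?_, fun c => ?_⟩
  · rw [rel_gens, show JC (intR L) J = fun l => toC (intR L) (J l) from rfl, ← drel_map, hd,
      map_one]
  · refine (hJ k).trans ?_
    change IsConj _ (gma (JC (intR L) J) (dmap (toC (intR L)) d) k)
    exact isConj_iff.2 ⟨toC (intR L) (d.P k), rfl⟩
  · obtain ⟨k, a, b⟩ := c
    rw [show JC (intR L) J = fun l => toC (intR L) (J l) from rfl]
    simp only [ent, gens_map]
    exact mem_intR.1 ((gens J d k a b).2)

/-- base data over the subring -/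
noncomputable def datR (B : Tup h (SLR n (intR L))) : Dat f h s (SLR n (intR L)) :=
  ⟨flat fun i => par (baseC i), B, fun _ => 1⟩

lemma drel_datR {J : Fin s → SLR n (intR L)} {B : Tup h (SLR n (intR L))}
    (hB : rel B * (List.ofFn J).prod = 1) : drel J (datR B : Dat f h s (SLR n (intR L))) = 1 := by
  have e : gma J (datR B : Dat f h s (SLR n (intR L))) = J := by
    funext k; simp [gma, datR]
  rw [drel, e, datR, rel_flat, one_mul, hB]

lemma dmap_datR (B : Tup h (SLR n (intR L))) :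
    dmap (toC (intR L)) (datR B : Dat f h s (SLR n (intR L))) =
      dat0 (tmap (toC (intR L)) B) := by
  refine Dat.ext ?_ rfl (funext fun k => map_one _)
  simp only [datR, dmap, dat0, tmap_flat]
  refine congrArg flat (funext fun i => ?_)
  rw [toC, map_par, baseA]
  simp only [map_baseC]

lemma adjoin_gens_dat0 (hg : 2 ≤ f) (Jc : Fin s → SLC (n + 1)) (B : Tup h (SLC (n + 1))) :
    Algebra.adjoin ℂ (Set.range fun i =>
      ((gens Jc (dat0 B : Dat f h s (SLC (n + 1))) (.inl i) : SLC (n + 1)) : MC (n + 1))) = ⊤ := by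
  rw [eq_top_iff, ← adjoin_baseA (g := f + 1) (n := n) (by omega : 3 ≤ f + 1)]
  refine Algebra.adjoin_mono ?_
  intro y hy
  rcases hy with rfl | rfl
  · exact ⟨Fin.castAdd h ⟨1, by omega⟩, by
      simp only [gens, Sum.elim_inl, Fin.append_left]
      rfl⟩
  · exact ⟨Fin.castAdd h ⟨2, by omega⟩, by
      simp only [gens, Sum.elim_inl, Fin.append_left]
      rfl⟩

lemma toData_dat0 (Jc : Fin s → SLC (n + 1)) (B : Tup h (SLC (n + 1))) :
    toData (ent (gens Jc (dat0 B : Dat f h s (SLC (n + 1))))) (fun _ => (1 : MC (n + 1))) =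
      dv (dat0 B : Dat f h s (SLC (n + 1))) := by
  funext ⟨l, a, b⟩
  rcases l with ⟨i, _ | _⟩ | ⟨i, _ | _⟩ | l <;>
    simp [toData, gens, dv, ent, acc, dat0]

open scoped Matrix.Norms.Operator in
lemma exists_open_lift (Jc : Fin s → SLC (n + 1)) (B : Tup h (SLC (n + 1)))
    {U0 : Set (DI f h s n → ℂ)} (hU0 : U0 ∈ 𝓝 (dv (dat0 B : Dat f h s (SLC (n + 1))))) :
    ∃ U : Set (GK (f + 1 + h) s × Fin (n + 1) × Fin (n + 1) → ℂ), IsOpen U ∧
      ent (gens Jc (dat0 B : Dat f h s (SLC (n + 1)))) ∈ U ∧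
      ∀ u : GK (f + 1 + h) s → SLC (n + 1), ent u ∈ U →
        (∀ k, IsConj (Jc k) (u (.inr (.inr k)))) →
          ∃ d : Dat f h s (SLC (n + 1)), gens Jc d = u ∧ dv d ∈ U0 := by
  set w0 := ent (gens Jc (dat0 B : Dat f h s (SLC (n + 1)))) with hw0
  have hpre : (fun q : (GK (f + 1 + h) s × Fin (n + 1) × Fin (n + 1) → ℂ) ×
      (Fin s → MC (n + 1)) => toData q.1 q.2) ⁻¹' U0 ∈ 𝓝 (w0, fun _ => (1 : MC (n + 1))) :=
    continuous_toData.continuousAt.preimage_mem_nhds (by
      change U0 ∈ 𝓝 (toData w0 fun _ => (1 : MC (n + 1)))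
      rw [hw0, toData_dat0]
      exact hU0)
  rw [mem_nhds_prod_iff] at hpre
  obtain ⟨U1, hU1, V, hV, hsub⟩ := hpre
  rw [nhds_pi, Filter.mem_pi'] at hV
  obtain ⟨I, t, ht, htV⟩ := hV
  have hev : ∀ k, ∀ᶠ w in 𝓝 w0, ∀ Γ : SLC (n + 1),
      (Γ : MC (n + 1)) = Matrix.of (fun a b => w (Sum.inr (Sum.inr k), a, b)) →
      IsConj (Jc k) Γ → ∃ P : SLC (n + 1), (P : MC (n + 1)) ∈ t k ∧ P * Jc k * P⁻¹ = Γ := by
    intro k
    have hc : Continuous (fun w : GK (f + 1 + h) s × Fin (n + 1) × Fin (n + 1) → ℂ =>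
        (Matrix.of fun a b => w (Sum.inr (Sum.inr k), a, b) : MC (n + 1))) := by
      refine continuous_pi fun a => continuous_pi fun b => ?_
      exact continuous_apply _
    have h0 : (Matrix.of fun a b => w0 (Sum.inr (Sum.inr k), a, b) : MC (n + 1)) =
        (Jc k : MC (n + 1)) := by
      ext a b
      simp [hw0, gens, ent, gma, dat0]
    exact hc.continuousAt.eventually (h0.symm ▸ exists_conj_near (Jc k) (ht k))
  obtain ⟨U, hUsub, hU, hUmem⟩ := mem_nhds_iff.1
    (Filter.inter_mem hU1 (Filter.eventually_all.2 hev))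
  refine ⟨U, hU, hUmem, fun u hu hc => ?_⟩
  obtain ⟨hu1, hsec⟩ := hUsub hu
  choose P hP1 hP2 using fun k => hsec k (u (.inr (.inr k))) (by ext a b; rfl) (hc k)
  obtain ⟨d, hd, hdv⟩ := toData_gens (J := Jc) (u := u) (P := P) hP2
  exact ⟨d, hd, hdv ▸ hsub (Set.mk_mem_prod hu1 (htV fun k _ => hP1 k))⟩

lemma elim_self {g : ℕ} {G : Type*} (u : GK g s → G) :
    Sum.elim (fun i => u (.inl i)) (Sum.elim (fun i => u (.inr (.inl i)))
      (fun k => u (.inr (.inr k)))) = u := by
  funext k; rcases k with i | i | k <;> rfl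

/-- Density of integral representations with prescribed boundary classes. -/
theorem curve_dense (hg : 2 ≤ f) (C : Fin s → SLC (n + 1)) (J : Fin s → SLR n (intR L))
    (Bz : Tup h (SLR n (intR L))) (hB : rel Bz * (List.ofFn J).prod = 1)
    (hJ : ∀ k, IsConj (C k) (toC (intR L) (J k))) :
    ∃ A B : Fin (f + 1 + h) → SLC (n + 1), ∃ Γ : Fin s → SLC (n + 1),
      (List.ofFn fun i => A i * B i * (A i)⁻¹ * (B i)⁻¹).prod * (List.ofFn Γ).prod = 1 ∧
      (∀ k, IsConj (C k) (Γ k)) ∧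
      (∀ c, ent (Sum.elim A (Sum.elim B Γ)) c ∈ L ∧
        IsIntegral ℤ (ent (Sum.elim A (Sum.elim B Γ)) c)) ∧
      Algebra.adjoin ℂ (Set.range fun i => (A i : MC (n + 1))) = ⊤ ∧
      ∃ U : Set (GK (f + 1 + h) s × Fin (n + 1) × Fin (n + 1) → ℂ), IsOpen U ∧
        ent (Sum.elim A (Sum.elim B Γ)) ∈ U ∧
        ∀ P : MvPolynomial (GK (f + 1 + h) s × Fin (n + 1) × Fin (n + 1)) ℂ,
          (∀ (A' B' : Fin (f + 1 + h) → SLC (n + 1)) (Γ' : Fin s → SLC (n + 1)),
            (List.ofFn fun i => A' i * B' i * (A' i)⁻¹ * (B' i)⁻¹).prod * (List.ofFn Γ').prod = 1 →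
            (∀ k, IsConj (C k) (Γ' k)) →
            (∀ c, ent (Sum.elim A' (Sum.elim B' Γ')) c ∈ L ∧
              IsIntegral ℤ (ent (Sum.elim A' (Sum.elim B' Γ')) c)) →
            MvPolynomial.eval (ent (Sum.elim A' (Sum.elim B' Γ'))) P = 0) →
          ∀ (A' B' : Fin (f + 1 + h) → SLC (n + 1)) (Γ' : Fin s → SLC (n + 1)),
            (List.ofFn fun i => A' i * B' i * (A' i)⁻¹ * (B' i)⁻¹).prod * (List.ofFn Γ').prod = 1 →
            (∀ k, IsConj (C k) (Γ' k)) →
            ent (Sum.elim A' (Sum.elim B' Γ')) ∈ U →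
            MvPolynomial.eval (ent (Sum.elim A' (Sum.elim B' Γ'))) P = 0 := by
  obtain ⟨U0, hU0, hmem, hdense⟩ := data_dense hg (intR_infinite L) J Bz hB
  obtain ⟨U, hU, hUmem, hlift⟩ :=
    exists_open_lift (JC (intR L) J) (tmap (toC (intR L)) Bz) (hU0.mem_nhds hmem)
  obtain ⟨r1, r2, r3⟩ := int_point J hJ (datR Bz : Dat f h s (SLR n (intR L))) (drel_datR hB)
  rw [dmap_datR] at r1 r2 r3
  refine ⟨_, _, _, r1, r2, ?_, adjoin_gens_dat0 hg _ _, U, hU, ?_, ?_⟩
  · rw [elim_self]; exact r3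
  · rw [elim_self]; exact hUmem
  intro P hP A' B' Γ' hr hc hUd
  obtain ⟨d, hd, hdU⟩ := hlift (Sum.elim A' (Sum.elim B' Γ')) hUd
    (fun k => (hJ k).symm.trans (hc k))
  obtain ⟨P', hP'⟩ := exists_pullback (intR L) J P
  rw [← hd, ← hP']
  refine hdense P' ?_ d ?_ hdU
  · intro dI hdI
    rw [hP']
    obtain ⟨h1, h2, h3⟩ := int_point J hJ dI hdI
    have := hP _ _ _ h1 h2 (by rw [elim_self]; exact h3)
    rwa [elim_self] at this
  · rw [← rel_gens, hd]
    exact hr

end Vale.Agent.P002.Curve
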