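import Mathlib

/-!
P002, virtually abelian groups: the notions used in the statement.
-/

namespace Vale.Agent.P002.VAb

open Matrix

variable {Γ : Type*} [Group Γ] {n r : ℕ}

/-- The matrix entries of the images of the generators. -/
def coords (g : Fin n → Γ) (ρ : Γ →* SpecialLinearGroup (Fin r) ℂ) :
    Fin n × Fin r × Fin r → ℂ :=
  fun p => (ρ (g p.1)).1 p.2.1 p.2.2

/-- Every invariant subspace has an invariant complement. -/
def IsSemisimpleRep (ρ : Γ →* SpecialLinearGroup (Fin r) ℂ) : Prop :=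
  ∀ W : Submodule ℂ (Fin r → ℂ), (∀ γ, ∀ v ∈ W, (ρ γ).1.mulVec v ∈ W) →
    ∃ W' : Submodule ℂ (Fin r → ℂ), (∀ γ, ∀ v ∈ W', (ρ γ).1.mulVec v ∈ W') ∧ IsCompl W W'

/-- Every integer polynomial in the entries of the generators whose values on all representations
are invariant under conjugation takes, at `ρ`, an algebraic integer value lying in `L`. -/
def IsIntegralPoint (g : Fin n → Γ) (L : IntermediateField ℚ ℂ)
    (ρ : Γ →* SpecialLinearGroup (Fin r) ℂ) : Prop :=
  ∀ f : MvPolynomial (Fin n × Fin r × Fin r) ℤ,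
    (∀ (ρ' : Γ →* SpecialLinearGroup (Fin r) ℂ) (P : SpecialLinearGroup (Fin r) ℂ),
      MvPolynomial.aeval (fun p : Fin n × Fin r × Fin r =>
          (P * ρ' (g p.1) * P⁻¹).1 p.2.1 p.2.2) f =
        MvPolynomial.aeval (coords g ρ') f) →
    MvPolynomial.aeval (coords g ρ) f ∈ L ∧ IsIntegral ℤ (MvPolynomial.aeval (coords g ρ) f)

end Vale.Agent.P002.VAb
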