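import Mathlib

/-!
P002, virtually abelian groups: the group of twisting cocycles and the transfer.
-/

namespace Vale.Agent.P002.VAb

open Finset

variable {Γ : Type*} [Group Γ] {b r : ℕ} {ι : Type*}

/-- A twisting cocycle with trivial determinant which is a coboundary at the marked elements. -/
structure Sol (π : Γ →* Equiv.Perm (Fin b)) (bl : Fin r → Fin b) (γc : ι → Γ)
    (G : Type*) [CommGroup G] where
  v : Γ → Fin b → G
  x : ι → Fin b → G
  cocycle : ∀ γ δ j, v (γ * δ) j = v γ (π δ j) * v δ j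
  det : ∀ γ, ∏ i, v γ (bl i) = 1
  cob : ∀ i j, v (γc i) j = x i (π (γc i) j) / x i j

variable {π : Γ →* Equiv.Perm (Fin b)} {bl : Fin r → Fin b} {γc : ι → Γ}
  {G H : Type*} [CommGroup G] [CommGroup H]

theorem Sol.v_one (S : Sol π bl γc G) (j : Fin b) : S.v 1 j = 1 := by
  have h := S.cocycle 1 1 j
  rw [mul_one, map_one, Equiv.Perm.one_apply] at h
  exact left_eq_mul.1 h

theorem Sol.v_inv (S : Sol π bl γc G) (γ : Γ) (j : Fin b) :
    S.v γ⁻¹ j = (S.v γ (π γ⁻¹ j))⁻¹ := by
  have h := S.cocycle γ γ⁻¹ j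
  rw [mul_inv_cancel, S.v_one] at h
  exact eq_inv_of_mul_eq_one_right h.symm

/-- The image of a solution under a homomorphism. -/
def Sol.map (S : Sol π bl γc G) (f : G →* H) : Sol π bl γc H where
  v γ j := f (S.v γ j)
  x i j := f (S.x i j)
  cocycle γ δ j := by rw [S.cocycle, map_mul]
  det γ := by rw [← map_prod, S.det, map_one]
  cob i j := by rw [S.cob, map_div]

/-- The inverse of a solution. -/
def Sol.inv (S : Sol π bl γc G) : Sol π bl γc G := S.map (invMonoidHom)

/-- The monomial homomorphism attached to a point of a torus. -/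
def monHom {k : ℕ} (t : Fin k → ℂˣ) : Multiplicative (Fin k → ℤ) →* ℂˣ where
  toFun z := ∏ i, t i ^ (Multiplicative.toAdd z i)
  map_one' := by simp
  map_mul' z w := by simp [zpow_add, Finset.prod_mul_distrib]

theorem exists_torus {n : ℕ} (g : Fin n → Γ) (hg : Subgroup.closure (Set.range g) = ⊤)
    [Finite ι] (π : Γ →* Equiv.Perm (Fin b)) (bl : Fin r → Fin b) (γc : ι → Γ) :
    ∃ (k e : ℕ), 0 < e ∧ ∃ Φ : Sol π bl γc (Multiplicative (Fin k → ℤ)),
      ∀ w : Sol π bl γc ℂˣ, ∃ t : Fin k → ℂˣ,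
        ∀ γ j, monHom t (Φ.v γ j) = w.v γ j ^ e := by
  classical
  let U := Sol π bl γc ℂˣ
  let ev : Sol π bl γc (U → ℂˣ) :=
    { v := fun γ j w => w.v γ j
      x := fun i j w => w.x i j
      cocycle := fun γ δ j => funext fun w => w.cocycle γ δ j
      det := fun γ => funext fun w => by
        rw [Finset.prod_apply, Pi.one_apply]; exact w.det γ
      cob := fun i j => funext fun w => w.cob i j }
  let gen : Set (U → ℂˣ) := Set.range (fun p : Fin n × Fin b => ev.v (g p.1) p.2) ∪
    Set.range (fun p : ι × Fin b => ev.x p.1 p.2)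
  let M : Subgroup (U → ℂˣ) := Subgroup.closure gen
  have hfin : gen.Finite := (Set.finite_range _).union (Set.finite_range _)
  have hv : ∀ γ j, ev.v γ j ∈ M := by
    let S : Subgroup Γ :=
      { carrier := {γ | ∀ j, ev.v γ j ∈ M}
        one_mem' := fun j => by rw [ev.v_one]; exact M.one_mem
        mul_mem' := fun {x y} hx hy j => by rw [ev.cocycle]; exact M.mul_mem (hx _) (hy _)
        inv_mem' := fun {x} hx j => by rw [ev.v_inv]; exact M.inv_mem (hx _) }
    have hS : Subgroup.closure (Set.range g) ≤ S := by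
      rw [Subgroup.closure_le]
      rintro _ ⟨k, rfl⟩ j
      exact Subgroup.subset_closure (Or.inl ⟨(k, j), rfl⟩)
    rw [hg] at hS
    exact fun γ => hS (Subgroup.mem_top γ)
  have hx : ∀ i j, ev.x i j ∈ M := fun i j =>
    Subgroup.subset_closure (Or.inr ⟨(i, j), rfl⟩)
  have : Group.FG M := by
    rw [Group.fg_iff_subgroup_fg, Subgroup.fg_iff]
    exact ⟨gen, rfl, hfin⟩
  let evM : Sol π bl γc M :=
    { v := fun γ j => ⟨ev.v γ j, hv γ j⟩
      x := fun i j => ⟨ev.x i j, hx i j⟩
      cocycle := fun γ δ j => Subtype.ext (ev.cocycle γ δ j)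
      det := fun γ => Subtype.ext (by
        simpa [Subgroup.val_finsetProd] using ev.det γ)
      cob := fun i j => Subtype.ext (ev.cob i j) }
  have : Module.Finite ℤ (Additive M) := Module.Finite.iff_addGroup_fg.2 inferInstance
  let T := Submodule.torsion ℤ (Additive M)
  have : Module.Finite ℤ T := Module.Finite.iff_fg.2 (IsNoetherian.noetherian T)
  have : AddGroup.FG T := Module.Finite.iff_addGroup_fg.1 inferInstance
  have hTt : AddMonoid.IsTorsion T := by
    intro x
    obtain ⟨a, ha⟩ := x.2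
    rw [isOfFinAddOrder_iff_zsmul_eq_zero]
    exact ⟨a.1, nonZeroDivisors.coe_ne_zero a, Subtype.ext ha⟩
  have : Finite T := AddCommGroup.finite_of_fg_torsion T hTt
  have : Module.Free ℤ (Additive M ⧸ T) := Module.free_of_finite_type_torsion_free'
  let k := Module.finrank ℤ (Additive M ⧸ T)
  let bs : Module.Basis (Fin k) ℤ (Additive M ⧸ T) := Module.finBasis ℤ _
  choose l hl using fun i => Submodule.mkQ_surjective T (bs i)
  let φ : Additive M →ₗ[ℤ] (Fin k → ℤ) := bs.equivFun.toLinearMap.comp T.mkQ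
  let φm : M →* Multiplicative (Fin k → ℤ) := φ.toAddMonoidHom.toMultiplicativeRight
  refine ⟨k, Nat.card T, Nat.card_pos, evM.map φm, fun w => ?_⟩
  let h : M →* ℂˣ := (Pi.evalMonoidHom (fun _ : U => ℂˣ) w).comp M.subtype
  let ha : Additive M →+ Additive ℂˣ := MonoidHom.toAdditive h
  refine ⟨fun i => h (l i).toMul ^ Nat.card T, fun γ j => ?_⟩
  let m : Additive M := Additive.ofMul (evM.v γ j)
  have hmT : m - ∑ i, φ m i • l i ∈ T := by
    rw [← Submodule.Quotient.mk_eq_zero, ← Submodule.mkQ_apply, map_sub, map_sum]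
    simp only [map_smul, hl]
    rw [sub_eq_zero]
    exact (bs.sum_equivFun _).symm
  have h0 : Nat.card T • (⟨_, hmT⟩ : T) = 0 := card_nsmul_eq_zero'
  have h1 : Nat.card T • ha m = ∑ i, φ m i • (Nat.card T • ha (l i)) := by
    have h2 := congrArg ha (congrArg Subtype.val h0)
    rw [Submodule.coe_zero, map_zero, Submodule.coe_smul_of_tower, map_nsmul, map_sub,
      nsmul_sub, sub_eq_zero, map_sum] at h2
    rw [h2, ← Finset.sum_nsmul]
    refine Finset.sum_congr rfl fun i _ => ?_
    rw [map_zsmul]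
    exact ((zsmulAddGroupHom (φ m i)).map_nsmul _ _).symm
  have h3 := congrArg Additive.toMul h1
  rw [toMul_nsmul, toMul_sum] at h3
  simp only [toMul_zsmul, toMul_nsmul] at h3
  exact h3.symm

theorem exists_transfer (A : Subgroup Γ) [A.Normal] [A.FiniteIndex]
    (π : Γ →* Equiv.Perm (Fin b)) (bl : Fin r → Fin b) (γc : ι → Γ)
    (htriv : ∀ a ∈ A, π a = 1) (χ : Fin b → A →* ℂˣ)
    (hequiv : ∀ γ j (a a' : A), γ * a'.1 = a.1 * γ → χ (π γ j) a = χ j a')
    (hdet : ∀ a, ∏ i, χ (bl i) a = 1) (E : ℕ)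
    (hcls : ∀ i j (a : A), a.1 = γc i ^ A.index → χ j a ^ E = 1) :
    ∃ w : Sol π bl γc ℂˣ, ∀ (a : A) j, w.v a j = χ j a ^ (A.index * E * A.index) := by
  classical
  let Q := Γ ⧸ A
  have : Fintype Q := Fintype.ofFinite Q
  let o : Q → Γ := Quotient.out
  have ho : ∀ q : Q, (QuotientGroup.mk (o q) : Q) = q := fun q => QuotientGroup.out_eq' q
  have hmem : ∀ γ q, (o (γ • q))⁻¹ * (γ * o q) ∈ A := fun γ q => by
    rw [← QuotientGroup.eq, ho]
    conv_lhs => rw [← ho q]
    rfl
  let al : Γ → Q → A := fun γ q => ⟨_, hmem γ q⟩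
  have hal : ∀ γ q, γ * o q = o (γ • q) * (al γ q).1 := fun γ q => by simp [al]
  have hal_mul : ∀ γ δ q, al (γ * δ) q = al γ (δ • q) * al δ q := fun γ δ q => by
    apply Subtype.ext
    simp [al, mul_smul, mul_assoc]
  let s : Γ → Fin b → ℂˣ := fun γ j => ∏ q, χ ((π (o q))⁻¹ j) (al γ q)
  have hs : ∀ γ δ j, s (γ * δ) j = s γ (π δ j) * s δ j := by
    intro γ δ j
    simp only [s, hal_mul, map_mul, Finset.prod_mul_distrib]
    congr 1
    refine Fintype.prod_equiv (MulAction.toPerm δ) _ _ fun q => ?_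
    rw [MulAction.toPerm_apply]
    congr 2
    have h := congrArg π (hal δ q)
    rw [map_mul, map_mul, htriv _ (al δ q).2, mul_one] at h
    have h' : (π (o (δ • q)))⁻¹ * π δ = (π (o q))⁻¹ := by
      rw [← h, mul_inv_rev, inv_mul_cancel_right]
    rw [← h', Equiv.Perm.mul_apply]
  have hs1 : ∀ j, s 1 j = 1 := fun j => by
    have h := hs 1 1 j
    rw [mul_one, map_one, Equiv.Perm.one_apply] at h
    exact left_eq_mul.1 h
  have hsA : ∀ (a : A) j, s a j = χ j a ^ A.index := by
    intro a j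
    have hc : A.index = Fintype.card Q := by
      rw [Subgroup.index, Nat.card_eq_fintype_card]
    have hterm : ∀ q, χ ((π (o q))⁻¹ j) (al a q) = χ j a := fun q => by
      have hfix : (a.1 • q : Q) = q := by
        conv_lhs => rw [← ho q]
        conv_rhs => rw [← ho q]
        refine QuotientGroup.eq.2 ?_
        simpa [mul_assoc] using Subgroup.Normal.conj_mem inferInstance _ (A.inv_mem a.2) (o q)⁻¹
      rw [← map_inv]
      apply hequiv
      have h := hal a q
      rw [hfix] at h
      rw [eq_mul_inv_iff_mul_eq, mul_assoc, h, inv_mul_cancel_left]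
    show ∏ q, χ ((π (o q))⁻¹ j) (al a q) = _
    rw [Finset.prod_congr rfl fun q _ => hterm q, Finset.prod_const, Finset.card_univ, hc]
  have hsdet : ∀ γ, ∏ i, s γ (bl i) = 1 := by
    intro γ
    simp only [s]
    rw [Finset.prod_comm]
    refine Finset.prod_eq_one fun q _ => ?_
    let a' : A := ⟨o q * (al γ q).1 * (o q)⁻¹,
      Subgroup.Normal.conj_mem inferInstance _ (al γ q).2 _⟩
    rw [← hdet a']
    refine Finset.prod_congr rfl fun i _ => ?_
    rw [← map_inv]
    apply hequiv
    simp [a', mul_assoc]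
  let m := A.index
  let y : ι → Fin b → ℂˣ := fun i j => (∏ l ∈ Finset.range m, s (γc i ^ l) j ^ E)⁻¹
  refine ⟨{
    v := fun γ j => s γ j ^ (E * m)
    x := y
    cocycle := fun γ δ j => by rw [hs, mul_pow]
    det := fun γ => by rw [Finset.prod_pow, hsdet, one_pow]
    cob := fun i j => ?_ }, fun a j => ?_⟩
  · let f : ℕ → ℂˣ := fun l => s (γc i ^ l) j ^ E
    have hm : γc i ^ m ∈ A := A.pow_index_mem _
    have hfm : f m = 1 := by
      show s (⟨_, hm⟩ : A) j ^ E = 1
      rw [hsA, ← pow_mul, mul_comm, pow_mul, hcls i j ⟨_, hm⟩ rfl, one_pow]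
    have hf0 : f 0 = 1 := by simp [f, hs1]
    have hshift : (∏ l ∈ Finset.range m, f (l + 1)) = ∏ l ∈ Finset.range m, f l := by
      have h := (Finset.prod_range_succ' f m).symm.trans (Finset.prod_range_succ f m)
      rwa [hf0, hfm, mul_one, mul_one] at h
    have hsplit : (∏ l ∈ Finset.range m, f (l + 1)) =
        (∏ l ∈ Finset.range m, s (γc i ^ l) (π (γc i) j) ^ E) * (s (γc i) j ^ E) ^ m := by
      simp only [f, pow_succ, hs, mul_pow, Finset.prod_mul_distrib, Finset.prod_const,
        Finset.card_range]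
    rw [hshift] at hsplit
    simp only [y, inv_div_inv]
    rw [pow_mul, eq_div_iff_mul_eq']
    show (s (γc i) j ^ E) ^ m * _ = _
    rw [mul_comm, ← hsplit]
  · show s a j ^ (E * m) = _
    rw [hsA, ← pow_mul]
    simp only [m, mul_assoc]

end Vale.Agent.P002.VAb
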