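import Vale.Agent.P002.VAbStructure
import Vale.Agent.P002.VAbTorus

/-!
P002, virtually abelian groups: semisimplicity and integrality of representations which are
diagonal on an abelian subgroup of finite index, and functions spanned by torus characters.
-/

namespace Vale.Agent.P002.VAb

open Matrix

variable {Γ : Type*} [Group Γ] {r : ℕ}

theorem exists_coord_compl (W : Submodule ℂ (Fin r → ℂ)) :
    ∃ s : Set (Fin r), IsCompl W
      (Submodule.span ℂ ((fun i => (Pi.single i 1 : Fin r → ℂ)) '' s)) := by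
  classical
  let e : Fin r → (Fin r → ℂ) := fun i => Pi.single i 1
  obtain ⟨s, hs⟩ : ∃ s, Maximal
      (fun s : Set (Fin r) => Disjoint W (Submodule.span ℂ (e '' s))) s := by
    obtain ⟨s, -, hs⟩ := Finite.exists_le_maximal
      (p := fun s : Set (Fin r) => Disjoint W (Submodule.span ℂ (e '' s))) (a := ∅) (by simp)
    exact ⟨s, hs⟩
  refine ⟨s, hs.prop, codisjoint_iff.2 ?_⟩
  rw [eq_top_iff, ← (Pi.basisFun ℂ (Fin r)).span_eq, Submodule.span_le]
  rintro _ ⟨i, rfl⟩
  rw [Pi.basisFun_apply, SetLike.mem_coe]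
  by_contra hi
  have his : i ∉ s := fun h => hi (Submodule.mem_sup_right (Submodule.subset_span ⟨i, h, rfl⟩))
  refine his (hs.le_of_ge (y := insert i s) ?_ (Set.subset_insert i s) (Set.mem_insert i s))
  rw [Submodule.disjoint_def]
  intro x hxW hx
  rw [Set.image_insert_eq, Submodule.mem_span_insert] at hx
  obtain ⟨c, y, hy, rfl⟩ := hx
  rcases eq_or_ne c 0 with hc | hc
  · subst hc
    rw [zero_smul, zero_add] at hxW ⊢
    exact Submodule.disjoint_def.1 hs.prop y hxW hy
  · exfalso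
    apply hi
    have h : e i = c⁻¹ • ((c • e i + y) - y) := by
      rw [add_sub_cancel_right, inv_smul_smul₀ hc]
    show e i ∈ _
    rw [h]
    exact Submodule.smul_mem _ _ (Submodule.sub_mem _ (Submodule.mem_sup_left hxW)
      (Submodule.mem_sup_right hy))

theorem coord_invariant {M : Mat r} (hM : ∀ k i, k ≠ i → M k i = 0) (s : Set (Fin r))
    {v : Fin r → ℂ}
    (hv : v ∈ Submodule.span ℂ ((fun i => (Pi.single i 1 : Fin r → ℂ)) '' s)) :
    M.mulVec v ∈ Submodule.span ℂ ((fun i => (Pi.single i 1 : Fin r → ℂ)) '' s) := by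
  have hle : Submodule.span ℂ ((fun i => (Pi.single i 1 : Fin r → ℂ)) '' s) ≤
      (Submodule.span ℂ ((fun i => (Pi.single i 1 : Fin r → ℂ)) '' s)).comap M.mulVecLin := by
    rw [Submodule.span_le]
    rintro _ ⟨i, hi, rfl⟩
    have h : M.mulVec (Pi.single i 1) = M i i • (Pi.single i 1 : Fin r → ℂ) := by
      rw [mulVec_single_one]
      ext k
      rcases eq_or_ne k i with h | h
      · subst h; simp
      · simp [h, hM k i h]
    rw [SetLike.mem_coe, Submodule.mem_comap, mulVecLin_apply, h]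
    exact Submodule.smul_mem _ _ (Submodule.subset_span ⟨i, hi, rfl⟩)
  exact hle hv

theorem semisimple_of_diag (A : Subgroup Γ) [A.Normal] [A.FiniteIndex]
    (ρ : Γ →* SpecialLinearGroup (Fin r) ℂ)
    (hd : ∀ a ∈ A, ∀ k i, k ≠ i → (ρ a).1 k i = 0) : IsSemisimpleRep ρ := by
  classical
  intro W hW
  obtain ⟨s, hs⟩ := exists_coord_compl W
  have : Fintype (Γ ⧸ A) := Fintype.ofFinite _
  let o : Γ ⧸ A → Γ := Quotient.out
  let L : Γ →* Module.End ℂ (Fin r → ℂ) :=
    { toFun := fun γ => (ρ γ).1.mulVecLin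
      map_one' := by rw [map_one, sl_one, mulVecLin_one]; rfl
      map_mul' := fun x y => by rw [map_mul, sl_mul, mulVecLin_mul]; rfl }
  let P₀ : Module.End ℂ (Fin r → ℂ) := W.projection _ hs
  have hP₀ : ∀ a ∈ A, L a * P₀ = P₀ * L a := by
    intro a ha
    refine LinearMap.ext fun v => ?_
    obtain ⟨u, hu, u', hu', rfl⟩ := Submodule.mem_sup.1
      (hs.sup_eq_top ▸ Submodule.mem_top (x := v))
    show L a (P₀ (u + u')) = P₀ (L a (u + u'))
    have h1 : L a u ∈ W := hW a u hu
    have h2 := coord_invariant (hd a ha) s hu'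
    simp only [map_add, P₀, Submodule.projection_apply_of_mem_left hs hu,
      (Submodule.projection_apply_eq_zero_iff hs).2 hu', map_zero, add_zero,
      Submodule.projection_apply_of_mem_left hs h1]
    rw [show L a u' = (ρ a).1.mulVec u' from rfl, (Submodule.projection_apply_eq_zero_iff hs).2 h2, add_zero]
  let P : Module.End ℂ (Fin r → ℂ) :=
    ((Fintype.card (Γ ⧸ A) : ℂ))⁻¹ • ∑ q, L (o q) * P₀ * L (o q)⁻¹
  have hcomm : ∀ γ, L γ * P = P * L γ := by
    intro γ
    simp only [P, mul_smul_comm, smul_mul_assoc, Finset.mul_sum, Finset.sum_mul]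
    congr 1
    refine Fintype.sum_equiv (MulAction.toPerm γ) _ _ fun q => ?_
    rw [MulAction.toPerm_apply]
    have hmem : (o (γ • q))⁻¹ * (γ * o q) ∈ A := by
      rw [← QuotientGroup.eq, QuotientGroup.out_eq']
      conv_lhs => rw [← QuotientGroup.out_eq' q]
      rfl
    rw [← mul_assoc, ← mul_assoc, ← map_mul,
      show γ * o q = o (γ • q) * ((o (γ • q))⁻¹ * (γ * o q)) by simp, map_mul, mul_assoc _ _ P₀,
      hP₀ _ hmem]
    simp only [mul_assoc, ← map_mul]
    congr 3
    group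
  have hmemW : ∀ v, P v ∈ W := fun v => by
    simp only [P, LinearMap.smul_apply, LinearMap.sum_apply, Module.End.mul_apply]
    exact Submodule.smul_mem _ _ (Submodule.sum_mem _ fun q _ =>
      hW _ _ (Submodule.projection_apply_mem hs _))
  have hidW : ∀ w ∈ W, P w = w := fun w hw => by
    have hterm : ∀ q, (L (o q) * P₀ * L (o q)⁻¹) w = w := fun q => by
      rw [Module.End.mul_apply, Module.End.mul_apply]
      simp only [P₀]
      rw [Submodule.projection_apply_of_mem_left hs (show L (o q)⁻¹ w ∈ W from hW _ w hw),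
        ← Module.End.mul_apply, ← map_mul, mul_inv_cancel, map_one]
      rfl
    simp only [P, LinearMap.smul_apply, LinearMap.sum_apply]
    rw [Finset.sum_congr rfl fun q _ => hterm q, Finset.sum_const, Finset.card_univ,
      ← Nat.cast_smul_eq_nsmul ℂ, inv_smul_smul₀ (Nat.cast_ne_zero.2 Fintype.card_ne_zero)]
  refine ⟨LinearMap.ker P, fun γ v hv => ?_, (LinearMap.IsProj.mk hmemW hidW).isCompl⟩
  rw [LinearMap.mem_ker] at hv ⊢
  show (P * L γ) v = 0
  rw [← hcomm, Module.End.mul_apply, hv, map_zero]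

theorem isIntegral_of_diag (A : Subgroup Γ) [A.Normal] [A.FiniteIndex]
    (ρ : Γ →* SpecialLinearGroup (Fin r) ℂ)
    (hd : ∀ a ∈ A, ∀ k i, k ≠ i → (ρ a).1 k i = 0)
    (hi : ∀ a ∈ A, ∀ i, IsIntegral ℤ ((ρ a).1 i i)) {n : ℕ} (g : Fin n → Γ)
    (f : MvPolynomial (Fin n × Fin r × Fin r) ℤ)
    (hf : ∀ P : SpecialLinearGroup (Fin r) ℂ,
      MvPolynomial.aeval (fun p : Fin n × Fin r × Fin r =>
          (P * ρ (g p.1) * P⁻¹).1 p.2.1 p.2.2) f = MvPolynomial.aeval (coords g ρ) f) :
    IsIntegral ℤ (MvPolynomial.aeval (coords g ρ) f) := by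
  classical
  suffices h : ∀ O : ValuationSubring ℂ, MvPolynomial.aeval (coords g ρ) f ∈ O by
    have hx : MvPolynomial.aeval (coords g ρ) f ∈
        ⨅ V : {V : ValuationSubring ℂ // (∅ : Set ℂ) ⊆ V.toSubring}, V.1.toSubring :=
      Subring.mem_iInf.2 fun V => h V.1
    rw [iInf_valuationSubring_superset] at hx
    have : Algebra.IsIntegral ℤ (Subring.closure (∅ : Set ℂ)) := by
      refine ⟨fun x => ?_⟩
      have hx' := x.2
      simp only [Subring.closure_empty] at hx'
      obtain ⟨z, hz⟩ := Subring.mem_bot.1 hx'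
      have : x = (z : Subring.closure (∅ : Set ℂ)) := Subtype.ext (by simp [hz])
      rw [this]
      exact isIntegral_algebraMap
    exact isIntegral_trans (R := ℤ) _ hx
  intro O
  have hint : ∀ z : ℂ, IsIntegral ℤ z → z ∈ O := fun z hz => by
    obtain ⟨y, hy⟩ := IsIntegrallyClosed.isIntegral_iff.1 (hz.tower_top (A := O))
    rw [← hy]
    exact y.2
  have : Fintype (Γ ⧸ A) := Fintype.ofFinite _
  let o : Γ ⧸ A → Γ := Quotient.out
  let vec : (Γ ⧸ A) × Fin r → Fin r → ℂ := fun c k => (ρ (o c.1)).1 k c.2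
  let Bm : (Fin r → (Γ ⧸ A) × Fin r) → Mat r := fun τ => Matrix.of fun k i => vec (τ i) k
  have hne : (Finset.univ : Finset (Fin r → (Γ ⧸ A) × Fin r)).Nonempty :=
    ⟨fun i => (QuotientGroup.mk 1, i), Finset.mem_univ _⟩
  obtain ⟨τ, -, hτ⟩ := Finset.exists_max_image _ (fun τ => O.valuation (Bm τ).det) hne
  have hd0 : (Bm τ).det ≠ 0 := by
    intro h0
    have h1 := hτ (fun i => (QuotientGroup.mk 1, i)) (Finset.mem_univ _)
    rw [show Bm (fun i => (QuotientGroup.mk 1, i)) = (ρ (o (QuotientGroup.mk 1))).1 from rfl,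
      (ρ _).2, h0, map_zero, map_one] at h1
    exact one_ne_zero (le_zero_iff.1 h1)
  have hexp : ∀ c, ∃ u : Fin r → ℂ, (∀ i, u i ∈ O) ∧ (Bm τ).mulVec u = vec c := by
    intro c
    refine ⟨(Bm τ).det⁻¹ • (Bm τ).cramer (vec c), fun i => ?_, ?_⟩
    · rw [← O.valuation_le_one_iff, Pi.smul_apply, smul_eq_mul, map_mul, map_inv₀,
        cramer_apply, inv_mul_le_one₀ (zero_lt_iff.2 ((map_ne_zero _).2 hd0))]
      have hu : (Bm τ).updateCol i (vec c) = Bm (Function.update τ i c) := by
        ext k j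
        rcases eq_or_ne j i with h | h
        · subst h; simp [Bm]
        · simp [Bm, h]
      rw [hu]
      exact hτ _ (Finset.mem_univ _)
    · rw [mulVec_smul, mulVec_cramer, inv_smul_smul₀ hd0]
  have hstable : ∀ γ c, ∃ u : Fin r → ℂ,
      (∀ i, u i ∈ O) ∧ (Bm τ).mulVec u = (ρ γ).1.mulVec (vec c) := by
    rintro γ ⟨q, i⟩
    have hmem : (o (γ • q))⁻¹ * (γ * o q) ∈ A := by
      rw [← QuotientGroup.eq, QuotientGroup.out_eq']
      conv_lhs => rw [← QuotientGroup.out_eq' q]
      rfl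
    let a := (o (γ • q))⁻¹ * (γ * o q)
    obtain ⟨u, hu, hu'⟩ := hexp (γ • q, i)
    refine ⟨(ρ a).1 i i • u, fun j => O.mul_mem _ _ (hint _ (hi a hmem i)) (hu j), ?_⟩
    rw [mulVec_smul, hu']
    have hprod : (ρ γ).1 * (ρ (o q)).1 = (ρ (o (γ • q))).1 * (ρ a).1 := by
      rw [← sl_mul, ← sl_mul, ← map_mul, ← map_mul]
      simp [a]
    ext k
    have hk := congrFun (congrFun hprod k) i
    rw [Matrix.mul_apply, Matrix.mul_apply, Finset.sum_eq_single (f := fun l =>
      (ρ (o (γ • q))).1 k l * (ρ a).1 l i) i (fun l _ hl => by rw [hd a hmem l i hl, mul_zero])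
      (fun h => absurd (Finset.mem_univ i) h)] at hk
    simp only [mulVec, dotProduct, vec, Pi.smul_apply, smul_eq_mul]
    rw [hk, mul_comm]
  choose U hU hU' using hstable
  obtain ⟨Q, z, hz, hQ⟩ := exists_sl_scale (Bm τ) (isUnit_iff_ne_zero.2 hd0)
  let X : Γ → Mat r := fun γ => Matrix.of fun k i => U γ (τ i) k
  have hX : ∀ γ, (Q⁻¹ * ρ γ * Q⁻¹⁻¹).1 = X γ := by
    intro γ
    have h1 : Bm τ * X γ = (ρ γ).1 * Bm τ := by
      ext k i
      have := congrFun (hU' γ (τ i)) k
      simpa [X, Bm, Matrix.mul_apply, mulVec, dotProduct] using this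
    have h2 : Q.1 * X γ = (ρ γ).1 * Q.1 := by
      rw [hQ, Matrix.smul_mul, Matrix.mul_smul, h1]
    rw [inv_inv, sl_mul, sl_mul, Matrix.mul_assoc, ← h2, ← Matrix.mul_assoc, ← sl_mul,
      inv_mul_cancel, sl_one, Matrix.one_mul]
  rw [← hf Q⁻¹]
  clear hf
  induction f using MvPolynomial.induction_on with
  | C z =>
    rw [MvPolynomial.aeval_C]
    exact hint _ isIntegral_algebraMap
  | add p q hp hq =>
    rw [map_add]
    exact O.add_mem _ _ hp hq
  | mul_X p v hp =>
    rw [map_mul, MvPolynomial.aeval_X, hX]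
    exact O.mul_mem _ _ hp (hU _ _ _)

/-- The unit `1 + √2`. -/
noncomputable def eps : ℂˣ :=
  Units.mk0 ((1 + Real.sqrt 2 : ℝ) : ℂ) (Complex.ofReal_ne_zero.2 (by positivity))

theorem eps_zpow_injective : Function.Injective fun z : ℤ => eps ^ z := by
  intro a b h
  have h1 : ((1 + Real.sqrt 2 : ℝ)) ^ a = (1 + Real.sqrt 2) ^ b := by
    have := congrArg Units.val h
    simp only [eps, Units.val_zpow_eq_zpow_val, Units.val_mk0] at this
    exact_mod_cast this
  exact zpow_right_injective₀ (by positivity)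
    (by linarith [Real.sqrt_pos.2 (two_pos : (0 : ℝ) < 2)]) h1

theorem isIntegral_eps_zpow (z : ℤ) : IsIntegral ℤ ((eps ^ z : ℂˣ) : ℂ) := by
  have hs : IsIntegral ℤ ((Real.sqrt 2 : ℝ) : ℂ) := by
    refine IsIntegral.of_pow two_pos ?_
    rw [← Complex.ofReal_pow, Real.sq_sqrt zero_le_two]
    simpa using isIntegral_algebraMap (R := ℤ) (A := ℂ) (x := 2)
  have hinv : ((eps⁻¹ : ℂˣ) : ℂ) = ((Real.sqrt 2 : ℝ) : ℂ) - 1 := by
    rw [Units.val_inv_eq_inv_val]
    refine inv_eq_of_mul_eq_one_right ?_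
    simp only [eps, Units.val_mk0]
    rw [← Complex.ofReal_one, ← Complex.ofReal_sub, ← Complex.ofReal_mul]
    congr 1
    nlinarith [Real.sq_sqrt (zero_le_two : (0 : ℝ) ≤ 2)]
  rcases z with m | m
  · rw [Int.ofNat_eq_natCast, zpow_natCast, Units.val_pow_eq_pow_val]
    refine IsIntegral.pow ?_ m
    simp only [eps, Units.val_mk0, Complex.ofReal_add, Complex.ofReal_one]
    exact isIntegral_one.add hs
  · rw [zpow_negSucc, ← inv_pow, Units.val_pow_eq_pow_val, hinv]
    exact (hs.sub isIntegral_one).pow _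

/-- Functions on a torus spanned by its characters. -/
noncomputable def charSpan (k : ℕ) : Subalgebra ℂ ((Fin k → ℂˣ) → ℂ) :=
  Algebra.adjoin ℂ (Set.range fun (z : Multiplicative (Fin k → ℤ)) (t : Fin k → ℂˣ) =>
    (monHom t z : ℂ))

theorem eq_zero_of_vanish {k : ℕ} (F : (Fin k → ℂˣ) → ℂ) (hF : F ∈ charSpan k)
    (h0 : ∀ z : Fin k → ℤ, F (fun i => eps ^ z i) = 0) : F = 0 := by
  classical
  let C : Multiplicative (Fin k → ℤ) →* ((Fin k → ℂˣ) → ℂ) :=
    { toFun := fun z t => (monHom t z : ℂ)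
      map_one' := by funext t; simp
      map_mul' := fun a c => by funext t; simp }
  have hF' : F ∈ Submodule.span ℂ (Set.range C) := by
    have h := (Algebra.adjoin_eq_span ℂ (Set.range C))
    have hcl : (Submonoid.closure (Set.range C) : Set ((Fin k → ℂˣ) → ℂ)) = Set.range C := by
      rw [← MonoidHom.coe_mrange, Submonoid.closure_eq]
    rw [hcl] at h
    rw [← h]
    exact hF
  obtain ⟨c, hc⟩ := Finsupp.mem_span_range_iff_exists_finsupp.1 hF'
  let χ : Multiplicative (Fin k → ℤ) → (Multiplicative (Fin k → ℤ) →* ℂ) := fun z =>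
    { toFun := fun l => (monHom (fun i => eps ^ l.toAdd i) z : ℂ)
      map_one' := by simp [monHom]
      map_mul' := fun a c => by
        simp only [monHom, MonoidHom.coe_mk, OneHom.coe_mk, toAdd_mul, Pi.add_apply, _root_.zpow_add,
          mul_zpow, Finset.prod_mul_distrib, Units.val_mul] }
  have hinj : Function.Injective χ := by
    intro a a' h
    apply Multiplicative.toAdd.injective
    funext i
    have h1 := DFunLike.congr_fun h (Multiplicative.ofAdd (Pi.single i 1))
    have h2 : ∀ z : Multiplicative (Fin k → ℤ),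
        monHom (fun j => eps ^ (Pi.single i (1 : ℤ) : Fin k → ℤ) j) z = eps ^ z.toAdd i := by
      intro z
      simp only [monHom, MonoidHom.coe_mk, OneHom.coe_mk]
      rw [Finset.prod_eq_single i (fun j _ hj => by simp [hj])
        (fun h => absurd (Finset.mem_univ i) h)]
      simp
    simp only [χ, MonoidHom.coe_mk, OneHom.coe_mk, toAdd_ofAdd, h2] at h1
    exact eps_zpow_injective (Units.ext h1)
  have hli := (linearIndependent_monoidHom (Multiplicative (Fin k → ℤ)) ℂ).comp χ hinj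
  have hc0 : c = 0 := by
    ext z
    by_cases hz : z ∈ c.support
    · refine linearIndependent_iff'.1 hli c.support c ?_ z hz
      funext l
      have h := h0 l.toAdd
      rw [← hc] at h
      simpa [Finsupp.sum, Finset.sum_apply, C, χ] using h
    · simpa using hz
  rw [← hc, hc0]
  simp

end Vale.Agent.P002.VAb
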