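import Vale.Agent.P002.VAbPoints
import Vale.Agent.P002.VAbFamily

/-!
P002, virtually abelian groups: the main theorem.
-/

namespace Vale.Agent.P002.VAb

open Matrix

variable {Γ : Type*} [Group Γ] {r b : ℕ} {ι : Type*}
  {π : Γ →* Equiv.Perm (Fin b)} {bl : Fin r → Fin b} {γc : ι → Γ}

/-- A block monomial representation twisted by a solution. -/
noncomputable def twist (σ : Γ →* Mat r) (hσ : ∀ γ, Blk bl (π γ) (σ γ))
    (S : Sol π bl γc ℂˣ) : Γ →* Mat r where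
  toFun γ := σ γ * bdiag bl (S.v γ)
  map_one' := by
    rw [map_one, Matrix.one_mul, show S.v 1 = fun _ => 1 from funext S.v_one, bdiag_one]
  map_mul' x y := by
    rw [map_mul, show S.v (x * y) = fun j => S.v x (π y j) * S.v y j from funext (S.cocycle x y),
      ← bdiag_mul, Matrix.mul_assoc (σ x), ← Matrix.mul_assoc (σ y), (hσ y).comm (S.v x)]
    simp only [Matrix.mul_assoc]

theorem twist_det (σ : Γ →* Mat r) (hσ : ∀ γ, Blk bl (π γ) (σ γ)) (S : Sol π bl γc ℂˣ) (γ : Γ) :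
    (twist σ hσ S γ).det = (σ γ).det := by
  show (σ γ * bdiag bl (S.v γ)).det = _
  rw [det_mul, bdiag, det_diagonal, ← Units.coe_prod, S.det, Units.val_one, mul_one]

theorem twist_cj (σ : Γ →* Mat r) (hσ : ∀ γ, Blk bl (π γ) (σ γ)) (S : Sol π bl γc ℂˣ) (i : ι) :
    Cj (σ (γc i)) (twist σ hσ S (γc i)) := by
  refine ⟨bdiag bl (S.x i), ?_, ?_⟩
  · rw [bdiag, det_diagonal, ← Units.coe_prod]; exact Units.isUnit _
  · show _ = σ (γc i) * bdiag bl (S.v (γc i)) * bdiag bl (S.x i)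
    rw [Matrix.mul_assoc, bdiag_mul]
    simp only [S.cob, div_mul_cancel]
    exact ((hσ (γc i)).comm (S.x i)).symm

theorem twist_blk (σ : Γ →* Mat r) (hσ : ∀ γ, Blk bl (π γ) (σ γ)) (S : Sol π bl γc ℂˣ) (γ : Γ) :
    Blk bl (π γ) (twist σ hσ S γ) := by
  intro k i h
  show (σ γ * bdiag bl (S.v γ)) k i = 0
  rw [bdiag, mul_diagonal, hσ γ k i h, zero_mul]

theorem semisimple_conj (ρ : Γ →* SpecialLinearGroup (Fin r) ℂ) (hρ : IsSemisimpleRep ρ)
    (Q : SpecialLinearGroup (Fin r) ℂ) :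
    IsSemisimpleRep ((MulAut.conj Q).toMonoidHom.comp ρ) := by
  intro W hW
  have hmv : ∀ x y : SpecialLinearGroup (Fin r) ℂ, ∀ v : Fin r → ℂ,
      (x * y).1.mulVec v = x.1.mulVec (y.1.mulVec v) := fun x y v => by
    rw [sl_mul, mulVec_mulVec]
  let e : (Fin r → ℂ) ≃ₗ[ℂ] (Fin r → ℂ) :=
    LinearEquiv.ofLinear Q.1.mulVecLin (Q⁻¹).1.mulVecLin
      (by rw [← mulVecLin_mul, ← sl_mul, mul_inv_cancel, sl_one, mulVecLin_one])
      (by rw [← mulVecLin_mul, ← sl_mul, inv_mul_cancel, sl_one, mulVecLin_one])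
  have hW0 : ∀ γ, ∀ v ∈ W.comap (e : (Fin r → ℂ) →ₗ[ℂ] Fin r → ℂ),
      (ρ γ).1.mulVec v ∈ W.comap (e : (Fin r → ℂ) →ₗ[ℂ] Fin r → ℂ) := by
    intro γ v hv
    show Q.1.mulVec ((ρ γ).1.mulVec v) ∈ W
    have := hW γ (Q.1.mulVec v) hv
    rwa [MonoidHom.comp_apply, MulEquiv.coe_toMonoidHom, MulAut.conj_apply, ← hmv,
      inv_mul_cancel_right, hmv] at this
  obtain ⟨W', hW', hc⟩ := hρ _ hW0
  refine ⟨W'.map (e : (Fin r → ℂ) →ₗ[ℂ] Fin r → ℂ), ?_, ?_⟩
  · rintro γ _ ⟨v, hv, rfl⟩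
    refine ⟨(ρ γ).1.mulVec v, hW' γ v hv, ?_⟩
    show Q.1.mulVec _ = ((MulAut.conj Q).toMonoidHom.comp ρ γ).1.mulVec (Q.1.mulVec v)
    rw [MonoidHom.comp_apply, MulEquiv.coe_toMonoidHom, MulAut.conj_apply, ← hmv, ← hmv,
      inv_mul_cancel_right]
  · have h := (Submodule.orderIsoMapComap e).isCompl hc
    convert! h using 1
    show W = Submodule.map _ (Submodule.comap _ W)
    rw [Submodule.map_comap_eq_of_surjective e.surjective]

theorem Cj.spectrum_eq {M N : Mat r} (h : Cj M N) : spectrum ℂ M = spectrum ℂ N := by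
  obtain ⟨P, hP, h⟩ := h
  obtain ⟨u, rfl⟩ := (isUnit_iff_isUnit_det P).2 hP
  rw [show N = (u : Mat r) * M * ((u⁻¹ : (Mat r)ˣ) : Mat r) by rw [h, Units.mul_inv_cancel_right],
    spectrum.units_conjugate]

theorem bdiag_pow (v : Fin b → ℂˣ) (N : ℕ) :
    bdiag bl v ^ N = bdiag bl (fun j => v j ^ N) := by
  rw [bdiag, diagonal_pow, bdiag]
  congr 1

/-- The subgroup of `D`-th powers of elements of an abelian subgroup. -/
def powSub (A : Subgroup Γ) (hA : ∀ a ∈ A, ∀ b ∈ A, a * b = b * a) (D : ℕ) : Subgroup Γ where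
  carrier := {x | ∃ a ∈ A, a ^ D = x}
  one_mem' := ⟨1, A.one_mem, one_pow D⟩
  mul_mem' := fun {x y} hx hy => by
    obtain ⟨a, ha, rfl⟩ := hx
    obtain ⟨a', ha', rfl⟩ := hy
    exact ⟨a * a', A.mul_mem ha ha', (show Commute a a' from hA a ha a' ha').mul_pow D⟩
  inv_mem' := fun {x} hx => by
    obtain ⟨a, ha, rfl⟩ := hx
    exact ⟨a⁻¹, A.inv_mem ha, inv_pow a D⟩

theorem powSub_normal (A : Subgroup Γ) [A.Normal] (hA : ∀ a ∈ A, ∀ b ∈ A, a * b = b * a) (D : ℕ) :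
    (powSub A hA D).Normal := by
  refine ⟨fun x hx γ => ?_⟩
  obtain ⟨a, ha, rfl⟩ := hx
  exact ⟨γ * a * γ⁻¹, Subgroup.Normal.conj_mem inferInstance a ha γ, conj_pow⟩

theorem powSub_finiteIndex (A : Subgroup Γ) [A.FiniteIndex] [Group.FG Γ]
    (hA : ∀ a ∈ A, ∀ b ∈ A, a * b = b * a) {D : ℕ} (hD : 0 < D) :
    (powSub A hA D).FiniteIndex := by
  let : CommGroup A :=
    { (inferInstance : Group A) with mul_comm := fun x y => Subtype.ext (hA x x.2 y y.2) }
  have : Group.FG A := Subgroup.fg_of_index_ne_zero (H := A)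
  let P : Subgroup A := (powMonoidHom D : A →* A).range
  have : Finite (A ⧸ P) := by
    refine CommGroup.finite_of_fg_isMulTorsion _ fun x => ?_
    induction x using QuotientGroup.induction_on with
    | H a =>
      rw [isOfFinOrder_iff_pow_eq_one]
      exact ⟨D, hD, (QuotientGroup.eq_one_iff _).2 ⟨a, rfl⟩⟩
  have heq : powSub A hA D = P.map A.subtype := by
    ext x
    constructor
    · rintro ⟨a, ha, rfl⟩
      exact ⟨(⟨a, ha⟩ : A) ^ D, ⟨⟨a, ha⟩, rfl⟩, rfl⟩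
    · rintro ⟨_, ⟨a, rfl⟩, rfl⟩
      exact ⟨a.1, a.2, rfl⟩
  refine ⟨?_⟩
  rw [heq, Subgroup.index_map_subtype]
  exact mul_ne_zero (Subgroup.index_ne_zero_of_finite (H := P))
    (Subgroup.FiniteIndex.index_ne_zero (H := A))

theorem core {n : ℕ} (g : Fin n → Γ) (hg : Subgroup.closure (Set.range g) = ⊤)
    (A : Subgroup Γ) [A.Normal] [A.FiniteIndex] (hA : ∀ a ∈ A, ∀ b ∈ A, a * b = b * a)
    [Finite ι] (γc : ι → Γ) (c : ι → SpecialLinearGroup (Fin r) ℂ)
    (E : ℕ) (hE0 : 0 < E) (hE : ∀ i, ∀ z ∈ spectrum ℂ (c i).1, z ^ E = 1)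
    (π : Γ →* Equiv.Perm (Fin b)) (bl : Fin r → Fin b) :
    ∃ S : Set ℂ, S.Finite ∧ (∀ x ∈ S, IsIntegral ℚ x) ∧
      ∀ L : IntermediateField ℚ ℂ, S ⊆ L →
      ∀ f : MvPolynomial (Fin n × Fin r × Fin r) ℂ,
        (∀ ρ' : Γ →* SpecialLinearGroup (Fin r) ℂ, IsSemisimpleRep ρ' →
          (∀ i, IsConj (ρ' (γc i)) (c i)) → IsIntegralPoint g L ρ' →
            MvPolynomial.aeval (coords g ρ') f = 0) →
      ∀ ρ : Γ →* SpecialLinearGroup (Fin r) ℂ, (∀ i, IsConj (ρ (γc i)) (c i)) →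
      ∀ (B : Mat r) (ρ₁ : Γ →* Mat r) (χ : Fin b → A →* ℂˣ),
        Function.Surjective bl → (∀ a ∈ A, π a = 1) → IsUnit B.det →
        (∀ γ, (ρ γ).1 * B = B * ρ₁ γ) → (∀ γ, Blk bl (π γ) (ρ₁ γ)) →
        (∀ a : A, ρ₁ a = bdiag bl (fun j => χ j a)) →
        (∀ γ j (a a' : A), γ * a'.1 = a.1 * γ → χ (π γ j) a = χ j a') →
          MvPolynomial.aeval (coords g ρ) f = 0 := by
  classical
  have : Group.FG Γ := Group.fg_iff.2 ⟨Set.range g, hg, Set.finite_range g⟩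
  obtain ⟨k, e, he, Φ, hΦ⟩ := exists_torus g hg π bl γc
  let m := A.index
  have hm : 0 < m := Nat.pos_of_ne_zero Subgroup.FiniteIndex.index_ne_zero
  let D := m * E * m * e
  have hD : 0 < D := by positivity
  let N := powSub A hA D
  have : N.Normal := powSub_normal A hA D
  have : N.FiniteIndex := powSub_finiteIndex A hA hD
  have : Fintype (Γ ⧸ N) := Fintype.ofFinite _
  let φ : Γ →* Γ ⧸ N := QuotientGroup.mk' N
  obtain ⟨s, hs⟩ := exists_base_points A φ π bl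
  refine ⟨{(eps : ℂ)} ∪
      Set.range (fun p : s × ((Γ ⧸ N) × Fin r × Fin r) => ((p.1.1 p.2 : Kbar) : ℂ)),
    (Set.finite_singleton _).union (Set.finite_range _), ?_, ?_⟩
  · rintro z (rfl | ⟨p, rfl⟩)
    · simpa using (isIntegral_eps_zpow 1).tower_top (A := ℚ)
    · exact mem_algebraicClosure_iff'.1 (p.1.1 p.2).2
  intro L hSL f hf ρ hρc B ρ₁ χ hsurj htriv hB hconj hblk hdiag hequiv
  have hρ₁det : ∀ γ, (ρ₁ γ).det = 1 := fun γ => by
    have h := congrArg Matrix.det (hconj γ)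
    rw [det_mul, det_mul, (ρ γ).2, one_mul, eq_comm] at h
    exact (mul_eq_left₀ hB.ne_zero).1 h
  have hρρ₁ : ∀ γ, Cj (ρ₁ γ) (ρ γ).1 := fun γ => ⟨B, hB, (hconj γ).symm⟩
  have hdet : ∀ a, ∏ i, χ (bl i) a = 1 := fun a => by
    apply Units.ext
    have h := hρ₁det a
    rw [hdiag, bdiag, det_diagonal] at h
    rw [Units.coe_prod, Units.val_one]
    exact h
  have hcls : ∀ i j (a : A), a.1 = γc i ^ A.index → χ j a ^ E = 1 := by
    intro i j a ha
    obtain ⟨i₀, rfl⟩ := hsurj j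
    have h1 : (χ (bl i₀) a : ℂ) ∈ spectrum ℂ (ρ₁ a) := by
      rw [hdiag, bdiag, spectrum_diagonal]
      exact ⟨i₀, rfl⟩
    have h3 : Cj (ρ₁ a) ((c i).1 ^ m) := by
      refine (hρρ₁ a).trans ?_
      rw [ha, map_pow]
      have h4 : IsConj (ρ (γc i) ^ m) (c i ^ m) := by
        obtain ⟨u, hu⟩ := isConj_iff.1 (hρc i)
        exact isConj_iff.2 ⟨u, by rw [← hu, conj_pow]⟩
      have h5 := Cj.of_isConj h4
      have hpow : (c i ^ m).1 = (c i).1 ^ m := Matrix.SpecialLinearGroup.coe_pow (c i) m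
      rwa [hpow] at h5
    rw [h3.spectrum_eq, spectrum.map_pow_of_pos _ hm] at h1
    obtain ⟨z, hz, hzz⟩ := h1
    apply Units.ext
    rw [Units.val_pow_eq_pow_val, ← hzz, Units.val_one]
    show (z ^ m) ^ E = 1
    rw [← pow_mul, mul_comm, pow_mul, hE i z hz, one_pow]
  obtain ⟨w, hw⟩ := exists_transfer A π bl γc htriv χ hequiv hdet E hcls
  obtain ⟨t, ht⟩ := hΦ w
  have hroot : ∀ i, ∃ u : ℂˣ, u ^ D = t i := fun i => by
    obtain ⟨u, hu⟩ := IsAlgClosed.exists_pow_nat_eq (t i : ℂ) hD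
    have hu0 : u ≠ 0 := by
      intro h0
      rw [h0, zero_pow hD.ne'] at hu
      exact (t i).ne_zero hu.symm
    exact ⟨Units.mk0 u hu0, Units.ext (by simpa using hu)⟩
  choose u hu using hroot
  let Su := Φ.map (monHom u)
  have hSu : ∀ γ j, Su.v γ j ^ D = w.v γ j ^ e := fun γ j => by
    rw [← ht]
    show (∏ i, u i ^ (Φ.v γ j).toAdd i) ^ D = ∏ i, t i ^ (Φ.v γ j).toAdd i
    rw [← Finset.prod_pow]
    refine Finset.prod_congr rfl fun i _ => ?_
    rw [← hu i, ← zpow_natCast, ← zpow_natCast, ← _root_.zpow_mul, ← _root_.zpow_mul, mul_comm]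
  let σ₀ := twist ρ₁ hblk Su.inv
  have hσ₀ : ∀ a : A, σ₀ a = bdiag bl (fun j => χ j a * (Su.v a j)⁻¹) := fun a => by
    show ρ₁ a * bdiag bl _ = _
    rw [hdiag, bdiag_mul]
    rfl
  have hker : N ≤ σ₀.ker := by
    rintro _ ⟨a, ha, rfl⟩
    rw [MonoidHom.mem_ker, map_pow]
    rw [show σ₀ a = σ₀ ((⟨a, ha⟩ : A) : Γ) from rfl, hσ₀, bdiag_pow]
    refine Eq.trans ?_ (bdiag_one bl)
    congr 1
    funext j
    rw [mul_pow, inv_pow, hSu, hw, ← pow_mul]
    exact mul_inv_cancel _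
  let σb := QuotientGroup.lift N σ₀ hker
  let y : (Γ ⧸ N) × Fin r × Fin r → ℂ := fun p => σb p.1 p.2.1 p.2.2
  have hy : IsBase A φ π bl y :=
    { mul := fun p q => map_mul σb p q
      one := map_one σb
      blk := fun γ => twist_blk ρ₁ hblk _ γ
      diag := fun a ha k i hki => by
        show σ₀ ((⟨a, ha⟩ : A) : Γ) k i = 0
        rw [hσ₀, bdiag, diagonal_apply_ne _ hki]
      det := fun q => by
        induction q using QuotientGroup.induction_on with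
        | H γ =>
          show (σ₀ γ).det = 1
          rw [twist_det, hρ₁det] }
  obtain ⟨x, hxs, hx, hTdet⟩ := hs y hy
  let T := inter (fun v => (x v : ℂ)) y
  have hTu : IsUnit T.det := isUnit_iff_ne_zero.2 hTdet
  let σ₁ : Γ →* Mat r :=
    { toFun := fun γ => mat (fun v => (x v : ℂ)) (φ γ)
      map_one' := by rw [map_one, hx.one]
      map_mul' := fun p q => by rw [map_mul, hx.mul] }
  have hT : ∀ γ, σ₁ γ * T = T * σ₀ γ := fun γ => inter_comm hx hy (φ γ)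
  have hTb : ∀ v : Fin b → ℂˣ, T * bdiag bl v = bdiag bl v * T := fun v => by
    simpa using (inter_blk (QuotientGroup.mk'_surjective N) hx hy).comm v
  have hblk₁ : ∀ γ, Blk bl (π γ) (σ₁ γ) := hx.blk
  let fm : (Fin k → ℂˣ) → (Γ →* Mat r) := fun t => twist σ₁ hblk₁ (Φ.map (monHom t))
  have hfu : ∀ γ, fm u γ * T = T * ρ₁ γ := fun γ => by
    have h1 : σ₀ γ * bdiag bl (Su.v γ) = ρ₁ γ := by
      show ρ₁ γ * bdiag bl (Su.inv.v γ) * _ = _
      rw [Matrix.mul_assoc, bdiag_mul]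
      have : (fun j => Su.inv.v γ j * Su.v γ j) = fun _ => 1 := by
        funext j
        exact inv_mul_cancel _
      rw [this, bdiag_one, Matrix.mul_one]
    show σ₁ γ * bdiag bl (Su.v γ) * T = _
    rw [Matrix.mul_assoc, ← hTb, ← Matrix.mul_assoc, hT, Matrix.mul_assoc, h1]
  have hfdet : ∀ t γ, (fm t γ).det = 1 := fun t γ => by
    rw [twist_det]
    exact hx.det (φ γ)
  let fsl : (Fin k → ℂˣ) → (Γ →* SpecialLinearGroup (Fin r) ℂ) := fun t =>
    { toFun := fun γ => ⟨fm t γ, hfdet t γ⟩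
      map_one' := Subtype.ext (map_one (fm t))
      map_mul' := fun p q => Subtype.ext (map_mul (fm t) p q) }
  obtain ⟨Q, z₀, -, hQ⟩ := exists_sl_scale (B * T⁻¹)
    (by rw [det_mul]; exact hB.mul (isUnit_nonsing_inv_det T hTu))
  let ρt : (Fin k → ℂˣ) → (Γ →* SpecialLinearGroup (Fin r) ℂ) := fun t =>
    (MulAut.conj Q).toMonoidHom.comp (fsl t)
  have hρt : ∀ t γ, ρt t γ = Q * fsl t γ * Q⁻¹ := fun t γ => rfl
  have hρu : ρt u = ρ := by
    refine MonoidHom.ext fun γ => ?_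
    rw [hρt, mul_inv_eq_iff_eq_mul]
    apply Subtype.ext
    rw [sl_mul, sl_mul, hQ, Matrix.smul_mul, Matrix.mul_smul]
    congr 1
    show B * T⁻¹ * fm u γ = (ρ γ).1 * (B * T⁻¹)
    calc B * T⁻¹ * fm u γ = B * T⁻¹ * (fm u γ * T * T⁻¹) := by
          rw [Matrix.mul_nonsing_inv_cancel_right _ _ hTu]
      _ = B * ρ₁ γ * T⁻¹ := by
          rw [hfu, Matrix.mul_assoc T, ← Matrix.mul_assoc, Matrix.mul_assoc B T⁻¹ T,
            Matrix.nonsing_inv_mul _ hTu, Matrix.mul_one, Matrix.mul_assoc]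
      _ = (ρ γ).1 * (B * T⁻¹) := by rw [← hconj, Matrix.mul_assoc]
  have hcond : ∀ t i, IsConj (ρt t (γc i)) (c i) := fun t i => by
    have h1 : Cj (fm t (γc i)) (σ₁ (γc i)) := (twist_cj σ₁ hblk₁ _ i).symm
    have h2 : Cj (σ₁ (γc i)) (σ₀ (γc i)) := Cj.symm ⟨T, hTu, (hT _).symm⟩
    have h3 : Cj (σ₀ (γc i)) (ρ₁ (γc i)) := (twist_cj ρ₁ hblk _ i).symm
    have h4 : IsConj (fsl t (γc i)) (c i) :=
      (Cj.isConj (M := fsl t (γc i)) (N := ρ (γc i))
        (((h1.trans h2).trans h3).trans (hρρ₁ _))).trans (hρc i)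
    exact (isConj_iff.2 ⟨Q, rfl⟩ : IsConj _ (Q * fsl t (γc i) * Q⁻¹)).symm.trans h4
  have hdiag₁ : ∀ t, ∀ a ∈ A, ∀ k' i, k' ≠ i → (fsl t a).1 k' i = 0 := fun t a ha k' i h => by
    show (σ₁ a * bdiag bl _) k' i = 0
    rw [bdiag, mul_diagonal]
    show mat _ (φ a) k' i * _ = 0
    rw [hx.diag a ha k' i h, zero_mul]
  let F : (Fin k → ℂˣ) → ℂ := fun t => MvPolynomial.aeval (coords g (ρt t)) f
  have hzero : ∀ z : Fin k → ℤ, F (fun i => eps ^ z i) = 0 := by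
    intro z
    let t₀ : Fin k → ℂˣ := fun i => eps ^ z i
    have hv : ∀ γ j, IsIntegral ℤ ((monHom t₀ (Φ.v γ j) : ℂˣ) : ℂ) := fun γ j => by
      show IsIntegral ℤ ((∏ i, (eps ^ z i) ^ (Φ.v γ j).toAdd i : ℂˣ) : ℂ)
      rw [Units.coe_prod]
      refine IsIntegral.prod _ fun i _ => ?_
      rw [← _root_.zpow_mul]
      exact isIntegral_eps_zpow _
    have hvL : ∀ γ j, ((monHom t₀ (Φ.v γ j) : ℂˣ) : ℂ) ∈ L := fun γ j => by
      show ((∏ i, (eps ^ z i) ^ (Φ.v γ j).toAdd i : ℂˣ) : ℂ) ∈ L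
      rw [Units.coe_prod]
      refine prod_mem fun i _ => ?_
      rw [← _root_.zpow_mul, Units.val_zpow_eq_zpow_val]
      exact zpow_mem (hSL (Or.inl rfl)) _
    have hint : ∀ a ∈ A, ∀ i, IsIntegral ℤ ((fsl t₀ a).1 i i) := fun a ha i => by
      show IsIntegral ℤ ((σ₁ a * bdiag bl _) i i)
      rw [bdiag, mul_diagonal]
      refine IsIntegral.mul ?_ (hv a (bl i))
      refine IsIntegral.of_pow hD ?_
      have hd : σ₁ a = diagonal fun l => σ₁ a l l := by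
        ext p q
        rcases eq_or_ne p q with h | h
        · subst h; simp
        · rw [diagonal_apply_ne _ h]; exact hx.diag a ha p q h
      have hp : σ₁ (a ^ D) = 1 := by
        show mat (fun v => (x v : ℂ)) (φ (a ^ D)) = 1
        rw [show φ (a ^ D) = 1 from (QuotientGroup.eq_one_iff _).2 ⟨a, ha, rfl⟩, hx.one]
      rw [map_pow, hd, diagonal_pow] at hp
      have := congrFun (congrFun hp i) i
      rw [diagonal_apply_eq, one_apply_eq, Pi.pow_apply] at this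
      rw [this]
      exact isIntegral_one
    refine hf _ (semisimple_conj _ (semisimple_of_diag A _ (hdiag₁ t₀)) Q) (hcond t₀) ?_
    intro q hq
    have hq' : MvPolynomial.aeval (coords g (ρt t₀)) q =
        MvPolynomial.aeval (coords g (fsl t₀)) q := hq (fsl t₀) Q
    rw [hq']
    refine ⟨?_, isIntegral_of_diag A _ (hdiag₁ t₀) hint g q (hq (fsl t₀))⟩
    clear hq hq'
    induction q using MvPolynomial.induction_on with
    | C a => simp
    | add p p' hp hp' => rw [map_add]; exact L.add_mem hp hp'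
    | mul_X p v hp =>
      rw [map_mul, MvPolynomial.aeval_X]
      refine L.mul_mem hp ?_
      show (σ₁ (g v.1) * bdiag bl _) v.2.1 v.2.2 ∈ L
      rw [bdiag, mul_diagonal]
      exact L.mul_mem (hSL (Or.inr ⟨(⟨x, hxs⟩, (φ (g v.1), v.2.1, v.2.2)), rfl⟩)) (hvL _ _)
  have hF : F ∈ charSpan k := by
    have hent : ∀ v : Fin n × Fin r × Fin r,
        (fun t => coords g (ρt t) v) ∈ charSpan k := fun v => by
      have heq : (fun t => coords g (ρt t) v) = ∑ l, ∑ l',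
          algebraMap ℂ ((Fin k → ℂˣ) → ℂ) (Q.1 v.2.1 l' * σ₁ (g v.1) l' l * (Q⁻¹).1 l v.2.2) *
            fun t => (monHom t (Φ.v (g v.1) (bl l)) : ℂ) := by
        funext t
        show (Q.1 * (σ₁ (g v.1) * bdiag bl _) * (Q⁻¹).1) v.2.1 v.2.2 = _
        simp only [Matrix.mul_apply, bdiag, diagonal_apply, mul_ite, mul_zero,
          Finset.sum_ite_eq', Finset.mem_univ, if_true, Finset.sum_apply, Pi.mul_apply,
          Pi.algebraMap_apply, Algebra.algebraMap_self, RingHom.id_apply, Finset.sum_mul]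
        refine Finset.sum_congr rfl fun l _ => Finset.sum_congr rfl fun l' _ => ?_
        show Q.1 v.2.1 l' * (σ₁ (g v.1) l' l * (monHom t (Φ.v (g v.1) (bl l)) : ℂ)) * _ = _
        ring
      rw [heq]
      exact sum_mem fun l _ => sum_mem fun l' _ => mul_mem (Subalgebra.algebraMap_mem _ _)
        (Algebra.subset_adjoin ⟨_, rfl⟩)
    have hFe : F = MvPolynomial.aeval (fun v t => coords g (ρt t) v) f := by
      funext t
      exact (MvPolynomial.comp_aeval_apply (fun v t => coords g (ρt t) v)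
        (Pi.evalAlgHom ℂ (fun _ : Fin k → ℂˣ => ℂ) t) f).symm
    rw [hFe]
    clear hFe hzero hf F
    induction f using MvPolynomial.induction_on with
    | C a => rw [MvPolynomial.aeval_C]; exact Subalgebra.algebraMap_mem _ _
    | add p p' hp hp' => rw [map_add]; exact add_mem hp hp'
    | mul_X p v hp => rw [map_mul, MvPolynomial.aeval_X]; exact mul_mem hp (hent v)
  have := congrFun (eq_zero_of_vanish F hF hzero) u
  rwa [show F u = MvPolynomial.aeval (coords g ρ) f by simp only [F, hρu]] at this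

theorem main {n : ℕ} (g : Fin n → Γ) (hg : Subgroup.closure (Set.range g) = ⊤)
    (A : Subgroup Γ) [A.Normal] [A.FiniteIndex] (hA : ∀ a ∈ A, ∀ b ∈ A, a * b = b * a)
    [Finite ι] (γc : ι → Γ) (c : ι → SpecialLinearGroup (Fin r) ℂ)
    (hc : ∀ i, ∀ z ∈ spectrum ℂ (c i).1, ∃ m : ℕ, 0 < m ∧ z ^ m = 1) :
    ∃ L : IntermediateField ℚ ℂ, FiniteDimensional ℚ L ∧
      ∀ f : MvPolynomial (Fin n × Fin r × Fin r) ℂ,
        (∀ ρ : Γ →* SpecialLinearGroup (Fin r) ℂ, IsSemisimpleRep ρ →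
          (∀ i, IsConj (ρ (γc i)) (c i)) → IsIntegralPoint g L ρ →
            MvPolynomial.aeval (coords g ρ) f = 0) →
      ∀ ρ : Γ →* SpecialLinearGroup (Fin r) ℂ, IsSemisimpleRep ρ →
        (∀ i, IsConj (ρ (γc i)) (c i)) → MvPolynomial.aeval (coords g ρ) f = 0 := by
  classical
  have := Fintype.ofFinite ι
  have hEx : ∃ E : ℕ, 0 < E ∧ ∀ i, ∀ z ∈ spectrum ℂ (c i).1, z ^ E = 1 := by
    choose m hm0 hm using hc
    have hfin : ∀ i, (spectrum ℂ (c i).1).Finite := fun i => Matrix.finite_spectrum _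
    have : ∀ i, Fintype (spectrum ℂ (c i).1) := fun i => (hfin i).fintype
    refine ⟨∏ i, ∏ z : spectrum ℂ (c i).1, m i z.1 z.2,
      Finset.prod_pos fun i _ => Finset.prod_pos fun z _ => hm0 i z.1 z.2, fun i z hz => ?_⟩
    obtain ⟨d, hd⟩ : m i z hz ∣ ∏ i, ∏ z : spectrum ℂ (c i).1, m i z.1 z.2 :=
      (Finset.dvd_prod_of_mem (fun z : spectrum ℂ (c i).1 => m i z.1 z.2)
        (Finset.mem_univ ⟨z, hz⟩)).trans
        (Finset.dvd_prod_of_mem (fun i => ∏ z : spectrum ℂ (c i).1, m i z.1 z.2)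
          (Finset.mem_univ i))
    rw [hd, pow_mul, hm, one_pow]
  obtain ⟨E, hE0, hE⟩ := hEx
  have hfinπ : ∀ b : Fin (r + 1), Finite (Γ →* Equiv.Perm (Fin b.1)) := fun b => by
    refine Finite.of_injective (fun π k => π (g k)) fun π π' h => ?_
    refine MonoidHom.eq_of_eqOn_top fun x hx => ?_
    rw [← hg] at hx
    refine MonoidHom.eqOn_closure ?_ hx
    rintro _ ⟨k, rfl⟩
    exact congrFun h k
  let Dt := Σ b : Fin (r + 1), (Γ →* Equiv.Perm (Fin b.1)) × (Fin r → Fin b.1)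
  choose S hSfin hSint hS using fun d : Dt =>
    core g hg A hA γc c E hE0 hE d.2.1 d.2.2
  have : Finite (⋃ d, S d) := (Set.finite_iUnion hSfin).to_subtype
  refine ⟨IntermediateField.adjoin ℚ (⋃ d, S d), IntermediateField.finiteDimensional_adjoin
    fun x hx => ?_, fun f hf ρ hρ hρc => ?_⟩
  · obtain ⟨d, hd⟩ := Set.mem_iUnion.1 hx
    exact hSint d x hd
  obtain ⟨N⟩ := exists_normalForm A hA ρ hρ
  exact hS ⟨N.b, N.π, N.bl⟩ _
    ((Set.subset_iUnion S _).trans (IntermediateField.subset_adjoin ℚ _)) f hf ρ hρc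
    N.B N.ρ₁ N.χ N.surj N.triv N.detB N.conj N.blk N.diag N.equiv

end Vale.Agent.P002.VAb
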