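import Vale.Agent.P002.VAbStructure

/-!
P002, virtually abelian groups: finitely many base representations with algebraic entries.
-/

namespace Vale.Agent.P002.VAb

open Matrix

/-- The algebraic numbers in `ℂ`. -/
noncomputable abbrev Kbar := algebraicClosure ℚ ℂ

instance : IsAlgClosed Kbar :=
  ((algebraicClosure.isAlgClosure ℚ ℂ :) : IsAlgClosure ℚ (algebraicClosure ℚ ℂ)).isAlgClosed

/-- A polynomial not vanishing at a point of a set defined over the algebraic numbers does not
vanish at some algebraic point of the same equations. -/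
theorem exists_alg_point {σ : Type*} [Finite σ] (V : Set (σ → ℂ)) {x₀ : σ → ℂ} (hx₀ : x₀ ∈ V)
    (p : MvPolynomial σ ℂ) (hp : MvPolynomial.eval x₀ p ≠ 0) :
    ∃ x : σ → Kbar, (∀ q : MvPolynomial σ Kbar,
        (∀ y ∈ V, MvPolynomial.aeval y q = 0) → MvPolynomial.eval x q = 0) ∧
      MvPolynomial.eval (fun v => (x v : ℂ)) p ≠ 0 := by
  classical
  by_contra hcon
  push Not at hcon
  let I : Ideal (MvPolynomial σ Kbar) :=
    ⨅ y : V, RingHom.ker (MvPolynomial.aeval (R := Kbar) y.1)
  have hI : ∀ q : MvPolynomial σ Kbar, q ∈ I ↔ ∀ y ∈ V, MvPolynomial.aeval y q = 0 := fun q => by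
    simp [I, Ideal.mem_iInf, RingHom.mem_ker]
  let bs := Module.Free.chooseBasis Kbar ℂ
  let S := p.support.biUnion fun m => (bs.repr (p.coeff m)).support
  let P : Module.Free.ChooseBasisIndex Kbar ℂ → MvPolynomial σ Kbar := fun i =>
    ∑ m ∈ p.support, MvPolynomial.monomial m (bs.repr (p.coeff m) i)
  have hev : ∀ z : σ → ℂ, MvPolynomial.eval z p = ∑ i ∈ S, MvPolynomial.aeval z (P i) * bs i := by
    intro z
    rw [MvPolynomial.eval_eq]
    simp only [P, map_sum, MvPolynomial.aeval_monomial, Finset.sum_mul]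
    rw [Finset.sum_comm]
    refine Finset.sum_congr rfl fun m hm => ?_
    have hsub : (bs.repr (p.coeff m)).support ⊆ S := fun i hi =>
      Finset.mem_biUnion.2 ⟨m, hm, hi⟩
    have h1 : p.coeff m = ∑ i ∈ S, (bs.repr (p.coeff m) i : ℂ) * bs i := by
      conv_lhs => rw [← bs.linearCombination_repr (p.coeff m), Finsupp.linearCombination_apply]
      rw [Finsupp.sum_of_support_subset _ hsub _ fun i _ => by simp]
      simp [IntermediateField.smul_def]
    conv_lhs => rw [h1, Finset.sum_mul]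
    refine Finset.sum_congr rfl fun i _ => ?_
    rw [show algebraMap Kbar ℂ (bs.repr (p.coeff m) i) = (bs.repr (p.coeff m) i : ℂ) from rfl,
      Finsupp.prod]
    ring
  have hP : ∀ i ∈ S, P i ∈ I.radical := by
    intro i hi
    rw [← MvPolynomial.vanishingIdeal_zeroLocus_eq_radical (K := Kbar)]
    intro x hx
    have hxI : ∀ q : MvPolynomial σ Kbar,
        (∀ y ∈ V, MvPolynomial.aeval y q = 0) → MvPolynomial.eval x q = 0 := fun q hq => by
      simpa [MvPolynomial.aeval_eq_eval] using hx q ((hI q).2 hq)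
    have h0 := hcon x hxI
    have hco : ∀ j, MvPolynomial.aeval (fun v => (x v : ℂ)) (P j) =
        algebraMap Kbar ℂ (MvPolynomial.eval x (P j)) := fun j => by
      rw [← MvPolynomial.aeval_eq_eval]
      exact (MvPolynomial.aeval_algebraMap_apply (R := Kbar) (B := ℂ) x (P j))
    rw [hev] at h0
    simp only [hco, ← Algebra.smul_def] at h0
    have := linearIndependent_iff'.1 bs.linearIndependent S
      (fun j => MvPolynomial.eval x (P j)) h0 i hi
    simpa [MvPolynomial.aeval_eq_eval] using this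
  apply hp
  rw [hev]
  refine Finset.sum_eq_zero fun i hi => ?_
  obtain ⟨N, hN⟩ := hP i hi
  have h := (hI _).1 hN x₀ hx₀
  rw [map_pow] at h
  rw [eq_zero_of_pow_eq_zero h, zero_mul]

/-- Finitely many algebraic points detect non-vanishing. -/
theorem exists_finite_detect {σ ι : Type*} [Finite σ] (D : ι → MvPolynomial σ ℂ) :
    ∃ s : Finset ι, ∀ y : σ → ℂ, (∃ x, MvPolynomial.eval y (D x) ≠ 0) →
      ∃ x ∈ s, MvPolynomial.eval y (D x) ≠ 0 := by
  classical
  obtain ⟨I, ⟨s, hs⟩, hmax⟩ := wellFounded_gt.has_min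
    (Set.range fun s : Finset ι => Ideal.span (D '' ↑s)) ⟨_, ∅, rfl⟩
  subst hs
  refine ⟨s, fun y ⟨x, hx⟩ => ?_⟩
  by_contra h
  push Not at h
  have hxI : D x ∈ Ideal.span (D '' ↑s) := by
    by_contra hn
    refine hmax _ ⟨insert x s, rfl⟩ (lt_of_le_of_ne
      (Ideal.span_mono (Set.image_mono (Finset.coe_subset.2 (Finset.subset_insert x s))))
      fun heq => hn ?_)
    dsimp only at heq
    rw [heq]
    exact Ideal.subset_span ⟨x, by simp, rfl⟩
  have hle : Ideal.span (D '' ↑s) ≤ RingHom.ker (MvPolynomial.eval y) := by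
    rw [Ideal.span_le]
    rintro _ ⟨z, hz, rfl⟩
    exact h z hz
  exact hx (hle hxI)

variable {Γ G : Type*} [Group Γ] [Group G] {r b : ℕ}

/-- The matrix attached to an element of `G` by a tuple of entries. -/
def mat (y : G × Fin r × Fin r → ℂ) (q : G) : Mat r := Matrix.of fun k i => y (q, k, i)

/-- The equations of a base representation. -/
structure IsBase (A : Subgroup Γ) (φ : Γ →* G) (π : Γ →* Equiv.Perm (Fin b))
    (bl : Fin r → Fin b) (y : G × Fin r × Fin r → ℂ) : Prop where
  mul : ∀ p q, mat y (p * q) = mat y p * mat y q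
  one : mat y 1 = 1
  blk : ∀ γ, Blk bl (π γ) (mat y (φ γ))
  diag : ∀ a ∈ A, ∀ k i, k ≠ i → mat y (φ a) k i = 0
  det : ∀ q, (mat y q).det = 1

/-- The averaged intertwiner of two base representations. -/
def inter [Fintype G] (x y : G × Fin r × Fin r → ℂ) : Mat r :=
  ∑ q, mat x q * mat y q⁻¹

theorem inter_comm [Fintype G] {A : Subgroup Γ} {φ : Γ →* G} {π : Γ →* Equiv.Perm (Fin b)}
    {bl : Fin r → Fin b} {x y : G × Fin r × Fin r → ℂ} (hx : IsBase A φ π bl x)
    (hy : IsBase A φ π bl y) (p : G) : mat x p * inter x y = inter x y * mat y p := by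
  simp only [inter, Finset.mul_sum, Finset.sum_mul]
  refine Fintype.sum_equiv (Equiv.mulLeft p) _ _ fun q => ?_
  rw [Equiv.coe_mulLeft, Matrix.mul_assoc (mat x (p * q)), ← hy.mul, hx.mul, Matrix.mul_assoc]
  simp

theorem inter_blk [Fintype G] {A : Subgroup Γ} {φ : Γ →* G} (hφ : Function.Surjective φ)
    {π : Γ →* Equiv.Perm (Fin b)} {bl : Fin r → Fin b} {x y : G × Fin r × Fin r → ℂ}
    (hx : IsBase A φ π bl x) (hy : IsBase A φ π bl y) : Blk bl 1 (inter x y) := by
  intro k i hki
  rw [inter, Matrix.sum_apply]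
  refine Finset.sum_eq_zero fun q _ => ?_
  obtain ⟨γ, rfl⟩ := hφ q
  rw [Matrix.mul_apply]
  refine Finset.sum_eq_zero fun l _ => ?_
  by_cases h1 : bl k = π γ (bl l)
  · have h2 : bl l ≠ π γ⁻¹ (bl i) := fun h2 => hki (by
      rw [h1, h2, ← Equiv.Perm.mul_apply, ← map_mul, mul_inv_cancel, map_one])
    rw [← map_inv, hy.blk γ⁻¹ l i h2, mul_zero]
  · rw [hx.blk γ k l h1, zero_mul]

theorem exists_base_points [Fintype G] (A : Subgroup Γ) (φ : Γ →* G)
    (π : Γ →* Equiv.Perm (Fin b)) (bl : Fin r → Fin b) :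
    ∃ s : Finset (G × Fin r × Fin r → Kbar),
      ∀ y, IsBase A φ π bl y → ∃ x ∈ s, IsBase A φ π bl (fun v => (x v : ℂ)) ∧
        (inter (fun v => (x v : ℂ)) y).det ≠ 0 := by
  classical
  let σ := G × Fin r × Fin r
  let P := {x : σ → Kbar // IsBase A φ π bl (fun v => (x v : ℂ))}
  let Xm : ∀ (R : Type) [CommRing R], G → Matrix (Fin r) (Fin r) (MvPolynomial σ R) :=
    fun R _ q => Matrix.of fun k i => MvPolynomial.X (q, k, i)
  have hXm : ∀ (z : σ → ℂ) q, (Xm ℂ q).map (MvPolynomial.eval z) = mat z q := fun z q => by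
    ext k i; simp [Xm, mat]
  have hC : ∀ (z : σ → ℂ) (M : Mat r),
      (M.map MvPolynomial.C).map (MvPolynomial.eval z) = M := fun z M => by
    ext k i; simp
  let D : P → MvPolynomial σ ℂ := fun x =>
    (∑ q, (mat (fun v => (x.1 v : ℂ)) q).map MvPolynomial.C * Xm ℂ q⁻¹).det
  have hD : ∀ (x : P) y, MvPolynomial.eval y (D x) =
      (inter (fun v => (x.1 v : ℂ)) y).det := fun x y => by
    show (MvPolynomial.eval y) (Matrix.det _) = _
    rw [RingHom.map_det, map_sum]
    congr 1
    refine Finset.sum_congr rfl fun q _ => ?_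
    rw [RingHom.mapMatrix_apply, Matrix.map_mul, hXm, hC]
  obtain ⟨s, hs⟩ := exists_finite_detect D
  refine ⟨s.map ⟨Subtype.val, Subtype.val_injective⟩, fun y hy => ?_⟩
  suffices ∃ x : P, MvPolynomial.eval y (D x) ≠ 0 by
    obtain ⟨x, hx, hne⟩ := hs y this
    exact ⟨x.1, Finset.mem_map_of_mem _ hx, x.2, by rwa [hD] at hne⟩
  let p : MvPolynomial σ ℂ := (∑ q, Xm ℂ q * (mat y q⁻¹).map MvPolynomial.C).det
  have hp : ∀ z, MvPolynomial.eval z p = (inter z y).det := fun z => by
    show (MvPolynomial.eval z) (Matrix.det _) = _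
    rw [RingHom.map_det, map_sum]
    congr 1
    refine Finset.sum_congr rfl fun q _ => ?_
    rw [RingHom.mapMatrix_apply, Matrix.map_mul, hXm, hC]
  have hp0 : MvPolynomial.eval y p ≠ 0 := by
    rw [hp, inter]
    simp only [← hy.mul, mul_inv_cancel, hy.one, Finset.sum_const, Finset.card_univ]
    rw [← Nat.cast_smul_eq_nsmul ℂ, det_smul, det_one, mul_one]
    exact pow_ne_zero _ (Nat.cast_ne_zero.2 Fintype.card_ne_zero)
  obtain ⟨x, hx, hne⟩ := exists_alg_point {z | IsBase A φ π bl z} hy p hp0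
  have hX : ∀ (z : σ → ℂ) q,
      (MvPolynomial.aeval (R := Kbar) z).toRingHom.mapMatrix (Xm Kbar q) = mat z q := fun z q => by
    ext k i; simp [Xm, mat]
  let ex : MvPolynomial σ Kbar →+* ℂ := (algebraMap Kbar ℂ).comp (MvPolynomial.eval x)
  have hXx : ∀ q, ex.mapMatrix (Xm Kbar q) = mat (fun v => (x v : ℂ)) q := fun q => by
    ext k i; simp [ex, Xm, mat]
  have hzero : ∀ M : Matrix (Fin r) (Fin r) (MvPolynomial σ Kbar),
      (∀ z, IsBase A φ π bl z →
        (MvPolynomial.aeval (R := Kbar) z).toRingHom.mapMatrix M = 0) →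
      ex.mapMatrix M = 0 := fun M hM => by
    ext k i
    have h0 := hx (M k i) fun z hz => congrFun (congrFun (hM z hz) k) i
    simp [ex, h0]
  refine ⟨⟨x, ?_⟩, ?_⟩
  · refine ⟨fun a c => ?_, ?_, fun γ k i h => ?_, fun a ha k i h => ?_, fun q => ?_⟩
    · have := hzero (Xm Kbar (a * c) - Xm Kbar a * Xm Kbar c) fun z hz => by
        rw [map_sub, map_mul, hX, hX, hX, hz.mul, sub_self]
      rwa [map_sub, map_mul, hXx, hXx, hXx, sub_eq_zero] at this
    · have := hzero (Xm Kbar 1 - 1) fun z hz => by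
        rw [map_sub, map_one, hX, hz.one, sub_self]
      rwa [map_sub, map_one, hXx, sub_eq_zero] at this
    · have h0 := hx (MvPolynomial.X (φ γ, k, i)) fun z hz => by
        simpa [mat] using hz.blk γ k i h
      simp only [MvPolynomial.eval_X] at h0
      simp [mat, h0]
    · have h0 := hx (MvPolynomial.X (φ a, k, i)) fun z hz => by
        simpa [mat] using hz.diag a ha k i h
      simp only [MvPolynomial.eval_X] at h0
      simp [mat, h0]
    · have h0 := hx ((Xm Kbar q).det - 1) fun z hz => by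
        show (MvPolynomial.aeval (R := Kbar) z).toRingHom _ = 0
        rw [map_sub, map_one, RingHom.map_det, hX, hz.det, sub_self]
      have h1 : ex ((Xm Kbar q).det - 1) = 0 := by simp [ex, h0]
      rwa [map_sub, map_one, RingHom.map_det, hXx, sub_eq_zero] at h1
  · rw [hD]
    rwa [hp] at hne

end Vale.Agent.P002.VAb
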