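import Vale.Agent.P002.VAbDefs

/-!
P002, virtually abelian groups: a semisimple representation is monomial in blocks with respect to
a common eigenbasis of the abelian normal subgroup.
-/

namespace Vale.Agent.P002.VAb

open Matrix

variable {r : ℕ}

abbrev Mat (r : ℕ) := Matrix (Fin r) (Fin r) ℂ

/-- Conjugacy by an invertible matrix. -/
def Cj (M N : Mat r) : Prop := ∃ P : Mat r, IsUnit P.det ∧ P * M = N * P

theorem Cj.refl (M : Mat r) : Cj M M := ⟨1, by simp, by simp⟩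

theorem Cj.symm {M N : Mat r} (h : Cj M N) : Cj N M := by
  obtain ⟨P, hP, h⟩ := h
  refine ⟨P⁻¹, isUnit_nonsing_inv_det P hP, ?_⟩
  calc P⁻¹ * N = P⁻¹ * (N * P) * P⁻¹ := by
        rw [Matrix.mul_assoc, Matrix.mul_assoc, Matrix.mul_nonsing_inv _ hP, Matrix.mul_one]
    _ = M * P⁻¹ := by
        rw [← h, ← Matrix.mul_assoc P⁻¹, Matrix.nonsing_inv_mul _ hP, Matrix.one_mul]

theorem Cj.trans {M N K : Mat r} (h : Cj M N) (h' : Cj N K) : Cj M K := by
  obtain ⟨P, hP, h⟩ := h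
  obtain ⟨Q, hQ, h'⟩ := h'
  refine ⟨Q * P, by rw [det_mul]; exact hQ.mul hP, ?_⟩
  rw [Matrix.mul_assoc, h, ← Matrix.mul_assoc, h', Matrix.mul_assoc]

theorem sl_mul (x y : SpecialLinearGroup (Fin r) ℂ) : (x * y).1 = x.1 * y.1 := rfl

theorem sl_one : (1 : SpecialLinearGroup (Fin r) ℂ).1 = 1 := rfl

theorem exists_sl_scale (P : Mat r) (hP : IsUnit P.det) :
    ∃ Q : SpecialLinearGroup (Fin r) ℂ, ∃ z : ℂ, z ≠ 0 ∧ Q.1 = z • P := by
  rcases Nat.eq_zero_or_pos r with hr | hr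
  · subst hr
    exact ⟨1, 1, one_ne_zero, Matrix.ext fun i => i.elim0⟩
  · obtain ⟨z, hz⟩ := IsAlgClosed.exists_pow_nat_eq (P.det)⁻¹ hr
    have hz0 : z ≠ 0 := by
      intro h0
      rw [h0, zero_pow hr.ne'] at hz
      exact inv_ne_zero hP.ne_zero hz.symm
    refine ⟨⟨z • P, ?_⟩, z, hz0, rfl⟩
    rw [det_smul, Fintype.card_fin, hz, inv_mul_cancel₀ hP.ne_zero]

theorem Cj.isConj {M N : SpecialLinearGroup (Fin r) ℂ} (h : Cj M.1 N.1) : IsConj M N := by
  obtain ⟨P, hP, h⟩ := h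
  obtain ⟨Q, z, -, hQ⟩ := exists_sl_scale P hP
  refine isConj_iff.2 ⟨Q, ?_⟩
  rw [mul_inv_eq_iff_eq_mul]
  apply Subtype.ext
  rw [sl_mul, sl_mul, hQ, Matrix.smul_mul, h,
    Matrix.mul_smul]

theorem Cj.of_isConj {M N : SpecialLinearGroup (Fin r) ℂ} (h : IsConj M N) : Cj M.1 N.1 := by
  obtain ⟨c, hc⟩ := isConj_iff.1 h
  refine ⟨c.1, ?_, ?_⟩
  · rw [c.2]; exact isUnit_one
  · rw [← sl_mul, ← sl_mul, ← hc, inv_mul_cancel_right]

variable {Γ : Type*} [Group Γ]

/-- The span of the common eigenvectors of `A` is everything, for a semisimple representation. -/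
theorem exists_eigenbasis (A : Subgroup Γ) [A.Normal]
    (hA : ∀ a ∈ A, ∀ b ∈ A, a * b = b * a)
    (ρ : Γ →* SpecialLinearGroup (Fin r) ℂ) (hρ : IsSemisimpleRep ρ) :
    ∃ B : Mat r, IsUnit B.det ∧ ∃ χ : Fin r → A → ℂ,
      ∀ a : A, (ρ a).1 * B = B * diagonal (fun i => χ i a) := by
  let E : Set (Fin r → ℂ) := {v | ∀ a : A, ∃ z : ℂ, (ρ a).1.mulVec v = z • v}
  let W := Submodule.span ℂ E
  have hmm : ∀ x y : Γ, ∀ v : Fin r → ℂ,
      (ρ (x * y)).1.mulVec v = (ρ x).1.mulVec ((ρ y).1.mulVec v) := by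
    intro x y v
    rw [map_mul, sl_mul, mulVec_mulVec]
  have hE : ∀ γ, ∀ v ∈ E, (ρ γ).1.mulVec v ∈ E := by
    intro γ v hv a
    obtain ⟨z, hz⟩ := hv ⟨γ⁻¹ * a * γ, by
      simpa using Subgroup.Normal.conj_mem inferInstance a.1 a.2 γ⁻¹⟩
    refine ⟨z, ?_⟩
    rw [← hmm, ← mulVec_smul, ← hz, ← hmm]
    congr 3
    group
  have hW : ∀ γ, ∀ v ∈ W, (ρ γ).1.mulVec v ∈ W := by
    intro γ v hv
    have hle : W ≤ W.comap (ρ γ).1.mulVecLin :=
      Submodule.span_le.2 fun w hw => Submodule.subset_span (hE γ w hw)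
    exact hle hv
  obtain ⟨W', hW', hc⟩ := hρ W hW
  have hbot : W' = ⊥ := by
    by_contra hne
    let T : Set (Submodule ℂ (Fin r → ℂ)) :=
      {U | U ≠ ⊥ ∧ U ≤ W' ∧ ∀ a : A, ∀ v ∈ U, (ρ a).1.mulVec v ∈ U}
    obtain ⟨U, hU, hmin⟩ := wellFounded_lt.has_min T
      ⟨W', hne, le_rfl, fun a v hv => hW' a v hv⟩
    obtain ⟨v, hvU, hv0⟩ := Submodule.exists_mem_ne_zero_of_ne_bot hU.1
    have hvE : v ∈ E := by
      intro a
      let F : U →ₗ[ℂ] U := (ρ a).1.mulVecLin.restrict fun w hw => hU.2.2 a w hw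
      have : Nontrivial U := Submodule.nontrivial_iff_ne_bot.2 hU.1
      obtain ⟨z, hz⟩ := Module.End.exists_eigenvalue F
      obtain ⟨w, hw⟩ := hz.exists_hasEigenvector
      let U' : Submodule ℂ (Fin r → ℂ) :=
        U ⊓ LinearMap.ker ((ρ a).1.mulVecLin - z • LinearMap.id)
      have hmem : ∀ {y : Fin r → ℂ}, y ∈ U' ↔ y ∈ U ∧ (ρ a).1.mulVec y = z • y := by
        intro y
        simp [U', sub_eq_zero]
      have hT : U' ∈ T := by
        refine ⟨fun h0 => ?_, inf_le_left.trans hU.2.1, fun a' y hy => ?_⟩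
        · have : w.1 ∈ U' := hmem.2 ⟨w.2, by
            exact congrArg Subtype.val hw.apply_eq_smul⟩
          rw [h0, Submodule.mem_bot] at this
          exact hw.2 (Subtype.ext this)
        · obtain ⟨h1, h2⟩ := hmem.1 hy
          refine hmem.2 ⟨hU.2.2 a' y h1, ?_⟩
          rw [← hmm, ← mulVec_smul, ← h2, ← hmm, hA a a.2 a' a'.2]
      have hUU : U' = U := by
        by_contra h
        exact hmin U' hT (lt_of_le_of_ne inf_le_left h)
      exact ⟨z, (hmem.1 (hUU.symm ▸ hvU)).2⟩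
    have hmem : v ∈ W ⊓ W' := ⟨Submodule.subset_span hvE, hU.2.1 hvU⟩
    rw [hc.inf_eq_bot, Submodule.mem_bot] at hmem
    exact hv0 hmem
  have htop : ⊤ ≤ W := by
    have h := hc.sup_eq_top
    rw [hbot, sup_bot_eq] at h
    rw [h]
  obtain ⟨s, hsE, hspan, hli⟩ := exists_linearIndependent ℂ E
  let bs : Module.Basis s ℂ (Fin r → ℂ) := Module.Basis.mk hli (by
    rw [Subtype.range_coe, hspan]; exact htop)
  have : Fintype s := FiniteDimensional.fintypeBasisIndex bs
  have hcard : Fintype.card s = r := by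
    rw [← Module.finrank_eq_card_basis bs, Module.finrank_fin_fun]
  let e : s ≃ Fin r := Fintype.equivFinOfCardEq hcard
  let bs' := bs.reindex e
  have hb : ∀ i, bs' i ∈ E := fun i => by
    simpa [bs', bs] using hsE (e.symm i).2
  choose χ hχ using hb
  let B : Mat r := Matrix.of fun k i => bs' i k
  refine ⟨B, ?_, fun i a => χ i a, fun a => ?_⟩
  · have hB : B = (Pi.basisFun ℂ (Fin r)).toMatrix bs' := by
      ext k i
      simp [B, Module.Basis.toMatrix_apply]
    let u := (Pi.basisFun ℂ (Fin r)).invertibleToMatrix bs'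
    rw [hB]
    exact (isUnit_iff_isUnit_det _).1 (isUnit_of_invertible _)
  · ext k i
    rw [mul_diagonal]
    have := congrFun (hχ i a) k
    simpa [B, mulVec, dotProduct, Matrix.mul_apply, mul_comm] using this

/-- Entries vanish outside the blocks prescribed by the permutation. -/
def Blk {b : ℕ} (bl : Fin r → Fin b) (p : Equiv.Perm (Fin b)) (M : Mat r) : Prop :=
  ∀ k i, bl k ≠ p (bl i) → M k i = 0

/-- The block diagonal matrix of a family of scalars. -/
def bdiag {b : ℕ} (bl : Fin r → Fin b) (v : Fin b → ℂˣ) : Mat r :=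
  diagonal fun i => (v (bl i) : ℂ)

theorem Blk.comm {b : ℕ} {bl : Fin r → Fin b} {p : Equiv.Perm (Fin b)} {M : Mat r}
    (h : Blk bl p M) (w : Fin b → ℂˣ) :
    M * bdiag bl (fun j => w (p j)) = bdiag bl w * M := by
  ext k i
  rw [bdiag, bdiag, mul_diagonal, diagonal_mul]
  by_cases hk : bl k = p (bl i)
  · rw [hk, mul_comm]
  · rw [h k i hk, zero_mul, mul_zero]

theorem bdiag_mul {b : ℕ} (bl : Fin r → Fin b) (v w : Fin b → ℂˣ) :
    bdiag bl v * bdiag bl w = bdiag bl (fun j => v j * w j) := by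
  simp [bdiag, diagonal_mul_diagonal]

theorem bdiag_one {b : ℕ} (bl : Fin r → Fin b) : bdiag bl (fun _ => 1) = 1 := by
  simp [bdiag]

/-- Normal form of a semisimple representation. -/
structure NormalForm (A : Subgroup Γ) (ρ : Γ →* SpecialLinearGroup (Fin r) ℂ) where
  b : Fin (r + 1)
  bl : Fin r → Fin b.1
  π : Γ →* Equiv.Perm (Fin b.1)
  B : Mat r
  ρ₁ : Γ →* Mat r
  χ : Fin b.1 → A →* ℂˣ
  surj : Function.Surjective bl
  triv : ∀ a ∈ A, π a = 1
  detB : IsUnit B.det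
  conj : ∀ γ, (ρ γ).1 * B = B * ρ₁ γ
  blk : ∀ γ, Blk bl (π γ) (ρ₁ γ)
  diag : ∀ a : A, ρ₁ a = bdiag bl (fun j => χ j a)
  equiv : ∀ γ j (a a' : A), γ * a'.1 = a.1 * γ → χ (π γ j) a = χ j a'

theorem exists_normalForm (A : Subgroup Γ) [A.Normal]
    (hA : ∀ a ∈ A, ∀ b ∈ A, a * b = b * a)
    (ρ : Γ →* SpecialLinearGroup (Fin r) ℂ) (hρ : IsSemisimpleRep ρ) :
    Nonempty (NormalForm A ρ) := by
  classical
  obtain ⟨B, hB, χ', hχ'⟩ := exists_eigenbasis A hA ρ hρ
  let ρ₁ : Γ →* Mat r :=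
    { toFun := fun γ => B⁻¹ * (ρ γ).1 * B
      map_one' := by rw [map_one, sl_one, Matrix.mul_one, Matrix.nonsing_inv_mul _ hB]
      map_mul' := fun x y => by
        have hy : (ρ y).1 * B = B * (B⁻¹ * (ρ y).1 * B) := by
          rw [← Matrix.mul_assoc, ← Matrix.mul_assoc, Matrix.mul_nonsing_inv _ hB, Matrix.one_mul]
        rw [map_mul, sl_mul]
        conv_lhs => rw [Matrix.mul_assoc, Matrix.mul_assoc, hy, ← Matrix.mul_assoc,
          ← Matrix.mul_assoc] }
  have hconj : ∀ γ, (ρ γ).1 * B = B * ρ₁ γ := fun γ => by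
    show _ = B * (B⁻¹ * (ρ γ).1 * B)
    rw [← Matrix.mul_assoc, ← Matrix.mul_assoc, Matrix.mul_nonsing_inv _ hB, Matrix.one_mul]
  have hd : ∀ a : A, ρ₁ a = diagonal fun i => χ' i a := fun a => by
    show B⁻¹ * (ρ a).1 * B = _
    rw [Matrix.mul_assoc, hχ', ← Matrix.mul_assoc, Matrix.nonsing_inv_mul _ hB, Matrix.one_mul]
  have hone : ∀ i, χ' i 1 = 1 := fun i => by
    have := congrFun (congrFun (hd 1) i) i
    simpa using this.symm
  have hmul : ∀ i a a', χ' i (a * a') = χ' i a * χ' i a' := fun i a a' => by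
    have h := hd (a * a')
    rw [Subgroup.coe_mul, map_mul, hd, hd, diagonal_mul_diagonal] at h
    exact (congrFun (diagonal_injective h) i).symm
  let χh : Fin r → A →* ℂˣ := fun i =>
    MonoidHom.toHomUnits ⟨⟨fun a => χ' i a, hone i⟩, hmul i⟩
  let S : Finset (A →* ℂˣ) := Finset.univ.image χh
  let eS := S.equivFin
  let bl : Fin r → Fin S.card := fun i => eS ⟨χh i, by simp [S]⟩
  let χ : Fin S.card → A →* ℂˣ := fun j => (eS.symm j).1
  have hbl : ∀ i, χ (bl i) = χh i := fun i => by simp [χ, bl]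
  have hinj : Function.Injective χ := Subtype.val_injective.comp eS.symm.injective
  have hsurj : Function.Surjective bl := fun j => by
    obtain ⟨i, -, hi⟩ := Finset.mem_image.1 (eS.symm j).2
    exact ⟨i, hinj (by rw [hbl]; exact hi)⟩
  let cj : Γ → A → A := fun γ a => ⟨γ⁻¹ * a * γ, by
    simpa using Subgroup.Normal.conj_mem inferInstance a.1 a.2 γ⁻¹⟩
  have key : ∀ γ k i, ρ₁ γ k i ≠ 0 → ∀ a, χh k a = χh i (cj γ a) := by
    intro γ k i hne a
    have h : ρ₁ a * ρ₁ γ = ρ₁ γ * ρ₁ (cj γ a) := by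
      rw [← map_mul, ← map_mul]
      congr 1
      simp [cj, mul_assoc]
    have h' := congrFun (congrFun h k) i
    rw [hd, hd, diagonal_mul, mul_diagonal, mul_comm] at h'
    exact Units.ext (mul_left_cancel₀ hne h')
  have hcol : ∀ γ i, ∃ k, ρ₁ γ k i ≠ 0 := by
    intro γ i
    by_contra hcon
    push Not at hcon
    have h := congrFun (congrFun (ρ₁.map_mul γ⁻¹ γ) i) i
    rw [inv_mul_cancel, map_one, one_apply_eq, Matrix.mul_apply] at h
    simp [hcon] at h
  have hex : ∀ γ j, ∃ k, ∀ a, χ k a = χ j (cj γ a) := by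
    intro γ j
    obtain ⟨i, rfl⟩ := hsurj j
    obtain ⟨k, hk⟩ := hcol γ i
    exact ⟨bl k, fun a => by rw [hbl, hbl, key γ k i hk]⟩
  choose pf hpf using hex
  have hpmul : ∀ γ δ j, pf (γ * δ) j = pf γ (pf δ j) := by
    intro γ δ j
    apply hinj
    ext a : 1
    rw [hpf, hpf, hpf]
    congr 1
    apply Subtype.ext
    simp [cj, mul_assoc]
  have hp1 : ∀ a ∈ A, ∀ j, pf a j = j := by
    intro a ha j
    apply hinj
    ext x : 1
    rw [hpf]
    congr 1
    apply Subtype.ext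
    show a⁻¹ * x.1 * a = x.1
    rw [mul_assoc, hA x.1 x.2 a ha, inv_mul_cancel_left]
  let π : Γ →* Equiv.Perm (Fin S.card) :=
    { toFun := fun γ => ⟨pf γ, pf γ⁻¹,
        fun j => by rw [← hpmul, inv_mul_cancel, hp1 1 A.one_mem],
        fun j => by rw [← hpmul, mul_inv_cancel, hp1 1 A.one_mem]⟩
      map_one' := Equiv.ext fun j => hp1 1 A.one_mem j
      map_mul' := fun γ δ => Equiv.ext fun j => hpmul γ δ j }
  have hle : S.card < r + 1 := by
    have := Finset.card_image_le (s := (Finset.univ : Finset (Fin r))) (f := χh)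
    simpa [S, Nat.lt_succ_iff] using this
  exact ⟨{
    b := ⟨S.card, hle⟩
    bl := bl
    π := π
    B := B
    ρ₁ := ρ₁
    χ := χ
    surj := hsurj
    triv := fun a ha => Equiv.ext fun j => hp1 a ha j
    detB := hB
    conj := hconj
    blk := fun γ k i hne => by
      by_contra h0
      exact hne (hinj (by
        ext a : 1
        show χ (bl k) a = χ (pf γ (bl i)) a
        rw [hpf, hbl, hbl, key γ k i h0]))
    diag := fun a => by
      rw [hd, bdiag]
      congr 1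
      funext i
      rw [hbl]
      rfl
    equiv := fun γ j a a' h => by
      show χ (pf γ j) a = χ j a'
      rw [hpf]
      congr 1
      apply Subtype.ext
      show γ⁻¹ * a.1 * γ = a'.1
      rw [mul_assoc, ← h, inv_mul_cancel_left] }⟩

end Vale.Agent.P002.VAb
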