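import Vale.Agent.P002.VSolvReps

/-!
P002, virtually solvable groups: in a solvable group, a semisimple representation of bounded
dimension has commutative image on a subgroup of bounded index.
-/

namespace Vale.Agent.P002.VSolv

open scoped commutatorElement

universe u

variable {G : Type u} [Group G] {V : Type} [AddCommGroup V] [Module ℂ V]

/-- The image is commutative on a subgroup of index at most `N`. -/
def HasAb (ρ : G →* Module.End ℂ V) (N : ℕ) : Prop :=
  ∃ H : Subgroup G, H.index ≠ 0 ∧ H.index ≤ N ∧ ∀ x ∈ H, ∀ y ∈ H, ρ x * ρ y = ρ y * ρ x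

theorem HasAb.mono {ρ : G →* Module.End ℂ V} {N N' : ℕ} (h : HasAb ρ N) (hN : N ≤ N') :
    HasAb ρ N' := by
  obtain ⟨H, h0, h1, h2⟩ := h
  exact ⟨H, h0, h1.trans hN, h2⟩

theorem hasAb_of_isCompl {ρ : G →* Module.End ℂ V} {W W' : Submodule ℂ V} (hW : Inv ρ W)
    (hW' : Inv ρ W') (hc : IsCompl W W') {N N' : ℕ} (h : HasAb (res ρ W hW) N)
    (h' : HasAb (res ρ W' hW') N') : HasAb ρ (N * N') := by
  obtain ⟨H, h0, h1, h2⟩ := h
  obtain ⟨H', h0', h1', h2'⟩ := h'
  refine ⟨H ⊓ H', Subgroup.index_inf_ne_zero h0 h0',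
    Subgroup.index_inf_le.trans (Nat.mul_le_mul h1 h1'), fun x hx y hy => ?_⟩
  refine LinearMap.ext fun v => ?_
  obtain ⟨a, ha, b, hb, rfl⟩ := Submodule.mem_sup.1 (hc.sup_eq_top ▸ Submodule.mem_top (x := v))
  rw [map_add, map_add]
  congr 1
  · exact congrArg Subtype.val (LinearMap.congr_fun (h2 x hx.1 y hy.1) ⟨a, ha⟩)
  · exact congrArg Subtype.val (LinearMap.congr_fun (h2' x hx.2 y hy.2) ⟨b, hb⟩)

theorem hasAb_of_subgroup {ρ : G →* Module.End ℂ V} {K : Subgroup G} (hK : K.index ≠ 0) {M N : ℕ}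
    (hM : K.index ≤ M) (h : HasAb (ρ.comp K.subtype) N) : HasAb ρ (N * M) := by
  obtain ⟨H, h0, h1, h2⟩ := h
  refine ⟨H.map K.subtype, ?_, ?_, ?_⟩
  · rw [Subgroup.index_map_subtype]; exact mul_ne_zero h0 hK
  · rw [Subgroup.index_map_subtype]; exact Nat.mul_le_mul h1 hM
  · rintro _ ⟨x, hx, rfl⟩ _ ⟨y, hy, rfl⟩
    exact h2 x hx y hy

/-- The elements acting by scalars. -/
def scal (ρ : G →* Module.End ℂ V) : Subgroup G where
  carrier := {g | ∃ z : ℂ, z ≠ 0 ∧ ρ g = z • 1}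
  one_mem' := ⟨1, one_ne_zero, by rw [map_one, one_smul]⟩
  mul_mem' := fun {x y} hx hy => by
    obtain ⟨z, hz, hx⟩ := hx
    obtain ⟨w, hw, hy⟩ := hy
    exact ⟨z * w, mul_ne_zero hz hw, by
      rw [map_mul, hx, hy, smul_mul_smul_comm, one_mul]⟩
  inv_mem' := fun {x} hx => by
    obtain ⟨z, hz, hx⟩ := hx
    refine ⟨z⁻¹, inv_ne_zero hz, ?_⟩
    have h : ρ x⁻¹ * ρ x = 1 := by rw [← map_mul, inv_mul_cancel, map_one]
    rw [hx, mul_smul_comm, mul_one] at h
    rw [← h, inv_smul_smul₀ hz]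

theorem scal_normal (ρ : G →* Module.End ℂ V) : (scal ρ).Normal := by
  refine ⟨fun x hx g => ?_⟩
  obtain ⟨z, hz, hx⟩ := hx
  refine ⟨z, hz, ?_⟩
  rw [map_mul, map_mul, hx, mul_smul_comm, mul_one, smul_mul_assoc, ← map_mul, mul_inv_cancel,
    map_one]

theorem scal_comm {ρ : G →* Module.End ℂ V} {x : G} (hx : x ∈ scal ρ) (y : G) :
    ρ x * ρ y = ρ y * ρ x := by
  obtain ⟨z, -, hx⟩ := hx
  rw [hx, smul_mul_assoc, one_mul, mul_smul_comm, mul_one]

/-- Commutation up to a scalar. -/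
def QComm (ρ : G →* Module.End ℂ V) (x y : G) : Prop := ⁅x, y⁆ ∈ scal ρ

theorem qcomm_iff {ρ : G →* Module.End ℂ V} {x y : G} :
    QComm ρ x y ↔ ∃ z : ℂ, z ≠ 0 ∧ ρ x * ρ y = z • (ρ y * ρ x) := by
  have hxy : x * y = ⁅x, y⁆ * (y * x) := by rw [commutatorElement_def]; group
  constructor
  · rintro ⟨z, hz, hc⟩
    refine ⟨z, hz, ?_⟩
    rw [← map_mul, hxy, map_mul, hc, smul_mul_assoc, one_mul, map_mul]
  · rintro ⟨z, hz, h⟩
    refine ⟨z, hz, ?_⟩
    rw [commutatorElement_def, map_mul, map_mul, map_mul, h, smul_mul_assoc, smul_mul_assoc, ← map_mul,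
      ← map_mul, ← map_mul]
    congr 1
    rw [← map_one ρ]
    congr 1
    group

/-- A normal subgroup with commutative non-scalar image gives a proper invariant subspace for a
normal subgroup of bounded index. -/
theorem exists_block [FiniteDimensional ℂ V] [Nontrivial V] (ρ : G →* Module.End ℂ V)
    (hirr : ∀ W, Inv ρ W → W = ⊥ ∨ W = ⊤) (A : Subgroup G) [A.Normal]
    (hA : ∀ a ∈ A, ∀ a' ∈ A, ρ a * ρ a' = ρ a' * ρ a) (hns : ¬A ≤ scal ρ) :
    ∃ K : Subgroup G, K.Normal ∧ K.index ≠ 0 ∧ K.index ≤ (Module.finrank ℂ V).factorial ∧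
      ∃ W, Inv (ρ.comp K.subtype) W ∧ W ≠ ⊥ ∧ W ≠ ⊤ := by
  classical
  let E : (A → ℂ) → Submodule ℂ V := fun χ =>
    ⨅ a : A, LinearMap.ker (ρ a - χ a • (1 : Module.End ℂ V))
  have hE : ∀ χ v, v ∈ E χ ↔ ∀ a : A, ρ a v = χ a • v := by
    intro χ v
    simp [E, sub_eq_zero]
  let cj : G → A → A := fun g a => ⟨g⁻¹ * a * g, by
    simpa using Subgroup.Normal.conj_mem inferInstance a.1 a.2 g⁻¹⟩
  have hEg : ∀ g χ v, v ∈ E χ → ρ g v ∈ E fun a => χ (cj g a) := by
    intro g χ v hv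
    rw [hE] at hv ⊢
    intro a
    rw [← map_smul, ← hv (cj g a), ← Module.End.mul_apply, ← Module.End.mul_apply, ← map_mul,
      ← map_mul]
    congr 2
    simp [cj, mul_assoc]
  let Ev : Set V := {v | ∃ χ, v ∈ E χ}
  obtain ⟨U, ⟨hU0, hUi⟩, hmin⟩ := wellFounded_lt.has_min
    {U : Submodule ℂ V | U ≠ ⊥ ∧ ∀ a : A, ∀ v ∈ U, ρ a v ∈ U} ⟨⊤, top_ne_bot, fun a v _ => trivial⟩
  obtain ⟨v₀, hv₀U, hv₀0⟩ := Submodule.exists_mem_ne_zero_of_ne_bot hU0
  have hv₀ : ∀ a : A, ∃ z : ℂ, ρ a v₀ = z • v₀ := by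
    intro a
    have : Nontrivial U := Submodule.nontrivial_iff_ne_bot.2 hU0
    obtain ⟨z, hz⟩ := Module.End.exists_eigenvalue ((ρ a).restrict (hUi a))
    obtain ⟨w, hw⟩ := hz.exists_hasEigenvector
    let U' := U ⊓ LinearMap.ker (ρ a - z • (1 : Module.End ℂ V))
    have hmem : ∀ {y : V}, y ∈ U' ↔ y ∈ U ∧ ρ a y = z • y := by
      intro y
      simp [U', sub_eq_zero]
    have hU' : U' ∈ {U : Submodule ℂ V | U ≠ ⊥ ∧ ∀ a : A, ∀ v ∈ U, ρ a v ∈ U} := by
      refine ⟨fun h0 => ?_, fun a' y hy => ?_⟩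
      · have : w.1 ∈ U' := hmem.2 ⟨w.2, congrArg Subtype.val hw.apply_eq_smul⟩
        rw [h0, Submodule.mem_bot] at this
        exact hw.2 (Subtype.ext this)
      · obtain ⟨h1, h2⟩ := hmem.1 hy
        refine hmem.2 ⟨hUi a' y h1, ?_⟩
        rw [← map_smul, ← h2, ← Module.End.mul_apply, ← Module.End.mul_apply, hA a a.2 a' a'.2]
    have hUU : U' = U := by
      by_contra h
      exact hmin U' hU' (lt_of_le_of_ne inf_le_left h)
    exact ⟨z, (hmem.1 (hUU.symm ▸ hv₀U)).2⟩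
  choose χ₀ hχ₀ using hv₀
  have hv₀E : v₀ ∈ E χ₀ := (hE _ _).2 hχ₀
  have hspan : Submodule.span ℂ Ev = ⊤ := by
    refine (hirr _ ?_).resolve_left fun h => hv₀0 ?_
    · intro g v hv
      have hle : Submodule.span ℂ Ev ≤ (Submodule.span ℂ Ev).comap (ρ g) :=
        Submodule.span_le.2 fun w ⟨χ, hw⟩ => Submodule.subset_span ⟨_, hEg g χ w hw⟩
      exact hle hv
    · have := Submodule.subset_span (R := ℂ) (show v₀ ∈ Ev from ⟨χ₀, hv₀E⟩)
      rwa [h, SetLike.mem_coe, Submodule.mem_bot] at this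
  obtain ⟨s, hsE, hs, hli⟩ := exists_linearIndependent ℂ Ev
  let bs : Module.Basis s ℂ V := Module.Basis.mk hli (by rw [Subtype.range_coe, hs, hspan])
  have : Fintype s := FiniteDimensional.fintypeBasisIndex bs
  have hcard : Fintype.card s = Module.finrank ℂ V := (Module.finrank_eq_card_basis bs).symm
  choose χs hχs using fun i : s => hsE i.2
  have huniq : ∀ χ v, v ≠ 0 → v ∈ E χ → ∃ i, χ = χs i := by
    intro χ v hv0 hv
    have hex : ∃ i, bs.repr v i ≠ 0 := by
      by_contra h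
      push Not at h
      exact hv0 (bs.repr.map_eq_zero_iff.1 (Finsupp.ext h))
    obtain ⟨i, hi⟩ := hex
    refine ⟨i, funext fun a => ?_⟩
    have h1 : ρ a v = ∑ j, (bs.repr v j * χs j a) • bs j := by
      conv_lhs => rw [← bs.sum_repr v]
      rw [map_sum]
      refine Finset.sum_congr rfl fun j _ => ?_
      rw [map_smul, show ρ a (bs j) = χs j a • bs j from by
        rw [Module.Basis.mk_apply]; exact (hE _ _).1 (hχs j) a, smul_smul]
    rw [(hE χ v).1 hv a] at h1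
    have h2 := congrArg (fun w => bs.repr w i) h1
    simp only [map_smul, Finsupp.smul_apply, smul_eq_mul, bs.repr_sum_self] at h2
    rw [mul_comm (bs.repr v i)] at h2
    exact mul_right_cancel₀ hi h2
  let T : Subgroup G :=
    { carrier := {g | ∀ a, χ₀ (cj g a) = χ₀ a}
      one_mem' := fun a => by simp [cj]
      mul_mem' := fun {x y} hx hy a => by
        rw [show cj (x * y) a = cj y (cj x a) from Subtype.ext (by simp [cj, mul_assoc]), hy, hx]
      inv_mem' := fun {x} hx a => by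
        conv_rhs => rw [show a = cj x (cj x⁻¹ a) from Subtype.ext (by simp [cj, mul_assoc])]
        rw [hx] }
  have hfib : ∀ g h : G, (∀ a, χ₀ (cj g a) = χ₀ (cj h a)) → (g : G ⧸ T) = h := by
    intro g h hgh
    refine QuotientGroup.eq.2 fun a => ?_
    have h1 := hgh (cj g⁻¹ a)
    rw [show cj g (cj g⁻¹ a) = a from Subtype.ext (by simp [cj, mul_assoc]),
      show cj h (cj g⁻¹ a) = cj (g⁻¹ * h) a from Subtype.ext (by simp [cj, mul_assoc])] at h1
    exact h1.symm
  have hidx : ∀ q : G ⧸ T, ∃ i, (fun a => χ₀ (cj q.out a)) = χs i := fun q =>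
    huniq _ (ρ q.out v₀) (fun h => hv₀0 (by
      rw [← inv_apply_apply ρ q.out v₀, h, map_zero])) (hEg _ _ _ hv₀E)
  choose idx hidx using hidx
  have hinj : Function.Injective idx := fun q q' h => by
    rw [← QuotientGroup.out_eq' q, ← QuotientGroup.out_eq' q']
    exact hfib _ _ fun a => congrFun ((hidx q).trans (h ▸ (hidx q').symm)) a
  have : Finite (G ⧸ T) := Finite.of_injective idx hinj
  have : Fintype (G ⧸ T) := Fintype.ofFinite _
  have hker : T.normalCore = (MulAction.toPermHom G (G ⧸ T)).ker := Subgroup.normalCore_eq_ker T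
  have hindex : T.normalCore.index = Nat.card (MulAction.toPermHom G (G ⧸ T)).range := by
    rw [hker]
    exact Subgroup.index_ker _
  refine ⟨T.normalCore, inferInstance, ?_, ?_, E χ₀, ?_, ?_, ?_⟩
  · rw [hindex]; exact Nat.card_pos.ne'
  · rw [hindex, ← hcard]
    refine (Finite.card_subtype_le _).trans ?_
    rw [Nat.card_eq_fintype_card, Fintype.card_perm]
    exact Nat.factorial_le (Fintype.card_le_of_injective idx hinj)
  · intro k v hv
    have h := hEg k.1 χ₀ v hv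
    rwa [show (fun a => χ₀ (cj k.1 a)) = χ₀ from funext (T.normalCore_le k.2)] at h
  · exact fun h => hv₀0 (by rwa [h, Submodule.mem_bot] at hv₀E)
  · intro htop
    apply hns
    intro a ha
    refine ⟨χ₀ ⟨a, ha⟩, fun h0 => hv₀0 ?_, ?_⟩
    · have := hχ₀ ⟨a, ha⟩
      rw [h0, zero_smul] at this
      rw [← inv_apply_apply ρ a v₀, this, map_zero]
    · exact LinearMap.ext fun v => (hE _ _).1 (htop ▸ Submodule.mem_top) ⟨a, ha⟩

/-- A normal subgroup containing the scalars, commutative up to scalars, is small modulo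
scalars. -/
theorem relIndex_le [FiniteDimensional ℂ V] [Nontrivial V] (ρ : G →* Module.End ℂ V)
    (hscal : ∀ A : Subgroup G, A.Normal → (∀ a ∈ A, ∀ a' ∈ A, ρ a * ρ a' = ρ a' * ρ a) →
      A ≤ scal ρ)
    (F : Subgroup G) (hF : F.Normal) (hq : ∀ x ∈ F, ∀ y ∈ F, QComm ρ x y) :
    (scal ρ).relIndex F ≠ 0 ∧
      (scal ρ).relIndex F ≤ Module.finrank ℂ V * Module.finrank ℂ V := by
  classical
  let C : Subgroup G :=
    { carrier := {x | x ∈ F ∧ ∀ y ∈ F, ρ x * ρ y = ρ y * ρ x}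
      one_mem' := ⟨F.one_mem, fun y _ => by rw [map_one, one_mul, mul_one]⟩
      mul_mem' := fun {a b} ha hb => ⟨F.mul_mem ha.1 hb.1, fun y hy => by
        rw [map_mul, mul_assoc, hb.2 y hy, ← mul_assoc, ha.2 y hy, mul_assoc]⟩
      inv_mem' := fun {a} ha => ⟨F.inv_mem ha.1, fun y hy => by
        have h := congrArg (fun X => ρ a⁻¹ * X * ρ a⁻¹) (ha.2 y hy)
        simp only [← map_mul] at h ⊢
        refine Eq.trans ?_ (h.symm.trans ?_) <;> congr 1 <;> group⟩ }
  have hC : C.Normal := ⟨fun x hx g => ⟨hF.conj_mem x hx.1 g, fun y hy => by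
    have h := congrArg (fun X => ρ g * X * ρ g⁻¹)
      (hx.2 (g⁻¹ * y * g) (by simpa using hF.conj_mem y hy g⁻¹))
    simp only [← map_mul] at h ⊢
    refine Eq.trans ?_ (h.trans ?_) <;> congr 1 <;> group⟩⟩
  have hCs : C ≤ scal ρ := hscal C hC fun a ha a' ha' => ha.2 a' ha'.1
  let S : Subgroup F := (scal ρ).subgroupOf F
  have hz : ∀ (x y : F), ∃ z : ℂ, z ≠ 0 ∧ ρ x.1 * ρ y.1 = z • (ρ y.1 * ρ x.1) := fun x y =>
    qcomm_iff.1 (hq x.1 x.2 y.1 y.2)
  choose z hz0 hz using hz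
  have hne : ∀ x : G, ρ x ≠ 0 := fun x h => by
    obtain ⟨v, hv⟩ := exists_ne (0 : V)
    apply hv
    rw [← inv_apply_apply ρ x v, h, LinearMap.zero_apply, map_zero]
  have huniq : ∀ (a b : G) (w w' : ℂ), w • ρ (a * b) = w' • ρ (a * b) → w = w' := fun a b w w' h =>
    smul_left_injective ℂ (hne (a * b)) h
  let χ : F → (F →* ℂ) := fun x =>
    { toFun := fun y => z x y
      map_one' := huniq 1 x.1 _ _ (by
        rw [map_mul, map_one, one_mul, one_smul]
        simpa using (hz x 1).symm)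
      map_mul' := fun y y' => huniq (y * y' : F) x.1 _ _ (by
        rw [map_mul, ← hz, Subgroup.coe_mul, map_mul, ← mul_assoc, hz x y, smul_mul_assoc,
          mul_assoc, hz x y', mul_smul_comm, smul_smul, ← mul_assoc]) }
  have hinj : ∀ x x' : F, χ x = χ x' → (x : F ⧸ S) = x' := fun x x' h => by
    refine QuotientGroup.eq.2 (hCs ⟨(x⁻¹ * x').2, fun y hy => ?_⟩)
    have h1 : z x ⟨y, hy⟩ = z x' ⟨y, hy⟩ := DFunLike.congr_fun h ⟨y, hy⟩
    have h2 := hz x' ⟨y, hy⟩
    have h3 : ρ x.1⁻¹ * ρ y = (z x ⟨y, hy⟩)⁻¹ ^ (1 : ℕ) • (ρ y * ρ x.1⁻¹) := by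
      have h4 := congrArg (fun X => (z x ⟨y, hy⟩)⁻¹ • (ρ x.1⁻¹ * X * ρ x.1⁻¹)) (hz x ⟨y, hy⟩)
      simp only [mul_smul_comm, smul_mul_assoc, smul_smul, inv_mul_cancel₀ (hz0 x ⟨y, hy⟩),
        one_smul, ← map_mul, pow_one] at h4 ⊢
      rw [show x.1⁻¹ * (y * x.1) * x.1⁻¹ = x.1⁻¹ * y by group,
        show x.1⁻¹ * (x.1 * y) * x.1⁻¹ = y * x.1⁻¹ by group] at h4
      exact h4.symm
    show ρ (x.1⁻¹ * x'.1) * ρ y = ρ y * ρ (x.1⁻¹ * x'.1)
    rw [map_mul, mul_assoc, h2, mul_smul_comm, ← mul_assoc,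
      h3, pow_one, smul_mul_assoc, smul_smul, ← h1, mul_inv_cancel₀ (hz0 x ⟨y, hy⟩), one_smul,
      mul_assoc]
  have hli : LinearIndependent ℂ (fun q : F ⧸ S => ρ q.out.1) := by
    rw [linearIndependent_iff']
    intro t a hsum q hqt
    have hchar : ∀ y : F, ∑ q ∈ t, (a q * χ q.out y) • ρ q.out.1 = 0 := fun y => by
      have h1 := congrArg (fun X => ρ y.1⁻¹ * (X * ρ y.1)) hsum
      simp only [zero_mul, mul_zero, Finset.sum_mul, Finset.mul_sum] at h1
      rw [← h1]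
      refine Finset.sum_congr rfl fun q _ => ?_
      rw [smul_mul_assoc, hz, mul_smul_comm, mul_smul_comm, ← mul_assoc, ← map_mul,
        inv_mul_cancel, map_one, one_mul, smul_smul]
      rfl
    have hind := (linearIndependent_monoidHom F ℂ).comp (fun q : F ⧸ S => χ q.out)
      fun q q' h => by
        rw [← QuotientGroup.out_eq' q, ← QuotientGroup.out_eq' q']
        exact hinj _ _ h
    let bE := Module.finBasis ℂ (Module.End ℂ V)
    by_contra ha
    refine hne q.out.1 (bE.repr.map_eq_zero_iff.1 (Finsupp.ext fun j => ?_))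
    have h2 : ∑ q ∈ t, (a q * bE.repr (ρ q.out.1) j) • (χ q.out : F → ℂ) = 0 := by
      funext y
      have h3 := congrArg (fun X => bE.repr X j) (hchar y)
      simp only [map_sum, map_smul, Finsupp.finsetSum_apply, Finsupp.smul_apply, map_zero,
        Finsupp.zero_apply, smul_eq_mul] at h3
      rw [Finset.sum_apply, Pi.zero_apply, ← h3]
      refine Finset.sum_congr rfl fun q _ => ?_
      rw [Pi.smul_apply, smul_eq_mul]
      ring
    have h4 := linearIndependent_iff'.1 hind t _ h2 q hqt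
    exact (mul_eq_zero.1 h4).resolve_left ha
  have : Finite (F ⧸ S) := hli.finite
  have : Fintype (F ⧸ S) := Fintype.ofFinite _
  have hcard := hli.fintype_card_le_finrank
  rw [Module.finrank_linearMap] at hcard
  refine ⟨?_, ?_⟩
  · show S.index ≠ 0
    rw [Subgroup.index]
    exact Nat.card_pos.ne'
  · show S.index ≤ _
    rwa [Subgroup.index, Nat.card_eq_fintype_card]

/-- The primitive case. -/
theorem hasAb_of_primitive [Group.IsSolvable G] [FiniteDimensional ℂ V] [Nontrivial V]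
    (ρ : G →* Module.End ℂ V)
    (hscal : ∀ A : Subgroup G, A.Normal → (∀ a ∈ A, ∀ a' ∈ A, ρ a * ρ a' = ρ a' * ρ a) →
      A ≤ scal ρ) (m : ℕ) (hm : Module.finrank ℂ V ≤ m) :
    HasAb ρ ((m * m * m) ^ (m * m)) := by
  classical
  have hm1 : 1 ≤ Module.finrank ℂ V := Module.finrank_pos
  let Z := scal ρ
  have hZn : Z.Normal := scal_normal ρ
  let Good : ℕ → Prop := fun k => ∃ F : Subgroup G, F.Normal ∧ Z ≤ F ∧
    (∀ x ∈ F, ∀ y ∈ F, QComm ρ x y) ∧ Z.relIndex F = k
  have hle : ∀ k, Good k → k ≤ m * m := by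
    rintro k ⟨F, hFn, -, hq, rfl⟩
    exact (relIndex_le ρ hscal F hFn hq).2.trans (Nat.mul_le_mul hm hm)
  have hgood1 : Good 1 := ⟨Z, hZn, le_rfl, fun x hx y _ => qcomm_iff.2
    ⟨1, one_ne_zero, by rw [one_smul]; exact scal_comm hx y⟩, Subgroup.relIndex_self Z⟩
  obtain ⟨F, hFn, hZF, hq, hk⟩ :=
    Nat.sSup_mem (s := {k | Good k}) ⟨1, hgood1⟩ ⟨m * m, hle⟩
  have hmax : ∀ F' : Subgroup G, F'.Normal → F ≤ F' → (∀ x ∈ F', ∀ y ∈ F', QComm ρ x y) →
      F' ≤ F := by
    intro F' hF'n hFF' hq'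
    have h := relIndex_le ρ hscal F' hF'n hq'
    have hmul := Subgroup.relIndex_mul_relIndex Z F F' hZF hFF'
    have hle' : Z.relIndex F' ≤ Z.relIndex F := by
      rw [hk]
      exact le_csSup ⟨m * m, hle⟩ ⟨F', hF'n, hZF.trans hFF', hq', rfl⟩
    refine Subgroup.relIndex_eq_one.1 ?_
    have hF0 : 0 < Z.relIndex F := Nat.pos_of_ne_zero (relIndex_le ρ hscal F hFn hq).1
    have hX0 : F.relIndex F' ≠ 0 := fun h0 => h.1 (by rw [← hmul, h0, mul_zero])
    have hX1 : F.relIndex F' ≤ 1 := by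
      by_contra hlt
      push Not at hlt
      have := Nat.mul_le_mul_left (Z.relIndex F) hlt
      omega
    omega
  let S : Subgroup F := Z.subgroupOf F
  have hS := relIndex_le ρ hscal F hFn hq
  have : Finite (F ⧸ S) := Nat.finite_of_card_ne_zero hS.1
  have : Fintype (F ⧸ S) := Fintype.ofFinite _
  have hScard : Fintype.card (F ⧸ S) ≤ m * m := by
    rw [← Nat.card_eq_fintype_card]
    exact hS.2.trans (Nat.mul_le_mul hm hm)
  let d := Module.finrank ℂ V
  let X : F ⧸ S → Module.End ℂ V := fun q => ρ q.out.1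
  let Sq : F ⧸ S → Finset (Module.End ℂ V) := fun q => Finset.univ.biUnion fun q' =>
    (Polynomial.nthRoots d (LinearMap.det (X q) / LinearMap.det (X q'))).toFinset.image
      fun w => w • X q'
  have hdet0 : ∀ x : G, LinearMap.det (ρ x) ≠ 0 := fun x h => by
    have h1 := congrArg LinearMap.det (show ρ x * ρ x⁻¹ = 1 by
      rw [← map_mul, mul_inv_cancel, map_one])
    rw [map_mul, h, zero_mul, map_one] at h1
    exact zero_ne_one h1
  have hrep : ∀ x : F, ∃ w : ℂ, ρ x.1 = w • X (x : F ⧸ S) := fun x => by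
    have h := (QuotientGroup.eq.1 (QuotientGroup.out_eq' (x : F ⧸ S)))
    obtain ⟨w, -, hw⟩ := h
    refine ⟨w, ?_⟩
    rw [Subgroup.coe_subtype, Subgroup.coe_mul, Subgroup.coe_inv, map_mul] at hw
    have h2 := congrArg (fun Y => ρ (x : F ⧸ S).out.1 * Y) hw
    simp only [← mul_assoc, ← map_mul, mul_inv_cancel, map_one, one_mul, mul_smul_comm,
      mul_one] at h2
    exact h2
  have hmemSq : ∀ g q, ρ g * X q * ρ g⁻¹ ∈ Sq q := by
    intro g q
    let x : F := ⟨g * q.out.1 * g⁻¹, hFn.conj_mem _ q.out.2 g⟩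
    obtain ⟨w, hw⟩ := hrep x
    have hx : ρ x.1 = ρ g * X q * ρ g⁻¹ := by rw [map_mul, map_mul]
    rw [← hx, hw]
    refine Finset.mem_biUnion.2 ⟨(x : F ⧸ S), Finset.mem_univ _,
      Finset.mem_image.2 ⟨w, ?_, rfl⟩⟩
    rw [Multiset.mem_toFinset, Polynomial.mem_nthRoots Module.finrank_pos,
      eq_div_iff (hdet0 _)]
    show w ^ d * _ = _
    rw [← LinearMap.det_smul, ← hw, hx, map_mul, map_mul, mul_comm (LinearMap.det (ρ g)),
      mul_assoc, ← map_mul LinearMap.det (ρ g), ← map_mul ρ, mul_inv_cancel, map_one, map_one,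
      mul_one]
  have hSq : ∀ q, (Sq q).card ≤ m * m * m := fun q => by
    refine Finset.card_biUnion_le.trans ?_
    refine (Finset.sum_le_card_nsmul _ _ m fun q' _ => Finset.card_image_le.trans
      ((Multiset.toFinset_card_le _).trans ((Polynomial.card_nthRoots _ _).trans hm))).trans ?_
    rw [smul_eq_mul, Finset.card_univ]
    exact Nat.mul_le_mul_right m hScard
  let C : Subgroup G :=
    { carrier := {g | ∀ q, ρ g * X q = X q * ρ g}
      one_mem' := fun q => by rw [map_one, one_mul, mul_one]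
      mul_mem' := fun {a b} ha hb q => by
        rw [map_mul, mul_assoc, hb, ← mul_assoc, ha, mul_assoc]
      inv_mem' := fun {a} ha q => by
        have h := congrArg (fun Y => ρ a⁻¹ * Y * ρ a⁻¹) (ha q)
        simp only [X, ← map_mul] at h ⊢
        refine Eq.trans ?_ (h.symm.trans ?_) <;> congr 1 <;> group }
  have hCF : ∀ g ∈ C, ∀ x ∈ F, ρ g * ρ x = ρ x * ρ g := by
    intro g hg x hx
    obtain ⟨w, hw⟩ := hrep ⟨x, hx⟩
    rw [show ρ x = _ from hw, mul_smul_comm, smul_mul_assoc, hg]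
  have hCn : C.Normal := ⟨fun g hg h q => by
    have h1 := congrArg (fun Y => ρ h * Y * ρ h⁻¹) (hCF g hg (h⁻¹ * q.out.1 * h)
      (by simpa using hFn.conj_mem _ q.out.2 h⁻¹))
    simp only [X, ← map_mul] at h1 ⊢
    refine Eq.trans ?_ (h1.trans ?_) <;> congr 1 <;> group⟩
  let orb : G ⧸ C → (∀ q : F ⧸ S, Sq q) := fun c q => ⟨_, hmemSq c.out q⟩
  have horb : Function.Injective orb := fun c c' h => by
    rw [← QuotientGroup.out_eq' c, ← QuotientGroup.out_eq' c']
    refine QuotientGroup.eq.2 fun q => ?_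
    have h1 := congrArg (fun Y => ρ c.out⁻¹ * Y * ρ c'.out) (congrArg Subtype.val (congrFun h q))
    simp only [orb, X, ← map_mul] at h1 ⊢
    refine Eq.trans ?_ (h1.symm.trans ?_) <;> congr 1 <;> group
  have : Finite (G ⧸ C) := Finite.of_injective orb horb
  have hCindex : C.index ≠ 0 ∧ C.index ≤ (m * m * m) ^ (m * m) := by
    rw [Subgroup.index]
    refine ⟨Nat.card_pos.ne', (Nat.card_le_card_of_injective orb horb).trans ?_⟩
    rw [Nat.card_pi]
    simp only [Nat.card_eq_fintype_card, Fintype.card_coe]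
    refine (Finset.prod_le_pow_card _ _ _ fun q _ => hSq q).trans ?_
    rw [Finset.card_univ]
    exact Nat.pow_le_pow_right (by
      have : 1 ≤ m := hm1.trans hm
      positivity) hScard
  let Ck : ℕ → Subgroup G := fun k =>
    Nat.rec (motive := fun _ => Subgroup G) C (fun _ B => ⁅B, B⁆) k
  have hCkn : ∀ k, (Ck k).Normal := by
    intro k
    induction k with
    | zero => exact hCn
    | succ k ih => exact @Subgroup.commutator_normal G _ (Ck k) (Ck k) ih ih
  have hCkC : ∀ k, Ck k ≤ C ∧ Ck k ≤ derivedSeries G k := by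
    intro k
    induction k with
    | zero => exact ⟨le_rfl, le_top⟩
    | succ k ih =>
      exact ⟨(Subgroup.commutator_le_left _ _).trans ih.1, Subgroup.commutator_mono ih.2 ih.2⟩
  have hCZ : C ≤ Z := by
    by_contra hcon
    obtain ⟨N, hN⟩ := (Group.isSolvable_def G).1 inferInstance
    have hex : ∃ k, Ck k ≤ Z := ⟨N, fun x hx => by
      have := (hCkC N).2 hx
      rw [hN, Subgroup.mem_bot] at this
      rw [this]; exact Z.one_mem⟩
    obtain ⟨j, hj⟩ : ∃ j, Nat.find hex = j + 1 := ⟨Nat.find hex - 1, by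
      have : Nat.find hex ≠ 0 := fun h0 => hcon (by
        have h := Nat.find_spec hex
        rw [h0] at h
        exact h)
      omega⟩
    have hj0 : ¬Ck j ≤ Z := Nat.find_min hex (by omega)
    have hj1 : ⁅Ck j, Ck j⁆ ≤ Z := by
      show Ck (j + 1) ≤ Z
      rw [← hj]; exact Nat.find_spec hex
    have hjn : (Ck j).Normal := hCkn j
    have hF' : ∀ x ∈ F ⊔ Ck j, ∀ y ∈ F ⊔ Ck j, QComm ρ x y := by
      intro x hx y hy
      obtain ⟨f, hf, b, hb, rfl⟩ := Subgroup.mem_sup_of_normal_right.1 hx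
      obtain ⟨f', hf', b', hb', rfl⟩ := Subgroup.mem_sup_of_normal_right.1 hy
      obtain ⟨z, hz0, hz⟩ := qcomm_iff.1 (hq f hf f' hf')
      obtain ⟨z', hz0', hz'⟩ :=
        qcomm_iff.1 (show QComm ρ b b' from hj1 (Subgroup.commutator_mem_commutator hb hb'))
      refine qcomm_iff.2 ⟨z * z', mul_ne_zero hz0 hz0', ?_⟩
      have e1 := hCF b ((hCkC j).1 hb) f' hf'
      have e2 := hCF b' ((hCkC j).1 hb') f hf
      rw [map_mul, map_mul, mul_assoc, ← mul_assoc (ρ b), e1, mul_assoc, ← mul_assoc (ρ f), hz,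
        hz', smul_mul_assoc, mul_smul_comm, smul_smul]
      congr 1
      rw [mul_assoc, ← mul_assoc (ρ f) (ρ b') (ρ b), ← e2, mul_assoc, mul_assoc]
    have hle' := hmax (F ⊔ Ck j) (Subgroup.sup_normal F (Ck j)) le_sup_left hF'
    refine hj0 fun x hx => ?_
    have hxF : x ∈ F := hle' (Subgroup.mem_sup_right hx)
    let CF : Subgroup G := C ⊓ F
    have hn : CF.Normal := Subgroup.normal_inf_normal C F
    exact hscal CF hn (fun a ha a' ha' => hCF a ha.1 a' ha'.2) ⟨(hCkC j).1 hx, hxF⟩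
  exact ⟨C, hCindex.1, hCindex.2, fun x hx y _ => scal_comm (hCZ hx) y⟩

/-- Malcev: a solvable group acting semisimply in bounded dimension has commutative image on a
subgroup of bounded index. -/
theorem malcev (d : ℕ) : ∃ N : ℕ, 0 < N ∧ ∀ (G : Type u) [Group G] [Group.IsSolvable G]
    (V : Type) [AddCommGroup V] [Module ℂ V] [FiniteDimensional ℂ V]
    (ρ : G →* Module.End ℂ V), Module.finrank ℂ V ≤ d → SS ρ → HasAb ρ N := by
  induction d with
  | zero =>
    refine ⟨1, one_pos, fun G _ _ V _ _ _ ρ hd _ =>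
      ⟨⊤, by simp, by simp, fun x _ y _ => ?_⟩⟩
    have : Subsingleton V := Module.finrank_zero_iff.1 (Nat.le_zero.1 hd)
    exact LinearMap.ext fun v => Subsingleton.elim _ _
  | succ d ih =>
    obtain ⟨N, hN0, hN⟩ := ih
    refine ⟨N * N * (d + 1).factorial + ((d + 1) * (d + 1) * (d + 1)) ^ ((d + 1) * (d + 1)),
      by positivity, fun G _ _ V _ _ _ ρ hd hss => ?_⟩
    have red : ∀ (H : Type u) [Group H] [Group.IsSolvable H] (σ : H →* Module.End ℂ V), SS σ →
        ∀ W, Inv σ W → W ≠ ⊥ → W ≠ ⊤ → HasAb σ (N * N) := by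
      intro H _ _ σ hσ W hW h0 h1
      obtain ⟨W', hW', hc⟩ := hσ W hW
      have hadd := Submodule.finrank_add_eq_of_isCompl hc
      have hW1 : 1 ≤ Module.finrank ℂ W := Submodule.one_le_finrank_iff.2 h0
      have hW'0 : W' ≠ ⊥ := fun h => h1 (by simpa [h] using hc.sup_eq_top)
      have hW'1 : 1 ≤ Module.finrank ℂ W' := Submodule.one_le_finrank_iff.2 hW'0
      exact hasAb_of_isCompl hW hW' hc (hN H W (res σ W hW) (by omega) (hσ.res W hW))
        (hN H W' (res σ W' hW') (by omega) (hσ.res W' hW'))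
    by_cases hsmall : Module.finrank ℂ V ≤ d
    · refine (hN G V ρ hsmall hss).mono (le_add_right ?_)
      calc N ≤ N * N := Nat.le_mul_of_pos_left N hN0
        _ ≤ N * N * (d + 1).factorial := Nat.le_mul_of_pos_right _ (Nat.factorial_pos _)
    have : Nontrivial V := Module.nontrivial_of_finrank_pos (R := ℂ) (by omega)
    by_cases hirr : ∀ W, Inv ρ W → W = ⊥ ∨ W = ⊤
    · by_cases hscal : ∀ A : Subgroup G, A.Normal →
          (∀ a ∈ A, ∀ a' ∈ A, ρ a * ρ a' = ρ a' * ρ a) → A ≤ scal ρ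
      · exact (hasAb_of_primitive ρ hscal (d + 1) hd).mono (Nat.le_add_left _ _)
      · push Not at hscal
        obtain ⟨A, hAn, hA, hns⟩ := hscal
        obtain ⟨K, hKn, hK0, hKle, W, hW, hW0, hW1⟩ := exists_block ρ hirr A hA hns
        exact (hasAb_of_subgroup hK0 (hKle.trans (Nat.factorial_le hd))
          (red K _ (hss.comp_normal K) W hW hW0 hW1)).mono (Nat.le_add_right _ _)
    · push Not at hirr
      obtain ⟨W, hW, hW0, hW1⟩ := hirr
      exact (red G ρ hss W hW hW0 hW1).mono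
        (le_add_right (Nat.le_mul_of_pos_right _ (Nat.factorial_pos _)))

end Vale.Agent.P002.VSolv
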