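import Vale.Agent.P002.VAbMain
import Vale.Agent.P002.VSolvMalcev

/-!
P002, virtually solvable groups: reduction to the virtually abelian case.
-/

namespace Vale.Agent.P002.VSolv

open Matrix Vale.Agent.P002.VAb

universe u

theorem finite_hom {G : Type u} [Group G] [Group.FG G] (k : ℕ) :
    Finite (G →* Equiv.Perm (Fin k)) := by
  obtain ⟨T, hT, hfin⟩ := Group.fg_iff.1 (inferInstance : Group.FG G)
  have := hfin.to_subtype
  refine Finite.of_injective (fun (p : G →* Equiv.Perm (Fin k)) (t : T) => p t.1) fun p q h => ?_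
  refine MonoidHom.eq_of_eqOn_top fun x hx => ?_
  rw [← hT] at hx
  exact MonoidHom.eqOn_closure (fun y hy => congrFun h ⟨y, hy⟩) hx

/-- The intersection of the kernels of all actions on at most `N` points. -/
def deep (G : Type u) [Group G] (N : ℕ) : Subgroup G :=
  ⨅ p : Σ k : Fin (N + 1), G →* Equiv.Perm (Fin k.1), p.2.ker

theorem deep_finiteIndex (G : Type u) [Group G] [Group.FG G] (N : ℕ) : (deep G N).FiniteIndex := by
  have : ∀ k : Fin (N + 1), Finite (G →* Equiv.Perm (Fin k.1)) := fun k => finite_hom k.1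
  exact Subgroup.finiteIndex_iInf fun p => inferInstance

theorem deep_le {G : Type u} [Group G] {N : ℕ} {H : Subgroup G} (h0 : H.index ≠ 0)
    (h : H.index ≤ N) : deep G N ≤ H := by
  have : Finite (G ⧸ H) := Nat.finite_of_card_ne_zero h0
  let e : (G ⧸ H) ≃ Fin H.index := Finite.equivFin (G ⧸ H)
  let p : G →* Equiv.Perm (Fin H.index) :=
    e.permCongrHom.toMonoidHom.comp (MulAction.toPermHom G (G ⧸ H))
  intro x hx
  have hp : x ∈ p.ker :=
    (iInf_le (fun q : Σ k : Fin (N + 1), G →* Equiv.Perm (Fin k.1) => q.2.ker)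
      ⟨⟨H.index, Nat.lt_succ_of_le h⟩, p⟩) hx
  have h1 : (MulAction.toPermHom G (G ⧸ H)) x = 1 := by
    apply e.permCongrHom.injective
    rw [map_one]
    exact hp
  have h2 : x • ((1 : G) : G ⧸ H) = ((1 : G) : G ⧸ H) :=
    congrArg (fun σ : Equiv.Perm (G ⧸ H) => σ ((1 : G) : G ⧸ H)) h1
  rw [MulAction.Quotient.smul_coe, smul_eq_mul, mul_one, eq_comm, QuotientGroup.eq] at h2
  simpa using h2

variable {Γ : Type u} [Group Γ] {r : ℕ} {ι : Type*}

/-- A finitely generated virtually solvable group has a normal subgroup of finite index on which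
every semisimple representation of dimension `r` has commutative image. -/
theorem exists_uniform [Group.FG Γ] (S : Subgroup Γ) [S.Normal] [S.FiniteIndex]
    [Group.IsSolvable S] (r : ℕ) :
    ∃ N₀ : Subgroup Γ, N₀.Normal ∧ N₀.FiniteIndex ∧
      ∀ ρ : Γ →* SpecialLinearGroup (Fin r) ℂ, IsSemisimpleRep ρ →
        ∀ x ∈ N₀, ∀ y ∈ N₀, ρ x * ρ y = ρ y * ρ x := by
  obtain ⟨N, -, hN⟩ := malcev.{u} r
  have : Group.FG S := Subgroup.fg_of_index_ne_zero (H := S)
  have := deep_finiteIndex S N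
  have : ((deep S N).map S.subtype).FiniteIndex := ⟨by
    rw [Subgroup.index_map_subtype]
    exact mul_ne_zero (Subgroup.FiniteIndex.index_ne_zero (H := deep S N))
      (Subgroup.FiniteIndex.index_ne_zero (H := S))⟩
  refine ⟨((deep S N).map S.subtype).normalCore, inferInstance, inferInstance,
    fun ρ hρ x hx y hy => ?_⟩
  let L : Γ →* Module.End ℂ (Fin r → ℂ) :=
    { toFun := fun γ => (ρ γ).1.mulVecLin
      map_one' := by rw [map_one, sl_one, mulVecLin_one]; rfl
      map_mul' := fun a b => by rw [map_mul, sl_mul, mulVecLin_mul]; rfl }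
  have hL : SS L := fun W hW => hρ W hW
  obtain ⟨H, h0, h1, h2⟩ := hN S (Fin r → ℂ) (L.comp S.subtype)
    (by rw [Module.finrank_fin_fun]) (hL.comp_normal S)
  obtain ⟨a, ha, rfl⟩ := ((deep S N).map S.subtype).normalCore_le hx
  obtain ⟨b, hb, rfl⟩ := ((deep S N).map S.subtype).normalCore_le hy
  have h3 := h2 a (deep_le h0 h1 ha) b (deep_le h0 h1 hb)
  apply Subtype.ext
  apply Matrix.toLin'.injective
  rw [sl_mul, sl_mul, Matrix.toLin'_mul, Matrix.toLin'_mul]
  exact h3

theorem main {n : ℕ} (g : Fin n → Γ) (hg : Subgroup.closure (Set.range g) = ⊤)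
    (S : Subgroup Γ) [S.Normal] [S.FiniteIndex] [Group.IsSolvable S]
    [Finite ι] (γc : ι → Γ) (c : ι → SpecialLinearGroup (Fin r) ℂ)
    (hc : ∀ i, ∀ z ∈ spectrum ℂ (c i).1, ∃ m : ℕ, 0 < m ∧ z ^ m = 1) :
    ∃ L : IntermediateField ℚ ℂ, FiniteDimensional ℚ L ∧
      ∀ f : MvPolynomial (Fin n × Fin r × Fin r) ℂ,
        (∀ ρ : Γ →* SpecialLinearGroup (Fin r) ℂ, IsSemisimpleRep ρ →
          (∀ i, IsConj (ρ (γc i)) (c i)) → IsIntegralPoint g L ρ →
            MvPolynomial.aeval (coords g ρ) f = 0) →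
      ∀ ρ : Γ →* SpecialLinearGroup (Fin r) ℂ, IsSemisimpleRep ρ →
        (∀ i, IsConj (ρ (γc i)) (c i)) → MvPolynomial.aeval (coords g ρ) f = 0 := by
  have : Group.FG Γ := Group.fg_iff.2 ⟨Set.range g, hg, Set.finite_range g⟩
  obtain ⟨N₀, hN₀n, hN₀f, hN₀⟩ := exists_uniform S r
  let q : Γ →* Γ ⧸ ⁅N₀, N₀⁆ := QuotientGroup.mk' _
  have hqs : Function.Surjective q := QuotientGroup.mk'_surjective _
  let A : Subgroup (Γ ⧸ ⁅N₀, N₀⁆) := N₀.map q
  have hAn : A.Normal := hN₀n.map q hqs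
  have hAf : A.FiniteIndex := ⟨fun h => by
    have hd := Subgroup.index_map_dvd N₀ hqs
    rw [show (N₀.map q).index = 0 from h, zero_dvd_iff] at hd
    exact Subgroup.FiniteIndex.index_ne_zero hd⟩
  have hA : ∀ a ∈ A, ∀ b ∈ A, a * b = b * a := by
    rintro _ ⟨a, ha, rfl⟩ _ ⟨b, hb, rfl⟩
    rw [← commutatorElement_eq_one_iff_mul_comm, ← map_commutatorElement]
    exact (QuotientGroup.eq_one_iff _).2 (Subgroup.commutator_mem_commutator ha hb)
  obtain ⟨L, hL, hdense⟩ := VAb.main (fun i => q (g i))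
    (by rw [show (Set.range fun i => q (g i)) = q '' Set.range g from Set.range_comp q g,
      ← MonoidHom.map_closure, hg, Subgroup.map_top_of_surjective q hqs])
    A hA (fun i => q (γc i)) c hc
  refine ⟨L, hL, fun f hf ρ hρ hρc => ?_⟩
  have hker : ⁅N₀, N₀⁆ ≤ ρ.ker := Subgroup.commutator_le.2 fun a ha b hb => by
    rw [MonoidHom.mem_ker, map_commutatorElement, commutatorElement_eq_one_iff_mul_comm]
    exact hN₀ ρ hρ a ha b hb
  let ρb := QuotientGroup.lift ⁅N₀, N₀⁆ ρ hker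
  refine hdense f (fun σ hσ hσc hσi => ?_) ρb (fun W hW => ?_) hρc
  · refine hf (σ.comp q) (fun W hW => ?_) hσc (fun p hp => hσi p fun σ' P => hp (σ'.comp q) P)
    obtain ⟨W', hW', hc'⟩ := hσ W fun x v hv => by
      obtain ⟨y, rfl⟩ := hqs x
      exact hW y v hv
    exact ⟨W', fun y v hv => hW' (q y) v hv, hc'⟩
  · obtain ⟨W', hW', hc'⟩ := hρ W fun y v hv => hW (q y) v hv
    refine ⟨W', fun x v hv => ?_, hc'⟩
    obtain ⟨y, rfl⟩ := hqs x
    exact hW' y v hv

end Vale.Agent.P002.VSolv
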