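import Mathlib

/-!
P002, virtually solvable groups: generalities on semisimple representations by endomorphisms.
-/

namespace Vale.Agent.P002.VSolv

variable {G : Type*} [Group G] {V : Type*} [AddCommGroup V] [Module ℂ V]

/-- Invariance of a subspace. -/
def Inv (ρ : G →* Module.End ℂ V) (W : Submodule ℂ V) : Prop := ∀ g, ∀ v ∈ W, ρ g v ∈ W

/-- Every invariant subspace has an invariant complement. -/
def SS (ρ : G →* Module.End ℂ V) : Prop :=
  ∀ W, Inv ρ W → ∃ W', Inv ρ W' ∧ IsCompl W W'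

/-- The representation on an invariant subspace. -/
def res (ρ : G →* Module.End ℂ V) (W : Submodule ℂ V) (hW : Inv ρ W) : G →* Module.End ℂ W where
  toFun g := (ρ g).restrict (hW g)
  map_one' := by ext v; simp [LinearMap.restrict]
  map_mul' x y := by ext v; simp [LinearMap.restrict]

theorem res_apply (ρ : G →* Module.End ℂ V) (W : Submodule ℂ V) (hW : Inv ρ W) (g : G) (v : W) :
    (res ρ W hW g v : V) = ρ g v := rfl

theorem SS.res {ρ : G →* Module.End ℂ V} (h : SS ρ) (W : Submodule ℂ V) (hW : Inv ρ W) :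
    SS (res ρ W hW) := by
  intro U hU
  have hU' : Inv ρ (U.map W.subtype) := by
    rintro g _ ⟨u, hu, rfl⟩
    exact ⟨_, hU g u hu, rfl⟩
  obtain ⟨U', hU'inv, hc⟩ := h _ hU'
  refine ⟨U'.comap W.subtype, fun g v hv => hU'inv g _ hv, ⟨?_, ?_⟩⟩
  · rw [Submodule.disjoint_def]
    intro v hv hv'
    exact Subtype.ext (Submodule.disjoint_def.1 hc.disjoint _ ⟨v, hv, rfl⟩ hv')
  · rw [codisjoint_iff, eq_top_iff]
    intro v _
    obtain ⟨a, ha, b, hb, hab⟩ := Submodule.mem_sup.1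
      (hc.sup_eq_top ▸ Submodule.mem_top (x := (v : V)))
    obtain ⟨u, hu, rfl⟩ := ha
    refine Submodule.mem_sup.2 ⟨u, hu, v - u, ?_, add_sub_cancel u v⟩
    show ((v - u : W) : V) ∈ U'
    rw [Submodule.coe_sub, ← hab]
    simpa using hb

theorem inv_apply_apply (ρ : G →* Module.End ℂ V) (g : G) (v : V) : ρ g⁻¹ (ρ g v) = v := by
  rw [← Module.End.mul_apply, ← map_mul, inv_mul_cancel, map_one, Module.End.one_apply]

/-- Clifford: the restriction of a semisimple representation to a normal subgroup is semisimple. -/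
theorem SS.comp_normal [FiniteDimensional ℂ V] {ρ : G →* Module.End ℂ V} (h : SS ρ)
    (K : Subgroup G) [K.Normal] : SS (ρ.comp K.subtype) := by
  let σ := ρ.comp K.subtype
  let simples : Set (Submodule ℂ V) :=
    {U | U ≠ ⊥ ∧ Inv σ U ∧ ∀ U' ≤ U, Inv σ U' → U' = ⊥ ∨ U' = U}
  have hmin : ∀ W, W ≠ ⊥ → Inv σ W → ∃ U ∈ simples, U ≤ W := by
    intro W hW0 hW
    obtain ⟨U, ⟨hU0, hUW, hUi⟩, hmin⟩ := wellFounded_lt.has_min
      {U : Submodule ℂ V | U ≠ ⊥ ∧ U ≤ W ∧ Inv σ U} ⟨W, hW0, le_rfl, hW⟩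
    refine ⟨U, ⟨hU0, hUi, fun U' hle hi => ?_⟩, hUW⟩
    by_contra hcon
    push Not at hcon
    exact hmin U' ⟨hcon.1, hle.trans hUW, hi⟩ (lt_of_le_of_ne hle hcon.2)
  have hmapinv : ∀ (g : G) U, Inv σ U → Inv σ (U.map (ρ g)) := by
    rintro g U hU k _ ⟨v, hv, rfl⟩
    have hk : g⁻¹ * k.1 * g ∈ K := by
      simpa using Subgroup.Normal.conj_mem inferInstance k.1 k.2 g⁻¹
    refine ⟨ρ (g⁻¹ * k.1 * g) v, hU ⟨_, hk⟩ v hv, ?_⟩
    show ρ g (ρ (g⁻¹ * k.1 * g) v) = ρ k.1 (ρ g v)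
    rw [← Module.End.mul_apply, ← Module.End.mul_apply, ← map_mul, ← map_mul]
    congr 2
    group
  have hmapmap : ∀ (g : G) (U : Submodule ℂ V), (U.map (ρ g)).map (ρ g⁻¹) = U := by
    intro g U
    rw [← Submodule.map_comp]
    convert U.map_id
    exact LinearMap.ext (inv_apply_apply ρ g)
  have hsimp : ∀ g, ∀ U ∈ simples, U.map (ρ g) ∈ simples := by
    rintro g U ⟨hU0, hUi, hUm⟩
    refine ⟨fun h0 => hU0 ?_, hmapinv g U hUi, fun U' hle hi => ?_⟩
    · rw [← hmapmap g U, h0, Submodule.map_bot]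
    · have hle' : U'.map (ρ g⁻¹) ≤ U := (Submodule.map_mono hle).trans_eq (hmapmap g U)
      have hback : (U'.map (ρ g⁻¹)).map (ρ g) = U' := by
        simpa using hmapmap g⁻¹ U'
      rcases hUm _ hle' (hmapinv _ _ hi) with h | h
      · left; rw [← hback, h, Submodule.map_bot]
      · right; rw [← hback, h]
  have hSinv : Inv ρ (sSup simples) := by
    intro g v hv
    have hle : sSup simples ≤ (sSup simples).comap (ρ g) := sSup_le fun U hU =>
      Submodule.map_le_iff_le_comap.1 (le_sSup (hsimp g U hU))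
    exact hle hv
  obtain ⟨R, hR, hc⟩ := h _ hSinv
  have hR0 : R = ⊥ := by
    by_contra hne
    obtain ⟨U, hU, hUR⟩ := hmin R hne fun k v hv => hR k.1 v hv
    exact hU.1 (le_bot_iff.1 ((le_inf (le_sSup hU) hUR).trans hc.inf_eq_bot.le))
  have htop : sSup simples = ⊤ := by
    have h := hc.sup_eq_top
    rwa [hR0, sup_bot_eq] at h
  intro W hW
  obtain ⟨U, ⟨hUi, hUd⟩, hUmax⟩ := wellFounded_gt.has_min
    {U : Submodule ℂ V | Inv σ U ∧ Disjoint W U} ⟨⊥, fun k v hv => by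
      rw [Submodule.mem_bot] at hv ⊢; simp [hv], disjoint_bot_right⟩
  refine ⟨U, hUi, hUd, codisjoint_iff.2 ?_⟩
  have hsupinv : ∀ {X Y : Submodule ℂ V}, Inv σ X → Inv σ Y → Inv σ (X ⊔ Y) := by
    intro X Y hX hY k v hv
    obtain ⟨a, ha, b, hb, rfl⟩ := Submodule.mem_sup.1 hv
    rw [map_add]
    exact Submodule.add_mem_sup (hX k a ha) (hY k b hb)
  rw [eq_top_iff, ← htop]
  refine sSup_le fun X hX => ?_
  have hinf : Inv σ (X ⊓ (W ⊔ U)) := fun k v hv => ⟨hX.2.1 k v hv.1, hsupinv hW hUi k v hv.2⟩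
  rcases hX.2.2 _ inf_le_left hinf with h0 | h0
  · exfalso
    have hd : Disjoint W (U ⊔ X) :=
      Disjoint.disjoint_sup_right_of_disjoint_sup_left hUd
        (disjoint_iff.2 (by rw [inf_comm, h0]))
    refine hUmax (U ⊔ X) ⟨hsupinv hUi hX.2.1, hd⟩ (lt_of_le_of_ne le_sup_left fun he => hX.1 ?_)
    have hle : X ≤ X ⊓ (W ⊔ U) := le_inf le_rfl ((le_sup_right.trans he.symm.le).trans le_sup_right)
    rw [h0] at hle
    exact le_bot_iff.1 hle
  · exact inf_eq_left.1 h0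

end Vale.Agent.P002.VSolv
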